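import Vale.Agent.P190.Minimise.Filt

/-!
P190, MINIMISE: families of subspaces of bounded windows stable under the monomials: dimensions
are eventually polynomial and the families are eventually generated in degree one.
-/

open Filter Finset

namespace Vale.Agent.P190.Minimise

/-- The three monomials of degree one. -/
def ux : Mon := (1, 0, 0)
/-- The three monomials of degree one. -/
def uy : Mon := (0, 1, 0)
/-- The three monomials of degree one. -/
def uz : Mon := (0, 0, 1)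

lemma exists_le_of_pos {p : Mon} (h : p ≠ 0) : ux ≤ p ∨ uy ≤ p ∨ uz ≤ p := by
  obtain ⟨a, b, c⟩ := p
  simp only [ne_eq, Prod.mk_eq_zero] at h
  simp only [ux, uy, uz, Prod.mk_le_mk, Nat.zero_le, and_true, true_and]
  omega

lemma eq_add_of_lt {p p' : Mon} (h : p < p') : ∃ u, (u = ux ∨ u = uy ∨ u = uz) ∧
    ∃ q, p ≤ q ∧ p' = u + q := by
  have hne : p' - p ≠ 0 := fun e => h.not_ge (tsub_eq_zero_iff_le.1 e)
  rcases exists_le_of_pos hne with h' | h' | h' <;>
    [refine ⟨ux, Or.inl rfl, (p' - p - ux) + p, le_add_self, ?_⟩;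
     refine ⟨uy, Or.inr (Or.inl rfl), (p' - p - uy) + p, le_add_self, ?_⟩;
     refine ⟨uz, Or.inr (Or.inr rfl), (p' - p - uz) + p, le_add_self, ?_⟩] <;>
  rw [← add_assoc, add_tsub_cancel_of_le h', tsub_add_cancel_of_le h.le]

/-- Far out an up-set is generated from one degree below. -/
lemma upset_pred {S : Set Mon} (hS : IsUpperSet S) : ∀ᶠ j in atTop, ∀ p ∈ S, deg p = j →
    ∃ u, (u = ux ∨ u = uy ∨ u = uz) ∧ ∃ q ∈ S, p = u + q := by
  set B : Set Mon :=
    {p ∈ S | ∀ u, (u = ux ∨ u = uy ∨ u = uz) → ∀ q ∈ S, p ≠ u + q} with hB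
  have hfin : B.Finite := by
    by_contra hinf
    have hinf : B.Infinite := hinf
    haveI := hinf.to_subtype
    let f := Infinite.natEmbedding B
    obtain ⟨i, j, hij, hle⟩ := wellQuasiOrdered_le fun n => (f n : Mon)
    have hlt : (f i : Mon) < f j := lt_of_le_of_ne hle fun e =>
      hij.ne (f.injective (Subtype.ext e))
    obtain ⟨u, hu, q, hq, e⟩ := eq_add_of_lt hlt
    exact (f j).2.2 u hu q (hS hq (f i).2.1) e
  obtain ⟨D, hD⟩ := (hfin.image deg).bddAbove
  filter_upwards [eventually_gt_atTop D] with j hj p hp hd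
  by_contra h
  push Not at h
  exact (hD ⟨p, ⟨hp, h⟩, hd⟩).not_gt hj

variable (k : Type*) [Field k] (r : ℕ)

/-- A family of subspaces seen in a window, stable under the monomials. -/
structure Fam where
  /-- The members. -/
  A : ℕ → Submodule k (Vec k r)
  upper : ∀ n, ∀ v ∈ A n, ∀ t : Term r, deg t.1 < n → v t = 0
  shift : ∀ p n, ∀ v ∈ A n, sh p v ∈ A (n + deg p)

variable {k r}

/-- The leading monomials. -/
def Fam.lt (Ψ : Fam k r) (l : ℕ) (i : Fin r) : Set Mon :=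
  {p | l ≤ deg p ∧ ∃ v ∈ Ψ.A (deg p - l), Lead v (p, i)}

lemma Fam.lt_isUpper (Ψ : Fam k r) (l : ℕ) (i : Fin r) : IsUpperSet (Ψ.lt l i) := by
  rintro p p' hp ⟨hl, v, hv, hlead⟩
  obtain ⟨d, rfl⟩ : ∃ d, p' = d + p := ⟨p' - p, (tsub_add_cancel_of_le hp).symm⟩
  refine ⟨by rw [deg_add]; omega, sh d v, ?_, hlead.sh d⟩
  have := Ψ.shift d _ v hv
  rwa [show deg (d + p) - l = deg p - l + deg d by rw [deg_add]; omega]

/-- A family in a single degree has an eventually polynomial dimension, of slope at most zero. -/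
theorem Fam.data (Ψ : Fam k r) : ∃ ρ e c : ℤ, 0 ≤ ρ ∧ ρ ≤ r ∧ e ≤ 0 ∧
    ∀ᶠ n in atTop, (dimW n 1 (Ψ.A n) : ℤ) = poly ρ e c n := by
  classical
  choose q e c hq0 hq1 he hc using fun i : Fin r => cnt₃_data (Ψ.lt_isUpper 0 i)
  refine ⟨∑ i, (1 - q i), -∑ i, e i, -∑ i, c i,
    sum_nonneg fun i _ => by linarith [hq1 i], (sum_le_sum fun i _ =>
      (show 1 - q i ≤ 1 by linarith [hq0 i])).trans_eq (by simp),
    by simpa using sum_nonneg fun i _ => he i, ?_⟩
  filter_upwards [eventually_all.2 hc] with n hn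
  have e1 : ∀ i, (((monos n).filter fun p => ∃ v ∈ Ψ.A n, Lead v (p, i)).card : ℤ) =
      tri n - cnt₃ (Ψ.lt 0 i) n := fun i => by
    rw [← card_monos, ← card_monos_filter, eq_sub_iff_add_eq]
    have h := card_filter_add_card_filter_not (s := monos n) (fun p => p ∈ Ψ.lt 0 i)
    rw [← h]
    push_cast
    congr 3
    refine filter_congr fun p hp => ?_
    rw [mem_monos] at hp
    simp [Fam.lt, hp]
  rw [dimW_eq (Ψ.upper n)]
  simp only [sum_range_one, add_zero, Nat.cast_sum, e1, hn]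
  simp only [poly, sum_sub_distrib, sum_add_distrib, sum_mul, sub_mul, neg_mul, one_mul]
  simp only [sum_const, card_univ, Fintype.card_fin, nsmul_eq_mul]
  ring

/-- A family is eventually generated by the monomials of degree one, up to the window. -/
theorem Fam.gen (Ψ : Fam k r) (L : ℕ) : ∀ᶠ n in atTop, ∀ v ∈ Ψ.A (n + 1),
    ∃ v' ∈ (Ψ.A n).map (sh ux) ⊔ (Ψ.A n).map (sh uy) ⊔ (Ψ.A n).map (sh uz),
      ∀ t : Term r, deg t.1 < n + 1 + L → v t = v' t := by
  classical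
  have hev : ∀ᶠ n in atTop, ∀ l ∈ range L, ∀ i : Fin r, ∀ p ∈ Ψ.lt l i, deg p = n + 1 + l →
      ∃ u, (u = ux ∨ u = uy ∨ u = uz) ∧ ∃ q ∈ Ψ.lt l i, p = u + q :=
    (Filter.eventually_all_finset _).2 fun l _ => eventually_all.2 fun i =>
      ((tendsto_add_atTop_nat l).comp (tendsto_add_atTop_nat 1)).eventually
        (upset_pred (Ψ.lt_isUpper l i))
  filter_upwards [hev] with n hn
  set B := (Ψ.A n).map (sh ux) ⊔ (Ψ.A n).map (sh uy) ⊔ (Ψ.A n).map (sh uz) with hB
  have hu : ∀ {u : Mon}, (u = ux ∨ u = uy ∨ u = uz) → deg u = 1 ∧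
      (Ψ.A n).map (sh u) ≤ B := by
    rintro u (rfl | rfl | rfl)
    · exact ⟨rfl, le_sup_left.trans le_sup_left⟩
    · exact ⟨rfl, le_sup_right.trans le_sup_left⟩
    · exact ⟨rfl, le_sup_right⟩
  have hle : B ≤ Ψ.A (n + 1) := by
    refine sup_le (sup_le ?_ ?_) ?_ <;> rintro _ ⟨v, hv, rfl⟩
    · exact Ψ.shift ux n v hv
    · exact Ψ.shift uy n v hv
    · exact Ψ.shift uz n v hv
  have hup : ∀ v ∈ B, ∀ t : Term r, deg t.1 < n + 1 → v t = 0 := fun v hv =>
    Ψ.upper _ v (hle hv)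
  have heq : B.map (proj k r (n + 1) L) = (Ψ.A (n + 1)).map (proj k r (n + 1) L) := by
    refine Submodule.eq_of_le_of_finrank_eq (Submodule.map_mono hle) ?_
    show dimW (n + 1) L B = dimW (n + 1) L (Ψ.A (n + 1))
    rw [dimW_eq hup, dimW_eq (Ψ.upper _)]
    refine sum_congr rfl fun l hl => sum_congr rfl fun i _ => ?_
    congr 1
    refine filter_congr fun p hp => ⟨fun ⟨v, hv, h⟩ => ⟨v, hle hv, h⟩, fun ⟨v, hv, h⟩ => ?_⟩
    rw [mem_monos] at hp
    have hp' : p ∈ Ψ.lt l i := ⟨by omega, v, by rwa [show deg p - l = n + 1 by omega], h⟩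
    obtain ⟨u, hu', q, ⟨hql, w, hw, hlead⟩, rfl⟩ := hn l hl i p hp' hp
    rw [deg_add, (hu hu').1] at hp
    rw [show deg q - l = n by omega] at hw
    exact ⟨sh u w, (hu hu').2 (Submodule.mem_map_of_mem hw), hlead.sh u⟩
  intro v hv
  obtain ⟨v', hv', e⟩ : proj k r (n + 1) L v ∈ B.map (proj k r (n + 1) L) := by
    rw [heq]; exact Submodule.mem_map_of_mem hv
  refine ⟨v', hv', fun t ht => ?_⟩
  by_cases hlow : deg t.1 < n + 1
  · rw [hup v' hv' t hlow, Ψ.upper _ v hv t hlow]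
  · exact (congrFun e ⟨t, mem_win.2 ⟨by omega, ht⟩⟩).symm

end Vale.Agent.P190.Minimise
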