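import Vale.Agent.P190.Minimise.Filt

/-!
P190, MINIMISE: a filtration with torsion free graded module and locally least discriminant exists, and its
saturated submodules have slopes in a window.
-/

open Filter Finset

namespace Vale.Agent.P190.Minimise

variable {k : Type*} [Field k] {r : ℕ}

lemma poly_add (a b c a' b' c' : ℤ) (n : ℕ) :
    poly a b c n + poly a' b' c' n = poly (a + a') (b + b') (c + c') n := by
  simp only [poly]; ring

lemma poly_sub (a b c a' b' c' : ℤ) (n : ℕ) :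
    poly a b c n - poly a' b' c' n = poly (a - a') (b - b') (c - c') n := by
  simp only [poly]; ring

lemma le_tri (n : ℕ) : (n : ℤ) + 1 ≤ tri n := by
  induction n with
  | zero => rfl
  | succ m ih => rw [tri_succ]; push_cast; linarith

/-- An eventually nonnegative Hilbert shape has nonnegative leading coefficient. -/
lemma poly_lead_nonneg {q e c : ℤ} (h : ∀ᶠ n : ℕ in atTop, 0 ≤ poly q e c n) : 0 ≤ q := by
  by_contra hq
  obtain ⟨N, hN⟩ := eventually_atTop.1 h
  set n := N + 2 * e.natAbs + 2 * c.natAbs + 4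
  have h1 := hN n (by omega)
  have h2 := two_mul_tri n
  have hn : ((N : ℤ) + 2 * |e| + 2 * |c| + 4) = n := by
    simp only [n, Int.abs_eq_natAbs]
    push_cast
    rfl
  have he := le_abs_self e
  have hc := le_abs_self c
  simp only [poly] at h1
  have hn0 : (0 : ℤ) ≤ N := Int.natCast_nonneg N
  have hae := abs_nonneg e
  have hac := abs_nonneg c
  have h3 : q * tri n ≤ -tri n := by nlinarith [tri_nonneg n]
  nlinarith [mul_le_mul_of_nonneg_right he (show (0 : ℤ) ≤ (n : ℤ) + 1 by positivity)]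

lemma qd_self {V : Type*} [AddCommGroup V] [Module k V] (A : Submodule k V) : qd A A = 0 := by
  rw [qd, Submodule.comap_subtype_self]
  haveI : Subsingleton (A ⧸ (⊤ : Submodule k A)) := Submodule.Quotient.subsingleton_iff.2 rfl
  exact Module.finrank_zero_of_subsingleton

variable {op : ℕ → Set (Vec k r →ₗ[k] Vec k r)}

/-- The graded module of the filtration has no torsion for the graded operators. -/
def Filt.Tf (Φ : Filt op) : Prop :=
  ∀ i, ∀ f ∈ op i, ∀ n, ∀ v ∈ Φ.F n, f v ∈ Φ.F (n + i + 1) → v ∈ Φ.F (n + 1)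

/-- The vectors vanishing below degree `n`. -/
def U (k : Type*) [Field k] (r n : ℕ) : Submodule k (Vec k r) where
  carrier := {v | ∀ t : Term r, deg t.1 < n → v t = 0}
  add_mem' := fun ha hb t ht => by simp [ha t ht, hb t ht]
  zero_mem' := fun t _ => rfl
  smul_mem' := fun c a ha t ht => by simp [ha t ht]

lemma U_anti {m n : ℕ} (h : m ≤ n) : U k r n ≤ U k r m := fun v hv t ht => hv t (by omega)

lemma sh_mem_U {n : ℕ} {v : Vec k r} (hv : v ∈ U k r n) (p : Mon) :
    sh p v ∈ U k r (n + deg p) := by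
  intro t ht
  rw [sh_apply]
  split_ifs with hp
  · refine hv _ ?_
    have := deg_add (t.1 - p) p
    rw [tsub_add_cancel_of_le hp] at this
    simp only
    omega
  · rfl

/-- A saturated graded submodule of the graded module of a filtration. -/
structure Sub (Φ : Filt op) where
  /-- The preimages. -/
  G : ℕ → Submodule k (Vec k r)
  le : ∀ n, G n ≤ Φ.F n
  ge : ∀ n, Φ.F (n + 1) ≤ G n
  shift : ∀ p n, ∀ v ∈ G n, sh p v ∈ G (n + deg p)
  compat : ∀ i n, ∀ f ∈ op i, ∀ v ∈ G n, f v ∈ G (n + i)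
  sat : ∀ i, ∀ f ∈ op i, ∀ n, ∀ v ∈ Φ.F n, f v ∈ G (n + i) → v ∈ G n

/-- The filtration between. -/
def Sub.filt {Φ : Filt op} (S : Sub Φ) : Filt op where
  F := S.G
  K := Φ.K + 1
  lower n v hv := S.ge n (Φ.lower (n + 1) v fun t ht => hv t (by omega))
  upper n v hv := Φ.upper n v (S.le n hv)
  anti n := (S.le (n + 1)).trans (S.ge n)
  shift := S.shift
  compat := S.compat

lemma Sub.filt_tf {Φ : Filt op} (S : Sub Φ) (hΦ : Φ.Tf) : S.filt.Tf := by
  intro i f hf n v hv hfv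
  have h1 : v ∈ Φ.F (n + 1) := hΦ i f hf n v (S.le n hv) (S.le _ hfv)
  refine S.sat i f hf (n + 1) v h1 ?_
  rwa [show n + 1 + i = n + i + 1 by omega]

/-- The Hilbert function of the submodule. -/
noncomputable def Sub.sdim {Φ : Filt op} (S : Sub Φ) (n : ℕ) : ℕ := qd (S.G n) (Φ.F (n + 1))

/-- The Hilbert function of the quotient. -/
noncomputable def Sub.qdim {Φ : Filt op} (S : Sub Φ) (n : ℕ) : ℕ := qd (Φ.F n) (S.G n)

lemma Sub.h_eq {Φ : Filt op} (S : Sub Φ) (n : ℕ) : Φ.h n = S.sdim n + S.qdim n ∧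
    S.filt.h n = S.sdim n + S.qdim (n + 1) := by
  have hA : ∀ A : Submodule k (Vec k r), A ≤ Φ.F n →
      ∀ v ∈ A, ∀ t : Term r, deg t.1 < n → v t = 0 := fun A hA v hv => Φ.upper n v (hA hv)
  have low : ∀ B : Submodule k (Vec k r), Φ.F (n + 2) ≤ B →
      ∀ v, (∀ t : Term r, deg t.1 < n + (Φ.K + 2) → v t = 0) → v ∈ B := fun B hB v hv =>
    hB (Φ.lower (n + 2) v fun t ht => hv t (by omega))
  have a1 : Φ.F (n + 2) ≤ Φ.F (n + 1) := Φ.anti (n + 1)
  have a2 : Φ.F (n + 2) ≤ S.G (n + 1) := S.ge (n + 1)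
  have e1 := qd_eq_dimW (n := n) (Φ.anti n) (Φ.upper n) (low _ a1)
  have e2 := qd_eq_dimW (n := n) (S.ge n) (hA _ (S.le n)) (low _ a1)
  have e3 := qd_eq_dimW (n := n) (S.le n) (Φ.upper n) (low _ (a1.trans (S.ge n)))
  have e4 := qd_eq_dimW (n := n) ((S.le (n + 1)).trans (S.ge n)) (hA _ (S.le n)) (low _ a2)
  have e5 := qd_eq_dimW (n := n) (S.le (n + 1)) (hA _ (Φ.anti n)) (low _ a2)
  simp only [Filt.h, Sub.sdim, Sub.qdim, Sub.filt]
  constructor <;> omega

/-- A torsion free filtration of bounded width whose discriminant does not fall under the moves. -/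
theorem exists_min (Φ₀ : Filt op) (h₀ : Φ₀.Tf) {B : ℕ}
    (hB : ∀ e c : ℤ, (∀ᶠ n in atTop, (Φ₀.h n : ℤ) = poly r e c n) → disc r e c ≤ B) :
    ∃ (Φ : Filt op) (e c : ℤ), Φ.Tf ∧ Φ.K ≤ Φ₀.K + B ∧ 0 ≤ disc r e c ∧
      (∀ᶠ n in atTop, (Φ.h n : ℤ) = poly r e c n) ∧
      ∀ (S : Sub Φ) (e' c' : ℤ), (∀ᶠ n in atTop, (S.filt.h n : ℤ) = poly r e' c' n) →
        disc r e c ≤ disc r e' c' := by
  classical
  let P : ℕ → Prop := fun D => ∃ (Φ : Filt op) (e c : ℤ), Φ.Tf ∧ 0 ≤ disc r e c ∧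
    (∀ᶠ n in atTop, (Φ.h n : ℤ) = poly r e c n) ∧ (disc r e c).toNat = D ∧ Φ.K + D ≤ Φ₀.K + B
  have hP : ∃ D, P D := by
    obtain ⟨e, c, hd, hh⟩ := Φ₀.exists_data
    exact ⟨_, Φ₀, e, c, h₀, hd, hh, rfl, by have := hB e c hh; omega⟩
  obtain ⟨Φ, e, c, hT, hd, hh, hD, hK⟩ := Nat.find_spec hP
  refine ⟨Φ, e, c, hT, by omega, hd, hh, fun S e' c' hh' => ?_⟩
  obtain ⟨e'', c'', hd', hh''⟩ := S.filt.exists_data
  obtain ⟨-, rfl, rfl⟩ := poly_inj (hh'.and hh'' |>.mono fun n hn => hn.1.symm.trans hn.2)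
  by_contra hlt
  push Not at hlt
  have := Nat.find_min' hP (m := (disc r e' c').toNat)
    ⟨S.filt, e', c', S.filt_tf hT, hd', hh', rfl, by show Φ.K + 1 + _ ≤ _; omega⟩
  omega

/-- The window at a least discriminant. -/
theorem window {Φ : Filt op} {e c : ℤ}
    (hh : ∀ᶠ n in atTop, (Φ.h n : ℤ) = poly r e c n)
    (hmin : ∀ (S : Sub Φ) (e' c' : ℤ),
      (∀ᶠ n in atTop, (S.filt.h n : ℤ) = poly r e' c' n) → disc r e c ≤ disc r e' c')
    (S : Sub Φ) :
    ∃ s eS cS : ℤ, 0 ≤ s ∧ s ≤ r ∧ (∀ᶠ n in atTop, (S.sdim n : ℤ) = poly s eS cS n) ∧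
      2 * (r : ℤ) * eS ≤ 2 * e * s + (r - s) * s := by
  obtain ⟨e', c', -, hh'⟩ := S.filt.exists_data
  have hm := hmin S e' c' hh'
  obtain ⟨N, hN⟩ := eventually_atTop.1 (hh.and hh')
  set q := e' - e with hq
  set eQ := c' - c - q with heQ
  set cQ := (S.qdim N : ℤ) - q * tri N - eQ * ((N : ℤ) + 1) with hcQ
  have hQ : ∀ n, N ≤ n → (S.qdim n : ℤ) = poly q eQ cQ n := by
    intro n hn
    induction hn with
    | refl => simp only [poly, hcQ]; ring
    | @step m hm ih =>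
      obtain ⟨hF, hG⟩ := hN m hm
      have h1 := (S.h_eq m).1
      have h2 := (S.h_eq m).2
      rw [h1] at hF
      rw [h2] at hG
      push_cast at hF hG
      have h3 := poly_succ q eQ cQ m
      simp only [poly] at hF hG
      rw [← ih] at h3
      linear_combination hG - hF - h3 + ((m : ℤ) + 1) * hq + heQ - hq
  have hS : ∀ᶠ n in atTop, (S.sdim n : ℤ) = poly (r - q) (e - eQ) (c - cQ) n := by
    filter_upwards [eventually_ge_atTop N] with n hn
    rw [← poly_sub, ← hQ n hn, ← (hN n hn).1, (S.h_eq n).1]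
    push_cast
    ring
  have q0 : 0 ≤ q := poly_lead_nonneg ((eventually_ge_atTop N).mono fun n hn => by
    rw [← hQ n hn]; exact Int.natCast_nonneg _)
  have s0 : 0 ≤ (r : ℤ) - q := poly_lead_nonneg (hS.mono fun n hn => by
    rw [← hn]; exact Int.natCast_nonneg _)
  refine ⟨r - q, e - eQ, c - cQ, s0, by linarith, hS, ?_⟩
  have hd := disc_move r e c q eQ
  rw [show e + q = e' by rw [hq]; ring, show c + q + eQ = c' by rw [heQ]; ring] at hd
  nlinarith

end Vale.Agent.P190.Minimise
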