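import Vale.Agent.P190.Minimise.Trace
import Vale.Agent.P190.Minimise.Min
import Vale.Agent.P190.Minimise.Fam

/-!
P190, MINIMISE: an action to order `L` as operators on vectors of coefficients.
-/

open Finset

namespace Vale.Agent.P190.Minimise

variable {k K : Type} [Field k] [Field K] [Algebra k K] {r : ℕ}

/-- The exponent of a monomial. -/
noncomputable def exp3 (p : Mon) : Fin 3 →₀ ℕ :=
  Finsupp.equivFunOnFinite.symm ![p.1, p.2.1, p.2.2]

/-- The monomial of an exponent. -/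
def mon3 (s : Fin 3 →₀ ℕ) : Mon := (s 0, s 1, s 2)

lemma exp3_mon3 (s : Fin 3 →₀ ℕ) : exp3 (mon3 s) = s := by
  ext j; fin_cases j <;> simp [exp3, mon3]

lemma mon3_exp3 (p : Mon) : mon3 (exp3 p) = p := by simp [exp3, mon3]

lemma mon3_add (s t : Fin 3 →₀ ℕ) : mon3 (s + t) = mon3 s + mon3 t := by simp [mon3]

lemma deg_mon3 (s : Fin 3 →₀ ℕ) : deg (mon3 s) = ∑ j, s j := by
  simp only [deg, mon3, Fin.sum_univ_three]
  ring

lemma exp3_le {p q : Mon} : exp3 p ≤ exp3 q ↔ p ≤ q := by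
  obtain ⟨a, b, c⟩ := p
  obtain ⟨a', b', c'⟩ := q
  simp [exp3, Finsupp.le_def, Fin.forall_fin_succ, Prod.mk_le_mk]

/-- A vector of coefficients as a vector of power series. -/
noncomputable def toPS : Vec k r ≃ₗ[k] (Fin r → MvPowerSeries (Fin 3) k) where
  toFun v i s := v (mon3 s, i)
  invFun f t := f t.2 (exp3 t.1)
  map_add' _ _ := rfl
  map_smul' _ _ := rfl
  left_inv v := funext fun t => congrArg v (Prod.ext (mon3_exp3 t.1) rfl)
  right_inv f := funext fun i => funext fun s => congrArg (f i) (exp3_mon3 s)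

lemma coeff_toPS (v : Vec k r) (i : Fin r) (s : Fin 3 →₀ ℕ) :
    MvPowerSeries.coeff s (toPS v i) = v (mon3 s, i) := rfl

lemma toPS_sh (p : Mon) (v : Vec k r) (i : Fin r) :
    toPS (sh p v) i = MvPowerSeries.monomial (exp3 p) 1 * toPS v i := by
  classical
  ext s
  rw [MvPowerSeries.coeff_monomial_mul, coeff_toPS, sh_apply, one_mul, coeff_toPS]
  have hle : exp3 p ≤ s ↔ p ≤ mon3 s := by rw [← exp3_le, exp3_mon3]
  by_cases h : p ≤ mon3 s
  · rw [if_pos h, if_pos (hle.2 h)]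
    rfl
  · rw [if_neg h, if_neg fun h' => h (hle.1 h')]

/-- A matrix as an operator on vectors of coefficients. -/
noncomputable def mat :
    Matrix (Fin r) (Fin r) (MvPolynomial (Fin 3) k) →ₗ[k] Vec k r →ₗ[k] Vec k r where
  toFun P := toPS.symm.toLinearMap ∘ₗ
    (((P.map MvPolynomial.coeToMvPowerSeries.ringHom).mulVecLin).restrictScalars k) ∘ₗ
      toPS.toLinearMap
  map_add' P Q := by
    refine LinearMap.ext fun v => toPS.injective ?_
    rw [show (P + Q).map MvPolynomial.coeToMvPowerSeries.ringHom =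
        P.map MvPolynomial.coeToMvPowerSeries.ringHom +
          Q.map MvPolynomial.coeToMvPowerSeries.ringHom from Matrix.map_add _ (map_add _) P Q]
    simp [Matrix.add_mulVec]
  map_smul' c P := by
    refine LinearMap.ext fun v => toPS.injective ?_
    have : (c • P).map MvPolynomial.coeToMvPowerSeries.ringHom =
        c • P.map MvPolynomial.coeToMvPowerSeries.ringHom := by
      refine Matrix.ext fun i j => MvPowerSeries.ext fun s => ?_
      simp [MvPolynomial.coeff_coe]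
    simp [this, Matrix.smul_mulVec]

lemma toPS_mat (P : Matrix (Fin r) (Fin r) (MvPolynomial (Fin 3) k)) (v : Vec k r) :
    toPS (mat P v) = (P.map MvPolynomial.coeToMvPowerSeries.ringHom).mulVec (toPS v) := by
  simp [mat]

lemma mat_mul (P Q : Matrix (Fin r) (Fin r) (MvPolynomial (Fin 3) k)) (v : Vec k r) :
    mat (P * Q) v = mat P (mat Q v) := toPS.injective (by
  rw [toPS_mat, toPS_mat, toPS_mat, Matrix.mulVec_mulVec, Matrix.map_mul])

lemma mat_one (v : Vec k r) :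
    mat (1 : Matrix (Fin r) (Fin r) (MvPolynomial (Fin 3) k)) v = v := toPS.injective (by
  rw [toPS_mat, Matrix.map_one _ (map_zero _) (map_one _), Matrix.one_mulVec])

lemma mat_sh (P : Matrix (Fin r) (Fin r) (MvPolynomial (Fin 3) k)) (p : Mon) (v : Vec k r) :
    mat P (sh p v) = sh p (mat P v) := toPS.injective (by
  funext i
  rw [toPS_mat, toPS_sh, toPS_mat]
  simp only [Matrix.mulVec, dotProduct, toPS_sh, mul_sum]
  exact sum_congr rfl fun j _ => by ring)

lemma mat_X (j : Fin 3) (p : Mon) (hp : exp3 p = Finsupp.single j 1) (v : Vec k r) :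
    mat ((MvPolynomial.X j : MvPolynomial (Fin 3) k) •
      (1 : Matrix (Fin r) (Fin r) (MvPolynomial (Fin 3) k))) v = sh p v := toPS.injective (by
  funext i
  rw [toPS_mat, toPS_sh, hp]
  simp only [Matrix.mulVec, dotProduct, Matrix.map_apply, Matrix.smul_apply, Matrix.one_apply,
    smul_eq_mul, mul_ite, mul_one, mul_zero]
  rw [sum_eq_single i]
  · rw [if_pos rfl]
    congr 1
    simp [MvPowerSeries.X]
  · intro b _ hb
    rw [if_neg (Ne.symm hb), map_zero, zero_mul]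
  · exact fun h => absurd (mem_univ i) h)

lemma mat_small {P : Matrix (Fin r) (Fin r) (MvPolynomial (Fin 3) k)} {L : ℕ}
    (hP : ∀ i j (s : Fin 3 →₀ ℕ), (∑ t, s t) < L → MvPolynomial.coeff s (P i j) = 0)
    {n : ℕ} {v : Vec k r} (hv : v ∈ U k r n) : mat P v ∈ U k r (n + L) := by
  classical
  rintro ⟨p, i⟩ ht
  have h := coeff_toPS (mat P v) i (exp3 p)
  rw [mon3_exp3] at h
  rw [← h, toPS_mat]
  simp only [Matrix.mulVec, dotProduct, map_sum, MvPowerSeries.coeff_mul, Matrix.map_apply]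
  refine sum_eq_zero fun j _ => sum_eq_zero fun ⟨s, s'⟩ hs => ?_
  rw [HasAntidiagonal.mem_antidiagonal] at hs
  have hd := congrArg (fun s => deg (mon3 s)) hs
  simp only [mon3_add, deg_add, mon3_exp3] at hd
  by_cases hsL : deg (mon3 s) < L
  · rw [show MvPowerSeries.coeff s (MvPolynomial.coeToMvPowerSeries.ringHom (P i j)) = 0 from
      (MvPolynomial.coeff_coe _ _).trans (hP i j s (by rwa [← deg_mon3])), zero_mul]
  · rw [coeff_toPS, hv (mon3 s', j) (by simp only at ht ⊢; omega), mul_zero]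

lemma mat_mem_U (P : Matrix (Fin r) (Fin r) (MvPolynomial (Fin 3) k)) {n : ℕ} {v : Vec k r}
    (hv : v ∈ U k r n) : mat P v ∈ U k r n :=
  mat_small (L := 0) (fun _ _ _ h => absurd h (Nat.not_lt_zero _)) hv

/-- An action to order `L`, as operators. -/
structure Act (C : Cone k K) (r L : ℕ) where
  /-- The operators. -/
  E : ∀ i : ℕ, C.R (i : ℤ) →ₗ[k] Vec k r →ₗ[k] Vec k r
  comm : ∀ i a p v, E i a (sh p v) = sh p (E i a v)
  mem : ∀ i a n v, v ∈ U k r n → E i a v ∈ U k r n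
  one : ∀ (h : (1 : K) ∈ C.R ((0 : ℕ) : ℤ)) n v, v ∈ U k r n → E 0 ⟨1, h⟩ v - v ∈ U k r (n + L)
  degOne : ∀ (u : Mon), (u = ux ∨ u = uy ∨ u = uz) → ∀ (h : mono C.η C.ζ u ∈ C.R ((1 : ℕ) : ℤ)) n v,
    v ∈ U k r n → E 1 ⟨_, h⟩ v - sh u v ∈ U k r (n + L)
  mul : ∀ i j, i + j ≤ L → ∀ (a : C.R (i : ℤ)) (b : C.R (j : ℤ))
    (h : (a : K) * b ∈ C.R ((i + j : ℕ) : ℤ)) n v, v ∈ U k r n →
      E (i + j) ⟨(a : K) * b, h⟩ v - E i a (E j b v) ∈ U k r (n + L)

theorem exists_act {C : Cone k K} {L : ℕ} (h : C.toRing3.Approx r L) : Nonempty (Act C r L) := by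
  obtain ⟨Φ, h0, hx, hy, hz, hmul⟩ := h
  refine ⟨{
    E := fun i => mat ∘ₗ Φ i
    comm := fun i a p v => mat_sh _ p v
    mem := fun i a n v hv => mat_mem_U _ hv
    one := fun h n v hv => by
      have := mat_small (h0 h) hv
      rw [map_sub, LinearMap.sub_apply, mat_one] at this
      exact this
    degOne := ?_
    mul := fun i j hij a b h n v hv => by
      have := mat_small (hmul i j hij a b h) hv
      rw [map_sub, LinearMap.sub_apply, mat_mul] at this
      exact this }⟩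
  intro u hu h n v hv
  have key : ∀ (t : Fin 3) (c : K) (hc : c ∈ C.R ((1 : ℕ) : ℤ)), c = mono C.η C.ζ u →
      exp3 u = Finsupp.single t 1 → Ring3.IsSmall (k := k) L (Φ 1 ⟨c, hc⟩ -
        (MvPolynomial.X t : MvPolynomial (Fin 3) k) •
          (1 : Matrix (Fin r) (Fin r) (MvPolynomial (Fin 3) k))) →
      (mat ∘ₗ Φ 1) ⟨_, h⟩ v - sh u v ∈ U k r (n + L) := fun t c hc e he hs => by
    subst e
    have := mat_small hs hv
    rw [map_sub, LinearMap.sub_apply, mat_X t u he] at this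
    exact this
  have ee : ∀ (t : Fin 3), (exp3 u : Fin 3 →₀ ℕ) = Finsupp.single t 1 ↔
      ∀ j, exp3 u j = (Finsupp.single t 1 : Fin 3 →₀ ℕ) j := fun t => Finsupp.ext_iff
  rcases hu with rfl | rfl | rfl
  · exact key 0 1 _ (by simp [mono, ux]) ((ee 0).2 fun j => by fin_cases j <;> simp [exp3, ux]) hx
  · exact key 1 C.η _ (by simp [mono, uy]) ((ee 1).2 fun j => by fin_cases j <;> simp [exp3, uy]) hy
  · exact key 2 C.ζ _ (by simp [mono, uz]) ((ee 2).2 fun j => by fin_cases j <;> simp [exp3, uz]) hz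

/-- A combination of monomials of degree `j`, as an operator. -/
noncomputable def Sh (j : ℕ) : (↥(monos j) → k) →ₗ[k] Vec k r →ₗ[k] Vec k r :=
  Fintype.linearCombination k fun p => sh (k := k) (r := r) p.1

lemma Sh_apply (j : ℕ) (c : ↥(monos j) → k) (v : Vec k r) :
    Sh j c v = ∑ p, c p • sh p.1 v := by
  simp [Sh, Fintype.linearCombination_apply]

lemma Sh_mem_U {j n : ℕ} (c : ↥(monos j) → k) {v : Vec k r} (hv : v ∈ U k r n) :
    Sh j c v ∈ U k r (n + j) := by
  rw [Sh_apply]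
  exact sum_mem fun p _ => Submodule.smul_mem _ _ (by
    have := sh_mem_U hv p.1
    rwa [mem_monos.1 p.2] at this)

/-- A nonzero polynomial does not annihilate a leading term. -/
lemma Sh_ne {j : ℕ} {c : ↥(monos j) → k} (hc : c ≠ 0) {v : Vec k r} {t : Term r} (h : Lead v t) :
    ∃ u : Term r, deg u.1 = j + deg t.1 ∧ Sh j c v u ≠ 0 := by
  classical
  have hne : (univ.filter fun p => c p ≠ 0).Nonempty := by
    obtain ⟨p, hp⟩ := Function.ne_iff.1 hc
    exact ⟨p, mem_filter.2 ⟨mem_univ _, hp⟩⟩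
  obtain ⟨p₀, hp₀, hmin⟩ := exists_min_image _ (fun p : ↥(monos j) =>
    key ((p.1, t.2) : Term r)) hne
  refine ⟨(p₀.1 + t.1, t.2), by simp [deg_add, mem_monos.1 p₀.2], ?_⟩
  rw [Sh_apply, Finset.sum_apply, sum_eq_single p₀]
  · rw [Pi.smul_apply, sh_apply_add, smul_eq_mul]
    exact mul_ne_zero (mem_filter.1 hp₀).2 h.1
  · intro p _ hp
    by_cases hcp : c p = 0
    · simp [hcp]
    have hlt : key ((p₀.1, t.2) : Term r) < key ((p.1, t.2) : Term r) :=
      lt_of_le_of_ne (hmin p (mem_filter.2 ⟨mem_univ _, hcp⟩))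
        fun e => hp (Subtype.ext (Prod.mk.inj (key_injective e)).1.symm)
    rw [Pi.smul_apply, smul_eq_mul, sh_apply]
    split_ifs with hle
    · rw [h.2 _ ?_, mul_zero]
      refine (key_lt_add p.1).1 ?_
      rw [add_tsub_cancel_of_le hle, add_comm p₀.1, add_comm p.1]
      exact (key_lt_add t.1 (t := (p₀.1, t.2)) (u := (p.1, t.2))).2 hlt
    · rw [mul_zero]
  · exact fun h' => absurd (mem_univ _) h'

lemma mem_U_of_Sh {j n : ℕ} {c : ↥(monos j) → k} (hc : c ≠ 0) {v : Vec k r}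
    (h : Sh j c v ∈ U k r (n + j)) : v ∈ U k r n := by
  intro t ht
  by_contra h0
  obtain ⟨t', ht'⟩ := lead_exists (v := v) fun e => h0 (by simp [e])
  obtain ⟨u, hu, hne⟩ := Sh_ne hc ht'
  refine hne (h u ?_)
  have : deg t'.1 ≤ deg t.1 := by
    by_contra hlt
    exact h0 (ht'.2 t (by simp only [key, Prod.Lex.toLex_lt_toLex]; left; omega))
  omega

namespace Act

variable {C : Cone k K} {L : ℕ} (A : Act C r L)

open Classical in
/-- The operator of an element of degree `i`. -/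
noncomputable def op (i : ℕ) (a : K) : Vec k r →ₗ[k] Vec k r :=
  if h : a ∈ C.R (i : ℤ) then A.E i ⟨a, h⟩ else 0

lemma op_eq {i : ℕ} {a : K} (h : a ∈ C.R (i : ℤ)) : A.op i a = A.E i ⟨a, h⟩ := dif_pos h

lemma op_comm (i : ℕ) (a : K) (p : Mon) (v : Vec k r) : A.op i a (sh p v) = sh p (A.op i a v) := by
  by_cases h : a ∈ C.R (i : ℤ) <;> simp [Act.op, h, A.comm]

lemma op_Sh (i : ℕ) (a : K) (j : ℕ) (c : ↥(monos j) → k) (v : Vec k r) :
    A.op i a (Sh j c v) = Sh j c (A.op i a v) := by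
  simp only [Sh_apply, map_sum, map_smul, A.op_comm]

lemma op_mem {i : ℕ} {a : K} {n : ℕ} {v : Vec k r} (hv : v ∈ U k r n) :
    A.op i a v ∈ U k r n := by
  by_cases h : a ∈ C.R (i : ℤ)
  · rw [A.op_eq h]; exact A.mem _ _ _ _ hv
  · simp [Act.op, h]

lemma op_add {i : ℕ} {a b : K} (ha : a ∈ C.R (i : ℤ)) (hb : b ∈ C.R (i : ℤ)) :
    A.op i (a + b) = A.op i a + A.op i b := by
  rw [A.op_eq ha, A.op_eq hb, A.op_eq (add_mem ha hb), ← map_add]
  rfl

lemma op_smul {i : ℕ} {a : K} (ha : a ∈ C.R (i : ℤ)) (c : k) :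
    A.op i (c • a) = c • A.op i a := by
  rw [A.op_eq ha, A.op_eq (Submodule.smul_mem _ c ha), ← map_smul]
  rfl

lemma op_zero (i : ℕ) : A.op i 0 = 0 := by
  rw [A.op_eq (zero_mem _)]
  exact map_zero _

lemma op_sum {ι : Type*} (s : Finset ι) {i : ℕ} (f : ι → K) (hf : ∀ x ∈ s, f x ∈ C.R (i : ℤ)) :
    A.op i (∑ x ∈ s, f x) = ∑ x ∈ s, A.op i (f x) := by
  classical
  induction s using Finset.induction with
  | empty => simp [A.op_zero]
  | @insert x s hx ih =>
    rw [sum_insert hx, sum_insert hx, A.op_add (hf x (mem_insert_self _ _))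
      (sum_mem fun y hy => hf y (mem_insert_of_mem hy)), ih fun y hy => hf y (mem_insert_of_mem hy)]

lemma op_mul {i j : ℕ} (hij : i + j ≤ L) {a b : K} (ha : a ∈ C.R (i : ℤ)) (hb : b ∈ C.R (j : ℤ))
    {n : ℕ} {v : Vec k r} (hv : v ∈ U k r n) :
    A.op (i + j) (a * b) v - A.op i a (A.op j b v) ∈ U k r (n + L) := by
  have h : a * b ∈ C.R ((i + j : ℕ) : ℤ) := by
    push_cast; exact C.mul_mem _ _ _ ha _ hb
  rw [A.op_eq ha, A.op_eq hb, A.op_eq h]
  exact A.mul i j hij ⟨a, ha⟩ ⟨b, hb⟩ h n v hv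

lemma op_one {n : ℕ} {v : Vec k r} (hv : v ∈ U k r n) : A.op 0 1 v - v ∈ U k r (n + L) := by
  have h : (1 : K) ∈ C.R ((0 : ℕ) : ℤ) := by
    rw [Nat.cast_zero, C.R_zero]; exact Submodule.subset_span rfl
  rw [A.op_eq h]
  exact A.one h n v hv

lemma op_mono (j : ℕ) (p : Mon) (hp : deg p = j) (hj : j ≤ L) {n : ℕ} {v : Vec k r}
    (hv : v ∈ U k r n) : A.op j (mono C.η C.ζ p) v - sh p v ∈ U k r (n + L) := by
  induction j generalizing p with
  | zero =>
    obtain ⟨a, b, c⟩ := p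
    simp only [deg] at hp
    obtain ⟨rfl, rfl, rfl⟩ : a = 0 ∧ b = 0 ∧ c = 0 := by omega
    rw [show ((0, 0, 0) : Mon) = 0 from rfl, mono_zero, sh_zero]
    exact A.op_one hv
  | succ j ih =>
    obtain ⟨u, hu, q, -, rfl⟩ := eq_add_of_lt (p := (0 : Mon)) (p' := p)
      (lt_of_le_of_ne zero_le fun e => by rw [← e] at hp; simp [deg] at hp)
    have hu1 : deg u = 1 := by rcases hu with rfl | rfl | rfl <;> rfl
    have hq : deg q = j := by rw [deg_add, hu1] at hp; omega
    have hmu : mono C.η C.ζ u ∈ C.R ((1 : ℕ) : ℤ) := by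
      have := mono_mem_R C u
      rwa [hu1] at this
    have hmq : mono C.η C.ζ q ∈ C.R (j : ℤ) := by
      have := mono_mem_R C q
      rwa [hq] at this
    have h1 := A.op_mul (i := 1) (j := j) (by omega) hmu hmq hv
    rw [← mono_add, add_comm 1 j] at h1
    have h2 : A.op 1 (mono C.η C.ζ u) (sh q v) - sh u (sh q v) ∈ U k r (n + L) := by
      rw [A.op_eq hmu]
      exact U_anti (by omega) (A.degOne u hu hmu _ _ (sh_mem_U hv q))
    have h3 := A.op_mem (i := 1) (a := mono C.η C.ζ u) (ih q hq (by omega))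
    rw [map_sub] at h3
    rw [sh_sh] at h2
    convert add_mem (add_mem h1 h3) h2 using 1
    abel

lemma op_val_mul {j i : ℕ} (hij : j + i ≤ L) (c : ↥(monos j) → k) {a : K} (ha : a ∈ C.R (i : ℤ))
    {n : ℕ} {v : Vec k r} (hv : v ∈ U k r n) :
    A.op (j + i) (val C.η C.ζ j c * a) v - Sh j c (A.op i a v) ∈ U k r (n + L) := by
  have hm : ∀ p : ↥(monos j), mono C.η C.ζ p.1 ∈ C.R (j : ℤ) := fun p => by
    have := mono_mem_R C p.1
    rwa [mem_monos.1 p.2] at this
  have hma : ∀ p : ↥(monos j), mono C.η C.ζ p.1 * a ∈ C.R ((j + i : ℕ) : ℤ) := fun p => by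
    push_cast; exact C.mul_mem _ _ _ (hm p) _ ha
  have e : val C.η C.ζ j c * a = ∑ p, c p • (mono C.η C.ζ p.1 * a) := by
    simp only [val_apply, sum_mul, smul_mul_assoc]
  rw [e, A.op_sum _ _ fun p _ => Submodule.smul_mem _ _ (hma p), LinearMap.sum_apply, Sh_apply,
    ← sum_sub_distrib]
  refine sum_mem fun p _ => ?_
  rw [A.op_smul (hma p), LinearMap.smul_apply, ← smul_sub]
  refine Submodule.smul_mem _ _ ?_
  have h1 := A.op_mul hij (hm p) ha hv
  have h2 := A.op_mono j p.1 (mem_monos.1 p.2) (by omega) (A.op_mem (i := i) (a := a) hv)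
  convert add_mem h1 h2 using 1
  abel

lemma op_val {j : ℕ} (hj : j ≤ L) (c : ↥(monos j) → k) {n : ℕ} {v : Vec k r} (hv : v ∈ U k r n) :
    A.op j (val C.η C.ζ j c) v - Sh j c v ∈ U k r (n + L) := by
  have h := A.op_val_mul (i := 0) (by omega) c (by
    rw [Nat.cast_zero, C.R_zero]; exact Submodule.subset_span rfl) hv
  rw [mul_one, add_zero] at h
  have h2 := U_anti (show n + L ≤ n + L + j by omega) (Sh_mem_U c (A.op_one hv))
  rw [map_sub] at h2
  convert add_mem h h2 using 1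
  abel

/-- High degrees follow from degree `g`. -/
lemma op_high {i : ℕ} (hi : C.g + i ≤ L) {a : K} (ha : a ∈ C.R ((C.g + i : ℕ) : ℤ))
    {n m : ℕ} {v : Vec k r} (hv : v ∈ U k r n) (hm : m ≤ n + L) (W : Submodule k (Vec k r))
    (hW : U k r m ≤ W)
    (h : ∀ p ∈ monos i, ∀ b ∈ C.R (C.g : ℤ), sh p (A.op C.g b v) ∈ W) :
    A.op (C.g + i) a v ∈ W := by
  have ha' := R_gen C i (by rwa [← Nat.cast_add])
  suffices ∀ x ∈ Submodule.span k {v | ∃ p ∈ monos i, ∃ b ∈ C.R (C.g : ℤ),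
      v = mono C.η C.ζ p * b}, x ∈ C.R ((C.g + i : ℕ) : ℤ) ∧ A.op (C.g + i) x v ∈ W from
    (this a ha').2
  intro x hx
  refine Submodule.span_induction ?_ ⟨zero_mem _, by simp [A.op_zero]⟩
    (fun x y _ _ hx hy => ⟨add_mem hx.1 hy.1, by
      rw [A.op_add hx.1 hy.1]; exact add_mem hx.2 hy.2⟩)
    (fun c x _ hx => ⟨Submodule.smul_mem _ _ hx.1, by
      rw [A.op_smul hx.1]; exact Submodule.smul_mem _ _ hx.2⟩) hx
  rintro _ ⟨p, hp, b, hb, rfl⟩
  have hpR : mono C.η C.ζ p ∈ C.R (i : ℤ) := by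
    have := mono_mem_R C p
    rwa [mem_monos.1 hp] at this
  refine ⟨by rw [add_comm]; push_cast; exact C.mul_mem _ _ _ hpR _ hb, ?_⟩
  have h1 := A.op_mul (by omega) hpR hb hv
  have h2 := A.op_mono i p (mem_monos.1 hp) (by omega) (A.op_mem (i := C.g) (a := b) hv)
  have h3 : A.op (i + C.g) (mono C.η C.ζ p * b) v - sh p (A.op C.g b v) ∈ W := by
    refine hW (U_anti hm ?_)
    convert add_mem h1 h2 using 1
    abel
  rw [add_comm C.g i]
  simpa using add_mem h3 (h p hp b hb)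

end Act

end Vale.Agent.P190.Minimise
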