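import Vale.Agent.P190.Minimise.Trace

/-!
P190, MINIMISE: coordinates and inverses with bounded denominators in the field of the cone.
-/

open Finset

namespace Vale.Agent.P190.Minimise

variable {k K : Type} [Field k] [Field K] [Algebra k K] {η ζ : K}

lemma det_mem_poly {n : Type} [Fintype n] [DecidableEq n] (M : Matrix n n (ratField k η ζ)) (D : ℕ)
    (h : ∀ i j, (M i j : K) ∈ polySpace (k := k) η ζ (D : ℤ)) :
    (M.det : K) ∈ polySpace (k := k) η ζ ((Fintype.card n * D : ℕ) : ℤ) := by
  rw [Matrix.det_apply', AddSubmonoidClass.coe_finsetSum]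
  refine sum_mem fun σ _ => ?_
  have hp : ∏ i, (M (σ i) i : K) ∈ polySpace (k := k) η ζ ((Fintype.card n * D : ℕ) : ℤ) := by
    push_cast
    exact prod_mem_poly univ _ _ (Int.natCast_nonneg D) fun i _ => h _ _
  rcases Int.units_eq_one_or (Equiv.Perm.sign σ) with e | e <;>
    simp only [e, Units.val_one, Units.val_neg, Int.cast_one, Int.cast_neg, neg_one_mul, one_mul,
      SubmonoidClass.coe_finsetProd, NegMemClass.coe_neg]
  · exact hp
  · exact neg_mem hp

variable (C : Cone k K)

/-- A basis of the field over the rational functions, taken in degree `g`, with a common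
denominator for all coordinates. -/
theorem exists_coords :
    ∃ (b : Module.Basis (Fin C.d) (ratField k C.η C.ζ) K) (δ : ratField k C.η C.ζ),
      (∀ l, b l ∈ C.R (C.g : ℤ)) ∧ δ ≠ 0 ∧
      (δ : K) ∈ polySpace (k := k) C.η C.ζ ((C.d * (2 * C.g) : ℕ) : ℤ) ∧
      ∀ (i : ℕ) (a : K), a ∈ C.R (i : ℤ) → ∀ l,
        ((δ * b.repr a l : ratField k C.η C.ζ) : K) ∈
          polySpace (k := k) C.η C.ζ ((C.d * (2 * C.g + i) : ℕ) : ℤ) := by
  obtain ⟨s, hs, hspan, hli⟩ := exists_linearIndependent (ratField k C.η C.ζ) (C.R C.g : Set K)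
  rw [C.span_top] at hspan
  set b₀ := Module.Basis.mk hli (by rw [Subtype.range_coe]; exact hspan.ge)
  haveI : Fintype s := FiniteDimensional.fintypeBasisIndex b₀
  have hcard : Fintype.card s = C.d := by
    rw [← C.finrank_K, Module.finrank_eq_card_basis b₀]
  set b := b₀.reindex (Fintype.equivFinOfCardEq hcard)
  haveI := C.sep
  have hb : ∀ l, b l ∈ C.R (C.g : ℤ) := fun l => by
    simp only [b, b₀, Module.Basis.reindex_apply, Module.Basis.mk_apply]
    exact hs (Subtype.coe_prop _)
  set T : Matrix (Fin C.d) (Fin C.d) (ratField k C.η C.ζ) :=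
    fun l u => Algebra.trace (ratField k C.η C.ζ) K (b l * b u) with hT
  have hT0 : T.det ≠ 0 := by
    have := Algebra.discr_not_zero_of_basis (ratField k C.η C.ζ) b
    rw [Algebra.discr_def] at this
    exact this
  have hTm : ∀ l u, (T l u : K) ∈ polySpace (k := k) C.η C.ζ ((2 * C.g : ℕ) : ℤ) := fun l u =>
    trace_mem_poly C (by
      have := C.mul_mem _ _ _ (hb l) _ (hb u)
      rwa [show (C.g : ℤ) + C.g = ((2 * C.g : ℕ) : ℤ) by push_cast; ring] at this)
  refine ⟨b, T.det, hb, hT0, ?_, fun i a ha l => ?_⟩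
  · simpa using det_mem_poly T _ hTm
  set v : Fin C.d → ratField k C.η C.ζ := fun u => Algebra.trace _ K (b u * a)
  have hv : T.mulVec (b.repr a) = v := by
    funext u
    simp only [v, hT, Matrix.mulVec, dotProduct]
    conv_rhs => rw [← b.sum_repr a, mul_sum, map_sum]
    refine sum_congr rfl fun j _ => ?_
    rw [mul_smul_comm, map_smul, smul_eq_mul, mul_comm]
  have e : T.det * b.repr a l = T.cramer v l := by
    rw [Matrix.cramer_eq_adjugate_mulVec, ← hv, Matrix.mulVec_mulVec, Matrix.adjugate_mul,
      Matrix.smul_mulVec, Matrix.one_mulVec]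
    rfl
  rw [e, Matrix.cramer_apply]
  have hD := det_mem_poly (T.updateCol l v) (2 * C.g + i) fun p q => by
    rw [Matrix.updateCol_apply]
    split_ifs
    · have h := C.mul_mem _ _ _ (hb p) _ ha
      rw [show (C.g : ℤ) + i = ((C.g + i : ℕ) : ℤ) by push_cast; ring] at h
      exact poly_mono (by push_cast; omega) (trace_mem_poly C h)
    · exact poly_mono (by push_cast; omega) (hTm p q)
  simpa using hD

/-- A nonzero element of degree at most `g` times an element of bounded degree is a nonzero
polynomial. -/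
theorem exists_inverse {i : ℕ} (hi : i ≤ C.g) {a : K} (ha : a ∈ C.R (i : ℤ)) (ha0 : a ≠ 0) :
    ∃ (m : ℕ) (b : K), m ≤ 4 * (C.d + 1) * (C.d + 1) * (C.g + 1) ∧
      b ∈ C.R (m : ℤ) ∧ a * b ∈ polySpace (k := k) C.η C.ζ (m : ℤ) ∧ a * b ≠ 0 := by
  classical
  obtain ⟨b, δ, hb, hδ, -, hrepr⟩ := exists_coords C
  set E := C.d * (2 * C.g + (i + C.g))
  set M : Matrix (Fin C.d) (Fin C.d) (ratField k C.η C.ζ) :=
    fun l u => δ * b.repr (a * b l) u with hM
  have hMm : ∀ l u, (M l u : K) ∈ polySpace (k := k) C.η C.ζ (E : ℤ) := fun l u =>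
    hrepr (i + C.g) _ (by
      have := C.mul_mem _ _ _ ha _ (hb l)
      rwa [show ((i + C.g : ℕ) : ℤ) = (i : ℤ) + C.g by push_cast; rfl]) u
  have hrow : ∀ l, ∑ u, M l u • b u = δ • (a * b l) := fun l => by
    simp only [hM, mul_smul, ← smul_sum, b.sum_repr]
  set q : Fin C.d → ratField k C.η C.ζ := fun v => δ * b.repr 1 v with hq
  have hqm : ∀ v, (q v : K) ∈ polySpace (k := k) C.η C.ζ ((C.d * (2 * C.g) : ℕ) : ℤ) := fun v => by
    have := hrepr 0 1 (by rw [Nat.cast_zero, C.R_zero]; exact Submodule.subset_span rfl) v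
    simpa [hq] using this
  have hq1 : ∑ v, q v • b v = δ • (1 : K) := by
    simp only [hq, mul_smul, ← smul_sum, b.sum_repr]
  set B : K := ∑ v, ∑ l, (q v * M.adjugate v l) • b l with hB
  have key : δ • (a * B) = δ • ((M.det : ratField k C.η C.ζ) • (1 : K)) := by
    rw [smul_comm δ M.det, ← hq1, hB, smul_sum, mul_sum, smul_sum]
    refine sum_congr rfl fun v _ => ?_
    have hv : ∀ u, ∑ l, M.adjugate v l * M l u = if v = u then M.det else 0 := fun u => by
      have := congrFun (congrFun (Matrix.adjugate_mul M) v) u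
      simpa [Matrix.mul_apply, Matrix.one_apply] using this
    calc δ • (a * ∑ l, (q v * M.adjugate v l) • b l)
        = q v • ∑ l, M.adjugate v l • ∑ u, M l u • b u := by
          simp only [hrow, mul_sum, smul_sum, mul_smul_comm, smul_smul]
          exact sum_congr rfl fun l _ => by congr 1; simp only [q]; ring
      _ = q v • ∑ u, (∑ l, M.adjugate v l * M l u) • b u := by
          simp only [smul_sum, sum_smul, smul_smul]
          exact sum_comm
      _ = M.det • q v • b v := by
          simp only [hv, ite_smul, zero_smul, sum_ite_eq, mem_univ, if_true]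
          exact smul_comm _ _ _
  have key' : a * B = (M.det : K) := by
    have := smul_right_injective K hδ key
    rw [this, IntermediateField.smul_def, smul_eq_mul, mul_one]
  have hdet : M.det ≠ 0 := fun h => by
    obtain ⟨v, hv0, hv⟩ := Matrix.exists_vecMul_eq_zero_iff.2 h
    have h0 : δ • (a * ∑ l, v l • b l) = 0 := by
      calc δ • (a * ∑ l, v l • b l) = ∑ l, v l • ∑ u, M l u • b u := by
            simp only [hrow, mul_sum, smul_sum, mul_smul_comm]
            exact sum_congr rfl fun l _ => smul_comm _ _ _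
        _ = ∑ u, (Matrix.vecMul v M u) • b u := by
            simp only [smul_sum, smul_smul, Matrix.vecMul, dotProduct, sum_smul]
            exact sum_comm
        _ = 0 := by simp [hv]
    rw [smul_eq_zero, mul_eq_zero] at h0
    exact hv0 (funext (Fintype.linearIndependent_iff.1 b.linearIndependent v
      ((h0.resolve_left hδ).resolve_left ha0)))
  refine ⟨C.d * (2 * C.g) + C.d * E + C.g, B, ?_, ?_, ?_, ?_⟩
  · have h1 : E ≤ C.d * (4 * C.g) := Nat.mul_le_mul_left _ (by omega)
    have h2 := Nat.mul_le_mul_left C.d h1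
    nlinarith
  · refine sum_mem fun v _ => sum_mem fun l _ => ?_
    rw [IntermediateField.smul_def, smul_eq_mul, MulMemClass.coe_mul]
    have hadj : (M.adjugate v l : K) ∈ polySpace (k := k) C.η C.ζ ((C.d * E : ℕ) : ℤ) := by
      rw [Matrix.adjugate_apply]
      have := det_mem_poly (M.updateRow l (Pi.single v 1)) E fun p u => by
        rw [Matrix.updateRow_apply]
        split_ifs
        · rw [Pi.single_apply]
          split_ifs
          · simpa using one_mem_poly (Int.natCast_nonneg E)
          · simp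
        · exact hMm p u
      simpa using this
    have := C.mul_mem _ _ _ (poly_le_R C _ (mul_mem_poly (hqm v) hadj)) _ (hb l)
    push_cast at this ⊢
    exact this
  · rw [key']
    refine poly_mono ?_ (det_mem_poly M E hMm)
    simp only [Fintype.card_fin]
    push_cast
    nlinarith [Int.natCast_nonneg (C.d * (2 * C.g))]
  · rw [key']
    simpa using hdet

end Vale.Agent.P190.Minimise
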