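import Vale.Agent.P190.Minimise.Act
import Vale.Agent.P190.Minimise.Cramer

/-!
P190, MINIMISE: the first torsion free filtration and the bound of its discriminant.
-/

open Filter Finset

namespace Vale.Agent.P190.Minimise

/-- The largest degree in which the action is used. -/
def maxDeg (d g : ℕ) : ℕ := 4 * (d + 1) * (d + 1) * (g + 1) + 2 * g + 1

variable {k K : Type} [Field k] [Field K] [Algebra k K] {r L : ℕ} {C : Cone k K}

namespace Act

/-- The graded operators: the nonzero elements of low degree and the nonzero polynomials. -/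
def gop (A : Act C r L) (i : ℕ) : Set (Vec k r →ₗ[k] Vec k r) :=
  {f | (i ≤ C.g ∧ ∃ a ∈ C.R (i : ℤ), a ≠ 0 ∧ f = A.op i a) ∨
    ∃ c : ↥(monos i) → k, c ≠ 0 ∧ f = Sh i c}

/-- What the elements of degree at most `g` carry into the right powers. -/
def canonF (A : Act C r L) (n : ℕ) : Submodule k (Vec k r) where
  carrier := {v | v ∈ U k r n ∧ ∀ i ≤ C.g, ∀ a ∈ C.R (i : ℤ), A.op i a v ∈ U k r (n + i)}
  add_mem' := fun ha hb => ⟨add_mem ha.1 hb.1, fun i hi a h => by
    rw [map_add]; exact add_mem (ha.2 i hi a h) (hb.2 i hi a h)⟩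
  zero_mem' := ⟨zero_mem _, fun i _ a _ => by rw [map_zero]; exact zero_mem _⟩
  smul_mem' := fun c v hv => ⟨Submodule.smul_mem _ c hv.1, fun i hi a h => by
    rw [map_smul]; exact Submodule.smul_mem _ c (hv.2 i hi a h)⟩

variable (A : Act C r L)

lemma canon_high {i : ℕ} (hi : i ≤ L) {a : K} (ha : a ∈ C.R (i : ℤ)) {n : ℕ} {v : Vec k r}
    (hv : v ∈ A.canonF n) : A.op i a v ∈ U k r (n + i) := by
  rcases le_or_gt i C.g with h | h
  · exact hv.2 i h a ha
  obtain ⟨j, rfl⟩ := Nat.exists_eq_add_of_le h.le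
  refine A.op_high hi ha hv.1 (m := n + (C.g + j)) (by omega) _ le_rfl fun p hp b hb => ?_
  have := sh_mem_U (hv.2 C.g le_rfl b hb) p
  rwa [mem_monos.1 hp, show n + C.g + j = n + (C.g + j) by omega] at this

lemma canon_Sh {j n : ℕ} (c : ↥(monos j) → k) {v : Vec k r} (hv : v ∈ A.canonF n) :
    Sh j c v ∈ A.canonF (n + j) :=
  ⟨Sh_mem_U c hv.1, fun i hi a ha => by
    rw [A.op_Sh, show n + j + i = n + i + j by omega]
    exact Sh_mem_U c (hv.2 i hi a ha)⟩

/-- The first filtration. -/
def canon (hL : maxDeg C.d C.g + C.g ≤ L) : Filt A.gop where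
  F := A.canonF
  K := C.g
  lower n v hv := ⟨U_anti (by omega) (show v ∈ U k r (n + C.g) from hv), fun i hi a _ =>
    U_anti (by omega) (A.op_mem (i := i) (a := a) (show v ∈ U k r (n + C.g) from hv))⟩
  upper n v hv := hv.1
  anti n v hv := ⟨U_anti (by omega) hv.1, fun i hi a ha => U_anti (by omega) (hv.2 i hi a ha)⟩
  shift p n v hv := ⟨sh_mem_U hv.1 p, fun i hi a ha => by
    rw [A.op_comm, show n + deg p + i = n + i + deg p by omega]
    exact sh_mem_U (hv.2 i hi a ha) p⟩
  compat i n f hf v hv := by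
    rcases hf with ⟨hi, a, ha, -, rfl⟩ | ⟨c, -, rfl⟩
    · refine ⟨hv.2 i hi a ha, fun j hj b hb => ?_⟩
      have h0 : j + i ≤ L := by unfold maxDeg at hL; omega
      have h1 := A.op_mul h0 hb ha hv.1
      have hba : b * a ∈ C.R ((j + i : ℕ) : ℤ) := by
        push_cast; exact C.mul_mem _ _ _ hb _ ha
      have h2 := A.canon_high h0 hba hv
      rw [show n + (j + i) = n + i + j by omega] at h2
      simpa using sub_mem h2 (U_anti (show n + i + j ≤ n + L by omega) h1)
    · exact A.canon_Sh c hv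

lemma canon_tf (hL : maxDeg C.d C.g + C.g ≤ L) : (A.canon hL).Tf := by
  intro i f hf n v hv hfv
  change v ∈ A.canonF n at hv
  change f v ∈ A.canonF (n + i + 1) at hfv
  show v ∈ A.canonF (n + 1)
  rcases hf with ⟨hi, a, ha, ha0, rfl⟩ | ⟨c, hc, rfl⟩
  · obtain ⟨m, b, hm, hb, hab, hab0⟩ := exists_inverse C hi ha ha0
    obtain ⟨c, hc⟩ := exists_val (poly_mono (show (m : ℤ) ≤ ((i + m : ℕ) : ℤ) by omega) hab)
    have hc0 : c ≠ 0 := fun h => hab0 (by rw [← hc, h, map_zero])
    have key : ∀ j ≤ C.g, ∀ b' ∈ C.R (j : ℤ), A.op j b' v ∈ U k r (n + j + 1) := fun j hj b' hb' => by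
      refine mem_U_of_Sh hc0 ?_
      have hb'b : b' * b ∈ C.R ((j + m : ℕ) : ℤ) := by
        push_cast; exact C.mul_mem _ _ _ hb' _ hb
      unfold maxDeg at hL
      have h1 := A.op_val_mul (j := i + m) (i := j) (by omega) c hb' hv.1
      have h2 := A.op_mul (i := j + m) (j := i) (by omega) hb'b ha hv.1
      have h3 := A.canon_high (i := j + m) (by omega) hb'b hfv
      rw [hc, show a * b * b' = b' * b * a by ring, show i + m + j = j + m + i by omega] at h1
      rw [show n + i + 1 + (j + m) = n + j + 1 + (i + m) by omega] at h3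
      have h4 := sub_mem h2 h1
      rw [sub_sub_sub_cancel_left] at h4
      simpa using add_mem (U_anti (show n + j + 1 + (i + m) ≤ n + L by omega) h4) h3
    refine ⟨?_, fun j hj b' hb' => ?_⟩
    · have h := key 0 (Nat.zero_le _) 1 (by
        rw [Nat.cast_zero, C.R_zero]; exact Submodule.subset_span rfl)
      simpa using sub_mem h (U_anti (show n + 0 + 1 ≤ n + L by unfold maxDeg at hL; omega)
        (A.op_one hv.1))
    · rw [show n + 1 + j = n + j + 1 by omega]
      exact key j hj b' hb'
  · refine ⟨mem_U_of_Sh hc (U_anti (by omega) hfv.1), fun j hj b hb => mem_U_of_Sh hc ?_⟩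
    rw [← A.op_Sh, show n + 1 + j + i = n + i + 1 + j by omega]
    exact hfv.2 j hj b hb

open Classical in
/-- The discriminant of the first filtration is bounded. -/
theorem canon_bound (hL : maxDeg C.d C.g + C.g ≤ L) {e c : ℤ}
    (h : ∀ᶠ n in atTop, ((A.canon hL).h n : ℤ) = poly r e c n) :
    disc r e c ≤ ((2 * r * r * C.g * (C.g + 1) : ℕ) : ℤ) := by
  haveI := fun i : Fin (C.g + 1) => C.fd ((i : ℕ) : ℤ)
  let σ := Σ i : Fin (C.g + 1),
    (Fin (Module.finrank k (C.R ((i : ℕ) : ℤ))) × Fin (i : ℕ)) × Fin r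
  let eq := Fintype.equivFin σ
  let el : σ → K := fun s => (Module.finBasis k (C.R ((s.1 : ℕ) : ℤ)) s.2.1.1 : K)
  let ψ : ℕ → Vec k r →ₗ[k] Vec k (Fintype.card σ) := fun m =>
    { toFun := fun v t => if deg t.1 = m then
        sh (C.g - ((eq.symm t.2).2.1.2 : ℕ), 0, 0)
          (A.op (eq.symm t.2).1 (el (eq.symm t.2)) v) (t.1, (eq.symm t.2).2.2) else 0
      map_add' := fun v w => by funext t; by_cases h : deg t.1 = m <;> simp [h]
      map_smul' := fun a v => by funext t; by_cases h : deg t.1 = m <;> simp [h] }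
  have hψ : ∀ m v t, ψ m v t = if deg t.1 = m then
        sh (C.g - ((eq.symm t.2).2.1.2 : ℕ), 0, 0)
          (A.op (eq.symm t.2).1 (el (eq.symm t.2)) v) (t.1, (eq.symm t.2).2.2) else 0 :=
    fun _ _ _ => rfl
  have hψ' : ∀ m v (q : Mon) (s : σ), ψ m v (q, eq s) = if deg q = m then
      sh (C.g - (s.2.1.2 : ℕ), 0, 0) (A.op s.1 (el s) v) (q, s.2.2) else 0 := fun m v q s => by
    rw [hψ]
    generalize hh : eq.symm (q, eq s).2 = s'
    obtain rfl : s' = s := hh.symm.trans (eq.symm_apply_apply s)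
    rfl
  have hψsh : ∀ p m v, sh p (ψ m v) = ψ (m + deg p) (sh p v) := fun p m v => by
    funext t
    rw [hψ, sh_apply, A.op_comm, sh_sh, add_comm (_ : Mon) p, ← sh_sh, sh_apply p]
    simp only [hψ]
    by_cases hp : p ≤ t.1
    · have hd : deg (t.1 - p) + deg p = deg t.1 := by rw [← deg_add, tsub_add_cancel_of_le hp]
      simp only [if_pos hp]
      split_ifs <;> first | rfl | omega
    · simp only [if_neg hp, ite_self]
  let Ψ : Fam k (Fintype.card σ) :=
    { A := fun m => if C.g ≤ m then (U k r (m - C.g)).map (ψ m) else ⊥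
      upper := fun m v hv t ht => by
        split_ifs at hv
        · obtain ⟨w, -, rfl⟩ := hv
          rw [hψ, if_neg (by omega)]
        · simp [(Submodule.mem_bot k).1 hv]
      shift := fun p m v hv => by
        split_ifs at hv with hm
        · obtain ⟨w, hw, rfl⟩ := hv
          rw [if_pos (show C.g ≤ m + deg p by omega), hψsh]
          refine Submodule.mem_map_of_mem ?_
          rw [show m + deg p - C.g = m - C.g + deg p by omega]
          exact sh_mem_U hw p
        · simp [(Submodule.mem_bot k).1 hv] }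
  set H : ℕ → ℕ := fun n => qd (U k r n) (A.canonF n) with hH
  have hHeq : ∀ n, H n = dimW (n + C.g) 1 (Ψ.A (n + C.g)) := fun n => by
    have hA : Ψ.A (n + C.g) = (U k r n).map (ψ (n + C.g)) := by simp [Ψ]
    have hker : ∀ v ∈ A.canonF n, ψ (n + C.g) v = 0 := fun v hv => by
      funext ⟨q, x⟩
      obtain ⟨⟨i, ⟨l, l'⟩, j⟩, rfl⟩ := eq.surjective x
      simp only [hψ', Pi.zero_apply]
      split_ifs with hd
      · rw [sh_apply]
        split_ifs with he
        · refine hv.2 i (by omega) _ (Subtype.coe_prop _) _ ?_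
          have := deg_add (q - (C.g - (l' : ℕ), 0, 0)) (C.g - (l' : ℕ), 0, 0)
          rw [tsub_add_cancel_of_le he] at this
          simp only [deg] at this hd ⊢
          omega
        · rfl
      · rfl
    have h1 := qd_add (proj k (Fintype.card σ) (n + C.g) 1 ∘ₗ ψ (n + C.g))
      (A := U k r n) (B := A.canonF n) (fun v hv => hv.1) fun v hv h0 => ⟨hv, fun i hi a ha => ?_⟩
    · have hbot : (A.canonF n).map (proj k (Fintype.card σ) (n + C.g) 1 ∘ₗ ψ (n + C.g)) = ⊥ := by
        rw [eq_bot_iff]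
        rintro _ ⟨v, hv, rfl⟩
        simp [hker v hv]
      rw [hbot, finrank_bot, add_zero] at h1
      rw [hH, dimW, hA, ← Submodule.map_comp]
      exact h1
    · intro t ht
      by_cases hlow : deg t.1 < n
      · exact A.op_mem hv t hlow
      obtain ⟨⟨a0, b0, c0⟩, j⟩ := t
      haveI := C.fd ((i : ℕ) : ℤ)
      have hb : ∀ l, A.op i ((Module.finBasis k (C.R ((i : ℕ) : ℤ))) l : K) v
          ((a0, b0, c0), j) = 0 := fun l => by
        have hl' : deg (a0, b0, c0) - n < i := by simp only at ht hlow ⊢; omega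
        let l' : Fin i := ⟨deg (a0, b0, c0) - n, hl'⟩
        let s : σ := ⟨⟨i, Nat.lt_succ_of_le hi⟩, (l, l'), j⟩
        have hq : deg ((C.g - (l' : ℕ), 0, 0) + (a0, b0, c0) : Mon) = n + C.g := by
          simp only [deg, l', Prod.fst_add, Prod.snd_add] at *
          omega
        have h := congrFun h0 ⟨(((C.g - (l' : ℕ), 0, 0) + (a0, b0, c0) : Mon), eq s),
          mem_win.2 ⟨hq.ge, by simp only; omega⟩⟩
        change ψ (n + C.g) v (_, eq s) = 0 at h
        rw [hψ', if_pos hq] at h
        exact (sh_apply_add _ _ ((a0, b0, c0), j)).symm.trans h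
      let φ : C.R (i : ℤ) →ₗ[k] k :=
        { toFun := fun x => A.E i x v ((a0, b0, c0), j)
          map_add' := fun x y => by simp
          map_smul' := fun x y => by simp }
      have hφ : φ = 0 := (Module.finBasis k (C.R ((i : ℕ) : ℤ))).ext fun l => by
        have := hb l
        rw [A.op_eq (Subtype.coe_prop _)] at this
        rw [LinearMap.zero_apply]
        exact this
      rw [A.op_eq ha]
      exact LinearMap.congr_fun hφ ⟨a, ha⟩
  have hW : ∀ (n M : ℕ), dimW n M (U k r n) = ∑ l ∈ range M, ∑ _i : Fin r, (monos (n + l)).card :=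
    fun n M => by
      rw [dimW_eq (A := U k r n) fun v hv => hv]
      refine sum_congr rfl fun l _ => sum_congr rfl fun i _ => ?_
      rw [filter_true_of_mem]
      intro p hp
      refine ⟨unit (p, i), fun t ht => ?_, lead_unit _⟩
      exact Pi.single_eq_of_ne (by rintro rfl; rw [mem_monos] at hp; simp only at ht; omega) _
  have hh : ∀ n, ((A.canon hL).h n : ℤ) + H n = r * tri n + H (n + 1) := fun n => by
    have lowF : ∀ v, (∀ t : Term r, deg t.1 < n + (C.g + 1) → v t = 0) → v ∈ A.canonF (n + 1) :=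
      fun v hv => (A.canon hL).lower (n + 1) v fun t ht => hv t (by
        change deg t.1 < n + 1 + C.g at ht; omega)
    have hU1 : U k r (n + 1) ≤ U k r n := U_anti (Nat.le_succ n)
    have hF : A.canonF (n + 1) ≤ A.canonF n := (A.canon hL).anti n
    have e1 := qd_eq_dimW (n := n) hF ((A.canon hL).upper n) lowF
    have e2 := qd_eq_dimW (n := n) (A := U k r n) (B := A.canonF n) (fun v hv => hv.1)
      (fun v hv => hv) fun v hv => hF (lowF v hv)
    have e3 := qd_eq_dimW (n := n) (A := U k r (n + 1)) (B := A.canonF (n + 1)) (fun v hv => hv.1)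
      (fun v hv => hU1 hv) lowF
    have e4 := qd_eq_dimW (n := n) (L := C.g + 1) hU1 (fun v hv => hv)
      fun v hv => show v ∈ U k r (n + 1) from U_anti (by omega) (show v ∈ U k r (n + (C.g + 1)) from hv)
    have e5 := qd_eq_dimW (n := n) (L := 1) hU1 (fun v hv => hv) fun v hv => hv
    have z : dimW n 1 (U k r (n + 1)) = 0 := by
      rw [dimW_eq (A := U k r (n + 1)) fun v hv => hU1 hv]
      simp only [sum_range_one, sum_eq_zero_iff, card_eq_zero, filter_eq_empty_iff]
      rintro i - p hp ⟨v, hv, hl⟩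
      exact hl.1 (hv _ (by rw [mem_monos] at hp; simp only; omega))
    rw [z, add_zero, hW] at e5
    simp only [sum_range_one, add_zero, sum_const, card_univ, Fintype.card_fin, smul_eq_mul] at e5
    have e6 : (qd (U k r n) (U k r (n + 1)) : ℤ) = r * tri n := by
      rw [e5]; push_cast [card_monos]; rfl
    rw [← e6]
    have : (A.canon hL).h n = qd (A.canonF n) (A.canonF (n + 1)) := rfl
    simp only [hH, this]
    omega
  obtain ⟨ρ, e', c', hρ0, -, he', hd⟩ := Ψ.data
  have hd' : ∀ᶠ n in atTop, (H n : ℤ) = poly ρ e' c' (n + C.g) :=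
    ((tendsto_add_atTop_nat C.g).eventually hd).mono fun n hn => by rw [hHeq]; exact hn
  have hρ : ρ ≤ r * C.g := by
    have h0 : 0 ≤ (r : ℤ) * C.g - ρ := by
      refine poly_lead_nonneg (e := -e') (c := -c') ?_
      obtain ⟨N, hN⟩ := eventually_atTop.1 hd'
      refine eventually_atTop.2 ⟨N + C.g, fun m hm => ?_⟩
      obtain ⟨n, rfl⟩ : ∃ n, m = n + C.g := ⟨m - C.g, by omega⟩
      have e2 := qd_eq_dimW (n := n) (L := C.g) (A := U k r n) (B := A.canonF n)
        (fun v hv => hv.1) (fun v hv => hv) fun v hv => (A.canon hL).lower n v hv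
      have h2 : ((∑ l ∈ range C.g, ∑ _i : Fin r, (monos (n + l)).card : ℕ) : ℤ) ≤
          r * C.g * tri (n + C.g) := by
        push_cast
        refine (sum_le_sum fun l hl => sum_le_sum fun i _ =>
          (show ((monos (n + l)).card : ℤ) ≤ tri (n + C.g) by
            rw [card_monos]
            exact Int.ofNat_le.2 (Nat.choose_le_choose 2 (by rw [mem_range] at hl; omega)))).trans_eq ?_
        simp [mul_left_comm, mul_assoc]
      rw [← hW, ← e2] at h2
      push_cast at h2
      have h3 := hN n (by omega)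
      simp only [hH] at h3
      simp only [poly] at h3 ⊢
      nlinarith [Int.natCast_nonneg (dimW n C.g (A.canonF n))]
    linarith
  obtain ⟨-, hee, hcc⟩ := poly_inj (h.and ((hd'.and
    ((tendsto_add_atTop_nat 1).eventually hd')).mono fun n hn =>
    show ((A.canon hL).h n : ℤ) = poly r ρ (ρ * (C.g + 1) + e') n by
      have h1 := hh n
      rw [hn.1, hn.2, show n + 1 + C.g = n + C.g + 1 by omega] at h1
      have := poly_succ ρ e' c' (n + C.g)
      push_cast at this
      simp only [poly] at h1 this ⊢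
      linear_combination h1 + this) |>.mono fun n hn => hn.1.symm.trans hn.2)
  rw [hee, hcc, disc]
  push_cast
  have hr : (0 : ℤ) ≤ r := Int.natCast_nonneg r
  have hg : (0 : ℤ) ≤ C.g + 1 := by positivity
  nlinarith [mul_le_mul_of_nonneg_left (mul_le_mul_of_nonneg_right hρ hg) hr,
    mul_le_mul_of_nonneg_left he' hr, sq_nonneg ρ, mul_nonneg hr hρ0]

end Act

end Vale.Agent.P190.Minimise
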