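import Vale.Agent.P190.Minimise.Poly

/-!
P190, MINIMISE: two coprime combinations of polynomials without common factor, and the codimension
of the ideal they generate.
-/

open Finset MvPolynomial

namespace Vale.Agent.P190.Minimise

variable {k K : Type} [Field k] [Field K] [Algebra k K] {η ζ : K}

lemma tdeg_pos_of_prime {p : MvPolynomial (Fin 2) k} (hp : Prime p) : 0 < p.totalDegree := by
  by_contra h
  have h0 : p.totalDegree = 0 := by omega
  rw [totalDegree_eq_zero_iff_eq_C] at h0
  rw [h0] at hp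
  refine hp.not_unit ((Ne.isUnit fun hc => hp.ne_zero (by rw [hc, map_zero])).map C)

/-- Polynomials without common prime factor, up to their greatest common divisor, give two coprime
combinations of which one has the top degree. -/
theorem exists_coprime [Infinite k] {ι : Type} [Fintype ι] (P : ι → MvPolynomial (Fin 2) k) (i₀ : ι)
    (hi₀ : P i₀ ≠ 0) :
    ∃ (G : MvPolynomial (Fin 2) k) (Q : ι → MvPolynomial (Fin 2) k) (E : ℕ) (cf cg : ι → k),
      G ≠ 0 ∧ (∀ i, P i = G * Q i) ∧ (∀ i, (Q i).totalDegree ≤ E) ∧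
      (∑ i, cf i • Q i) ≠ 0 ∧ (∑ i, cg i • Q i) ≠ 0 ∧ (∑ i, cf i • Q i).totalDegree = E ∧
      IsRelPrime (∑ i, cf i • Q i) (∑ i, cg i • Q i) := by
  classical
  set S : Set ℕ := {n | ∃ G : MvPolynomial (Fin 2) k, (∀ i, G ∣ P i) ∧ n = G.totalDegree}
  have hS : BddAbove S := ⟨(P i₀).totalDegree, by
    rintro n ⟨G, hG, rfl⟩
    obtain ⟨q, hq⟩ := hG i₀
    rw [hq, totalDegree_mul_of_isDomain (fun h => hi₀ (by rw [hq, h, zero_mul]))
      (fun h => hi₀ (by rw [hq, h, mul_zero]))]
    exact Nat.le_add_right _ _⟩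
  have hne : S.Nonempty := ⟨(1 : MvPolynomial (Fin 2) k).totalDegree, 1, fun i => one_dvd _, rfl⟩
  obtain ⟨G, hG, hGd⟩ := Nat.sSup_mem hne hS
  choose Q hQ using hG
  have hG0 : G ≠ 0 := fun h => hi₀ (by rw [hQ i₀, h, zero_mul])
  have hQ0 : Q i₀ ≠ 0 := fun h => hi₀ (by rw [hQ i₀, h, mul_zero])
  have hmax : ∀ p, Prime p → ∃ i, ¬ p ∣ Q i := fun p hp => by
    by_contra h
    push Not at h
    have hmem : (G * p).totalDegree ∈ S := ⟨G * p, fun i => by
      rw [hQ i]; exact mul_dvd_mul_left G (h i), rfl⟩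
    have h1 := le_csSup hS hmem
    rw [hGd, totalDegree_mul_of_isDomain hG0 hp.ne_zero] at h1
    have := tdeg_pos_of_prime hp
    omega
  obtain ⟨i₁, hi₁0, hi₁⟩ : ∃ i₁, Q i₁ ≠ 0 ∧ ∀ i, (Q i).totalDegree ≤ (Q i₁).totalDegree := by
    obtain ⟨i, hi, h⟩ := exists_max_image (univ.filter fun i => Q i ≠ 0)
      (fun i => (Q i).totalDegree) ⟨i₀, mem_filter.2 ⟨mem_univ _, hQ0⟩⟩
    refine ⟨i, (mem_filter.1 hi).2, fun j => ?_⟩
    by_cases hj : Q j = 0
    · simp [hj]
    · exact h j (mem_filter.2 ⟨mem_univ _, hj⟩)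
  set f := Q i₁
  set e := Fintype.equivFin ι
  let lin : k → MvPolynomial (Fin 2) k := fun s => ∑ i, (s ^ (e i : ℕ)) • Q i
  have hbad : ∀ p, Prime p → {s | p ∣ lin s}.Finite := fun p hp => by
    haveI : (Ideal.span {p}).IsPrime := (Ideal.span_singleton_prime hp.ne_zero).2 hp
    set π := Ideal.Quotient.mk (Ideal.span {p})
    let ρ : Polynomial (MvPolynomial (Fin 2) k ⧸ Ideal.span {p}) :=
      ∑ i, Polynomial.monomial (e i : ℕ) (π (Q i))
    have hρ : ρ ≠ 0 := by
      obtain ⟨i, hi⟩ := hmax p hp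
      intro h
      have := congrArg (Polynomial.coeff · (e i : ℕ)) h
      simp only [ρ, Polynomial.finsetSum_coeff, Polynomial.coeff_monomial, Polynomial.coeff_zero] at this
      rw [sum_eq_single i (fun j _ hj => if_neg fun h' => hj (e.injective (Fin.ext h')))
        (fun h => absurd (mem_univ _) h), if_pos rfl, Ideal.Quotient.eq_zero_iff_mem,
        Ideal.mem_span_singleton] at this
      exact hi this
    have hinj : Function.Injective fun s : k => π (C s) := (π.comp C).injective
    refine ((Polynomial.finite_setOfPred_isRoot hρ).preimage hinj.injOn).subset fun s hs => ?_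
    have h0 : π (lin s) = 0 := by
      rw [Ideal.Quotient.eq_zero_iff_mem, Ideal.mem_span_singleton]; exact hs
    show Polynomial.eval (π (C s)) ρ = 0
    rw [← h0]
    simp only [ρ, lin, Polynomial.eval_finsetSum, Polynomial.eval_monomial, map_sum, smul_eq_C_mul,
      map_mul, map_pow]
    exact sum_congr rfl fun i _ => mul_comm _ _
  obtain ⟨F, hF⟩ : ∃ F : Multiset (MvPolynomial (Fin 2) k), (∀ p ∈ F, Prime p) ∧
      ∀ q, Prime q → q ∣ f → ∃ p ∈ F, Associated q p :=
    ⟨UniqueFactorizationMonoid.factors f, fun p hp => UniqueFactorizationMonoid.prime_of_factor p hp,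
      fun q hq hqf => UniqueFactorizationMonoid.exists_mem_factors_of_dvd hi₁0 hq.irreducible hqf⟩
  set p₀ : MvPolynomial (Fin 2) k := X 0
  have hp₀ : Prime p₀ := MvPolynomial.X_prime
  obtain ⟨s, hs⟩ := ((F.toFinset.finite_toSet.biUnion fun p hp =>
    hbad p (hF.1 p (Multiset.mem_toFinset.1 hp))).union (hbad p₀ hp₀)).infinite_compl.nonempty
  simp only [Set.mem_compl_iff, Set.mem_union, Set.mem_iUnion, Set.mem_ofPred_eq, not_or, not_exists,
    Finset.mem_coe] at hs
  refine ⟨G, Q, f.totalDegree, fun i => if i = i₁ then 1 else 0, fun i => s ^ (e i : ℕ), hG0, hQ, hi₁,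
    ?_, ?_, ?_, ?_⟩
  · simpa [ite_smul] using hi₁0
  · intro h
    exact hs.2 (by show p₀ ∣ lin s; rw [show lin s = 0 from h]; exact dvd_zero _)
  · simp [ite_smul, f]
  · intro d hd1 hd2
    by_contra hu
    have hf : (∑ i, (if i = i₁ then (1 : k) else 0) • Q i) = f := by simp [ite_smul, f]
    rw [hf] at hd1
    obtain ⟨q, hq, hqd⟩ := WfDvdMonoid.exists_irreducible_factor hu fun h => hi₁0 (by
      rw [h, zero_dvd_iff] at hd1; exact hd1)
    obtain ⟨p, hp, hpa⟩ := hF.2 q hq.prime (hqd.trans hd1)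
    exact hs.1 p (Multiset.mem_toFinset.2 hp) (hpa.symm.dvd.trans (hqd.trans hd2))

lemma tri_second (J E : ℕ) : tri (J + 2 * E) - 2 * tri (J + E) + tri J = (E : ℤ) * E := by
  have h1 := two_mul_tri J
  have h2 := two_mul_tri (J + E)
  have h3 := two_mul_tri (J + 2 * E)
  push_cast at h2 h3
  linarith

/-- The multiples of two coprime polynomials of degree `E` fill up to a bounded codimension. -/
theorem exists_span_large (hind : AlgebraicIndependent k ![η, ζ]) {f g : MvPolynomial (Fin 2) k}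
    {E : ℕ} (hf : f ≠ 0) (hg : g ≠ 0) (hfE : f.totalDegree = E) (hcop : IsRelPrime f g) (J : ℕ) :
    2 * tri (J + E) - tri J ≤ Module.finrank k
      ↥((polySpace (k := k) η ζ ((J + E : ℕ) : ℤ)).map (LinearMap.mulLeft k (aeval ![η, ζ] f)) ⊔
        (polySpace (k := k) η ζ ((J + E : ℕ) : ℤ)).map (LinearMap.mulLeft k (aeval ![η, ζ] g))) := by
  set F := aeval ![η, ζ] f
  set G := aeval ![η, ζ] g
  set A := (polySpace (k := k) η ζ ((J + E : ℕ) : ℤ)).map (LinearMap.mulLeft k F)
  set B := (polySpace (k := k) η ζ ((J + E : ℕ) : ℤ)).map (LinearMap.mulLeft k G)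
  have hF0 : F ≠ 0 := fun h => hf (hind (h.trans (map_zero _).symm))
  have hG0 : G ≠ 0 := fun h => hg (hind (h.trans (map_zero _).symm))
  have hA : Module.finrank k A = Module.finrank k (polySpace (k := k) η ζ ((J + E : ℕ) : ℤ)) :=
    (Submodule.equivMapOfInjective _ (mul_right_injective₀ hF0) _).finrank_eq.symm
  have hB : Module.finrank k B = Module.finrank k (polySpace (k := k) η ζ ((J + E : ℕ) : ℤ)) :=
    (Submodule.equivMapOfInjective _ (mul_right_injective₀ hG0) _).finrank_eq.symm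
  have hAB : Module.finrank k ↥(A ⊓ B) ≤ Module.finrank k (polySpace (k := k) η ζ (J : ℤ)) := by
    refine le_trans (Submodule.finrank_mono (t := (polySpace (k := k) η ζ (J : ℤ)).map
      (LinearMap.mulLeft k (F * G))) ?_) (le_of_eq ?_)
    · rintro x ⟨⟨a, ha, rfl⟩, ⟨b, hb, e⟩⟩
      simp only [LinearMap.mulLeft_apply] at e
      obtain ⟨a', rfl, -⟩ := exists_totalDegree ha
      obtain ⟨b', rfl, hb'⟩ := exists_totalDegree hb
      have e' : g * b' = f * a' := hind (by rw [map_mul, map_mul]; exact e)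
      obtain ⟨c', rfl⟩ := hcop.dvd_of_dvd_mul_left ⟨a', e'⟩
      have ea : a' = g * c' := mul_left_cancel₀ hf (by rw [← e']; ring)
      refine ⟨aeval ![η, ζ] c', aeval_mem_poly c' ?_, ?_⟩
      · rcases eq_or_ne c' 0 with rfl | hc
        · simp
        · rw [totalDegree_mul_of_isDomain hf hc, hfE, max_eq_left (Int.natCast_nonneg _)] at hb'
          push_cast at hb' ⊢
          omega
      · simp only [LinearMap.mulLeft_apply, ea, map_mul]
        ring
    · exact (Submodule.equivMapOfInjective _ (mul_right_injective₀ (mul_ne_zero hF0 hG0)) _).finrank_eq.symm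
  have h := Submodule.finrank_sup_add_finrank_inf_eq A B
  rw [hA, hB] at h
  have h1 := finrank_poly hind (J + E)
  have h2 := finrank_poly hind J
  omega

end Vale.Agent.P190.Minimise
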