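import Vale.Agent.P190.Minimise.Act

/-!
P190, MINIMISE: the duality of families and graded sublattices of free modules.
-/

open Filter Finset

namespace Vale.Agent.P190.Minimise

variable {k K : Type} [Field k] [Field K] [Algebra k K] {η ζ : K} {rK : ℕ}

/-- The pairing of the duality. -/
noncomputable def pair (η ζ : K) :
    LinearMap.BilinForm (ratField k η ζ) (Fin rK → K) :=
  LinearMap.mk₂ (ratField k η ζ) (fun w v => Algebra.trace (ratField k η ζ) K (∑ i, w i * v i))
    (fun w w' v => by rw [← map_add]; simp [add_mul, sum_add_distrib])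
    (fun c w v => by rw [← map_smul]; simp [smul_sum])
    (fun w v v' => by rw [← map_add]; simp [mul_add, sum_add_distrib])
    (fun c w v => by rw [← map_smul]; simp [smul_sum])

lemma pair_apply (w v : Fin rK → K) :
    pair (k := k) η ζ w v = Algebra.trace (ratField k η ζ) K (∑ i, w i * v i) := rfl

lemma pair_comm (w v : Fin rK → K) : pair (k := k) η ζ w v = pair (k := k) η ζ v w := by
  simp only [pair_apply, mul_comm]

lemma mem_dual {N : ℤ → Submodule k (Fin rK → K)} {n : ℤ} {w : Fin rK → K} :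
    w ∈ dualFam η ζ N n ↔
      ∀ j, ∀ v ∈ N j, (pair (k := k) η ζ w v : K) ∈ polySpace (k := k) η ζ (n + j - 3) := Iff.rfl

lemma le_dual_dual (N : ℤ → Submodule k (Fin rK → K)) (n : ℤ) :
    N n ≤ dualFam η ζ (dualFam η ζ N) n := fun v hv => mem_dual.2 fun j w hw => by
  rw [pair_comm, add_comm n j]
  exact mem_dual.1 hw n v hv

lemma dual_anti {N N' : ℤ → Submodule k (Fin rK → K)} (h : ∀ n, N n ≤ N' n) (n : ℤ) :
    dualFam η ζ N' n ≤ dualFam η ζ N n := fun _ hw => mem_dual.2 fun j v hv =>
  mem_dual.1 hw j v (h j hv)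

lemma dual_reflexive (N : ℤ → Submodule k (Fin rK → K)) (n : ℤ) :
    dualFam η ζ (dualFam η ζ (dualFam η ζ N)) n = dualFam η ζ N n :=
  le_antisymm (dual_anti (le_dual_dual N) n) (le_dual_dual _ n)

lemma pair_smul_left (a : K) (w v : Fin rK → K) :
    pair (k := k) η ζ (a • w) v = pair (k := k) η ζ w (a • v) := by
  simp only [pair_apply, Pi.smul_apply, smul_eq_mul]
  congr 1
  exact sum_congr rfl fun i _ => by ring

lemma dual_smul (R : ℤ → Submodule k K) {N : ℤ → Submodule k (Fin rK → K)}
    (h : ∀ (m n : ℤ), ∀ a ∈ R m, ∀ v ∈ N n, a • v ∈ N (m + n)) :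
    ∀ (m n : ℤ), ∀ a ∈ R m, ∀ w ∈ dualFam η ζ N n, a • w ∈ dualFam η ζ N (m + n) :=
  fun m n a ha w hw => mem_dual.2 fun j v hv => by
    rw [pair_smul_left, show m + n + j - 3 = n + (m + j) - 3 by ring]
    exact mem_dual.1 hw (m + j) _ (h m j a ha v hv)

lemma pair_nondegenerate [FiniteDimensional (ratField k η ζ) K]
    [Algebra.IsSeparable (ratField k η ζ) K] :
    (pair (k := k) (rK := rK) η ζ).Nondegenerate := by
  classical
  have key : ∀ w : Fin rK → K, (∀ v, pair (k := k) η ζ w v = 0) → w = 0 := fun w hw => by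
    funext i
    refine (traceForm_nondegenerate (ratField k η ζ) K).1 (w i) fun y => ?_
    have h := hw (Pi.single i y)
    rw [pair_apply, sum_eq_single i (fun j _ hj => by rw [Pi.single_eq_of_ne hj, mul_zero])
      (fun h => absurd (mem_univ _) h), Pi.single_eq_same] at h
    rw [Algebra.traceForm_apply]
    exact h
  exact ⟨key, fun v hv => key v fun w => by rw [pair_comm]; exact hv w⟩

/-- A graded family inside a free module: polynomial dimensions and generation in degree one. -/
theorem lattice_data (hind : AlgebraicIndependent k ![η, ζ]) {r' : ℕ}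
    (θ : (Fin rK → K) →ₗ[k] (Fin r' → K)) (hθ : Function.Injective θ)
    (hθmono : ∀ (u : Mon) v, θ (mono η ζ u • v) = mono η ζ u • θ v)
    (E : ℕ → Submodule k (Fin rK → K))
    (hE : ∀ m, ∀ v ∈ E m, ∀ l, θ v l ∈ polySpace (k := k) η ζ (m : ℤ))
    (hsmul : ∀ (u : Mon) m, ∀ v ∈ E m, mono η ζ u • v ∈ E (m + deg u)) :
    (∃ ρ e c : ℤ, ∀ᶠ m in atTop, (Module.finrank k (E m) : ℤ) = poly ρ e c m) ∧
      ∀ᶠ m in atTop, E (m + 1) ≤ E m
        ⊔ (E m).map (DistribSMul.toLinearMap k (Fin rK → K) η)
        ⊔ (E m).map (DistribSMul.toLinearMap k (Fin rK → K) ζ) := by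
  classical
  let ev : ℕ → Vec k r' →ₗ[k] (Fin r' → K) := fun m =>
    { toFun := fun u l => val η ζ m fun p => u (p.1, l)
      map_add' := fun u u' => funext fun l => by
        rw [Pi.add_apply, ← map_add]; rfl
      map_smul' := fun a u => funext fun l => by
        rw [RingHom.id_apply, Pi.smul_apply, ← map_smul]; rfl }
  let A : ℕ → Submodule k (Vec k r') := fun m =>
    { carrier := {u | (∀ t : Term r', deg t.1 ≠ m → u t = 0) ∧ ∃ v ∈ E m, θ v = ev m u}
      add_mem' := fun {a b} ha hb => ⟨fun t ht => by simp [ha.1 t ht, hb.1 t ht], by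
        obtain ⟨v, hv, e⟩ := ha.2
        obtain ⟨w, hw, e'⟩ := hb.2
        exact ⟨v + w, add_mem hv hw, by rw [map_add, map_add, e, e']⟩⟩
      zero_mem' := ⟨fun t _ => rfl, 0, zero_mem _, by rw [map_zero, map_zero]⟩
      smul_mem' := fun a u hu => ⟨fun t ht => by simp [hu.1 t ht], by
        obtain ⟨v, hv, e⟩ := hu.2
        exact ⟨a • v, Submodule.smul_mem _ a hv, by rw [map_smul, map_smul, e]⟩⟩ }
  have hev_sh : ∀ (q : Mon) m (u : Vec k r'), (∀ t : Term r', deg t.1 ≠ m → u t = 0) →
      ev (m + deg q) (sh q u) = mono η ζ q • ev m u := fun q m u hu => funext fun l => by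
    show val η ζ (m + deg q) _ = mono η ζ q * val η ζ m _
    rw [val_apply, val_apply, mul_sum]
    simp only [mul_smul_comm, ← mono_add]
    rw [sum_coe_sort (monos (m + deg q)) (fun p => sh q u (p, l) • mono η ζ p),
      sum_coe_sort (monos m) (fun p => u (p, l) • mono η ζ (q + p))]
    symm
    refine sum_bij_ne_zero (fun p _ _ => q + p) ?_ (fun p _ _ p' _ _ h => add_left_cancel h) ?_ ?_
    · intro p hp _
      rw [mem_monos] at hp ⊢
      rw [deg_add, hp, add_comm]
    · intro p hp hne
      rw [sh_apply] at hne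
      split_ifs at hne with h
      · refine ⟨p - q, ?_, ?_, add_tsub_cancel_of_le h⟩
        · rw [mem_monos] at hp ⊢
          have := deg_add (p - q) q
          rw [tsub_add_cancel_of_le h, hp] at this
          omega
        · simpa [add_tsub_cancel_of_le h] using hne
      · simp at hne
    · intro p _ _
      rw [sh_apply_add q u (p, l)]
  let Ψ : Fam k r' :=
    { A := A
      upper := fun m u hu t ht => hu.1 t (by omega)
      shift := fun q m u hu => by
        refine ⟨fun t ht => ?_, ?_⟩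
        · rw [sh_apply]
          split_ifs with h
          · refine hu.1 _ fun hd => ht ?_
            have := deg_add (t.1 - q) q
            rw [tsub_add_cancel_of_le h] at this
            simp only at hd
            omega
          · rfl
        · obtain ⟨v, hv, e⟩ := hu.2
          exact ⟨mono η ζ q • v, hsmul q m v hv, by rw [hθmono, e, hev_sh q m u hu.1]⟩ }
  have hsurj : ∀ m, ∀ v ∈ E m, ∃ u ∈ A m, θ v = ev m u := fun m v hv => by
    choose cf hcf using fun l => exists_val (hE m v hv l)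
    let u : Vec k r' := fun t => if h : t.1 ∈ monos m then cf t.2 ⟨t.1, h⟩ else 0
    have he : θ v = ev m u := funext fun l => by
      refine (hcf l).symm.trans (congrArg (val η ζ m) (funext fun p => ?_))
      simp only [u, dif_pos p.2]
    exact ⟨u, ⟨fun t ht => dif_neg fun h => ht (mem_monos.1 h), v, hv, he⟩, he⟩
  have hinj : ∀ m, ∀ u ∈ A m, ev m u = 0 → u = 0 := fun m u hu h => funext fun t => by
    by_cases ht : deg t.1 = m
    · exact congrFun (val_injective hind m ((congrFun h t.2).trans (map_zero _).symm))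
        ⟨t.1, mem_monos.2 ht⟩
    · exact hu.1 t ht
  have hrank : ∀ m, Module.finrank k (E m) = dimW m 1 (A m) := fun m => by
    have e1 : (E m).map θ = (A m).map (ev m) := by
      ext x
      constructor
      · rintro ⟨v, hv, rfl⟩
        obtain ⟨u, hu, e⟩ := hsurj m v hv
        exact ⟨u, hu, e.symm⟩
      · rintro ⟨u, hu, rfl⟩
        obtain ⟨v, hv, e⟩ := hu.2
        exact ⟨v, hv, e⟩
    have hproj : LinearMap.ker (proj k r' m 1 ∘ₗ (A m).subtype) = ⊥ := by
      refine LinearMap.ker_eq_bot'.2 fun u hu => Subtype.ext (funext fun t => ?_)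
      by_cases ht : deg t.1 = m
      · exact congrFun hu ⟨t, mem_win.2 (by omega)⟩
      · exact u.2.1 t ht
    have hevk : LinearMap.ker (ev m ∘ₗ (A m).subtype) = ⊥ :=
      LinearMap.ker_eq_bot'.2 fun u hu => Subtype.ext (hinj m u u.2 hu)
    rw [(Submodule.equivMapOfInjective θ hθ (E m)).finrank_eq, e1, dimW,
      ← LinearMap.range_domRestrict, ← LinearMap.range_domRestrict]
    change Module.finrank k (LinearMap.range (ev m ∘ₗ (A m).subtype)) =
      Module.finrank k (LinearMap.range (proj k r' m 1 ∘ₗ (A m).subtype))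
    rw [LinearMap.finrank_range_of_inj (LinearMap.ker_eq_bot.1 hevk),
      LinearMap.finrank_range_of_inj (LinearMap.ker_eq_bot.1 hproj)]
  refine ⟨?_, (Ψ.gen 1).mono fun m hm v hv => ?_⟩
  · obtain ⟨ρ, e, c, -, -, -, h⟩ := Ψ.data
    exact ⟨ρ, e, c, h.mono fun m hm => by rw [hrank]; exact hm⟩
  obtain ⟨u, hu, he⟩ := hsurj _ v hv
  obtain ⟨u', hu', heq⟩ := hm u hu
  obtain ⟨ab, hab, _, ⟨c, hc, rfl⟩, rfl⟩ := Submodule.mem_sup.1 hu'
  obtain ⟨_, ⟨a, ha, rfl⟩, _, ⟨b, hb, rfl⟩, rfl⟩ := Submodule.mem_sup.1 hab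
  have huu : u = sh ux a + sh uy b + sh uz c := funext fun t => by
    by_cases ht : deg t.1 < m + 1 + 1
    · exact heq t ht
    · rw [hu.1 t (by omega)]
      simp only [Pi.add_apply, (Ψ.shift ux m a ha).1 t (by simp [deg, ux]; simp [deg] at ht; omega),
        (Ψ.shift uy m b hb).1 t (by simp [deg, uy]; simp [deg] at ht; omega),
        (Ψ.shift uz m c hc).1 t (by simp [deg, uz]; simp [deg] at ht; omega), add_zero]
  obtain ⟨va, hva, ea⟩ := ha.2
  obtain ⟨vb, hvb, eb⟩ := hb.2
  obtain ⟨vc, hvc, ec⟩ := hc.2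
  have : v = va + η • vb + ζ • vc := hθ (by
    rw [he, huu, map_add, map_add]
    simp only [map_add]
    refine congrArg₂ _ (congrArg₂ _ ?_ ?_) ?_
    · refine (hev_sh ux m a ha.1).trans ?_
      rw [← ea]; simp [mono, ux]
    · refine (hev_sh uy m b hb.1).trans ?_
      rw [← eb, ← hθmono]; simp [mono, uy]
    · refine (hev_sh uz m c hc.1).trans ?_
      rw [← ec, ← hθmono]; simp [mono, uz])
  rw [this]
  exact add_mem (add_mem (Submodule.mem_sup_left (Submodule.mem_sup_left hva))
    (Submodule.mem_sup_left (Submodule.mem_sup_right ⟨vb, hvb, rfl⟩)))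
    (Submodule.mem_sup_right ⟨vc, hvc, rfl⟩)

end Vale.Agent.P190.Minimise
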