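import Vale.Agent.P190.Minimise.Loc

/-!
P190, MINIMISE: the graded module of a filtration inside a vector space over the field of the cone.
-/

open Filter Finset

namespace Vale.Agent.P190.Minimise

variable {k K : Type} [Field k] [Field K] [Algebra k K]

lemma poly_shift (r e c : ℤ) (N : ℕ) : ∃ e' c', ∀ J : ℕ, poly r e c (J + N) = poly r e' c' J := by
  induction N generalizing e c with
  | zero => exact ⟨e, c, fun J => rfl⟩
  | succ N ih =>
    obtain ⟨e', c', h⟩ := ih (r + e) (r + e + c)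
    refine ⟨e', c', fun J => ?_⟩
    rw [← h]
    simp only [poly, ← add_assoc, tri_succ]
    push_cast
    ring

lemma finrank_range_comp {W W' : Type*} [AddCommGroup W] [Module k W] [AddCommGroup W']
    [Module k W'] (f : W →ₗ[k] W') (p : Submodule k W) (h : LinearMap.ker f = p) :
    Module.finrank k (LinearMap.range f) = Module.finrank k (W ⧸ p) := by
  subst h
  exact f.quotKerEquivRange.finrank_eq.symm

lemma finite_range_comp {W W' : Type*} [AddCommGroup W] [Module k W] [AddCommGroup W']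
    [Module k W'] (f : W →ₗ[k] W') (p : Submodule k W) (h : LinearMap.ker f = p)
    [FiniteDimensional k (W ⧸ p)] : FiniteDimensional k (LinearMap.range f) := by
  subst h
  exact f.quotKerEquivRange.finiteDimensional

/-- A vector space with an action of a larger field. -/
def Twist {F : IntermediateField k K} (V : Type) [AddCommGroup V] [Module F V]
    (_ρ : K →ₐ[F] Module.End F V) : Type := V

section

variable {F : IntermediateField k K} {V : Type} [AddCommGroup V] [Module F V]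
  (ρ : K →ₐ[F] Module.End F V)

instance : AddCommGroup (Twist V ρ) := inferInstanceAs (AddCommGroup V)

/-- The identity onto the twisted space. -/
def toTwist : V ≃+ Twist V ρ := AddEquiv.refl V

noncomputable instance : Module K (Twist V ρ) where
  smul a x := toTwist ρ (ρ a ((toTwist ρ).symm x))
  one_smul x := by show ρ 1 _ = _; rw [map_one]; rfl
  mul_smul a b x := by show ρ (a * b) _ = _; rw [map_mul]; rfl
  smul_zero a := (ρ a).map_zero
  smul_add a x y := (ρ a).map_add _ _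
  add_smul a b x := by show ρ (a + b) _ = _; rw [map_add]; rfl
  zero_smul x := by show ρ 0 _ = _; rw [map_zero]; rfl

theorem exists_equiv_of_action [FiniteDimensional F V] :
    ∃ (rK : ℕ) (e : V ≃+ (Fin rK → K)), Module.finrank F K * rK = Module.finrank F V ∧
      (∀ a x, e (ρ a x) = a • e x) ∧ ∀ (q : F) x, e (q • x) = (q : K) • e x := by
  have hq : ∀ (q : F) (x : V), ρ (q : K) x = q • x := fun q x => by
    rw [show (q : K) = algebraMap F K q from rfl, AlgHom.commutes]; rfl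
  let e0 : V ≃ₗ[F] Twist V ρ :=
    { toTwist ρ with map_smul' := fun q x => (hq q x).symm }
  haveI : Module.Finite F (Twist V ρ) := Module.Finite.equiv e0
  haveI : Module.Finite K (Twist V ρ) := Module.Finite.of_restrictScalars_finite F K _
  refine ⟨Module.finrank K (Twist V ρ),
    (toTwist ρ).trans (Module.finBasis K (Twist V ρ)).equivFun.toAddEquiv, ?_, fun a x => ?_,
    fun q x => ?_⟩
  · rw [Module.finrank_mul_finrank, e0.finrank_eq]
  · exact (Module.finBasis K (Twist V ρ)).equivFun.map_smul a (toTwist ρ x)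
  · rw [← hq]
    exact (Module.finBasis K (Twist V ρ)).equivFun.map_smul (q : K) (toTwist ρ x)

end

variable {r L : ℕ} {C : Cone k K} {A : Act C r L} (Φ : Filt A.gop)

/-- The filtration as a family. -/
def Filt.fam : Fam k r where
  A := Φ.F
  upper := Φ.upper
  shift := Φ.shift

lemma fd_quot (n : ℕ) :
    FiniteDimensional k (↥(Φ.F n) ⧸ (Φ.F (n + 1)).comap (Φ.F n).subtype) := by
  set f := proj k r n (Φ.K + 1) ∘ₗ (Φ.F n).subtype
  haveI : FiniteDimensional k (↥(Φ.F n) ⧸ LinearMap.ker f) :=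
    f.quotKerEquivRange.symm.finiteDimensional
  have hle : LinearMap.ker f ≤ (Φ.F (n + 1)).comap (Φ.F n).subtype := fun v hv => by
    refine Φ.lower (n + 1) _ fun t ht => ?_
    by_cases hn : deg t.1 < n
    · exact Φ.upper n _ v.2 t hn
    · exact congrFun hv ⟨t, mem_win.2 ⟨by omega, by omega⟩⟩
  exact Module.Finite.of_surjective (Submodule.factor hle) (Submodule.factor_surjective hle)

lemma filt_gen : ∀ᶠ n in atTop, ∀ v ∈ Φ.F (n + 1), ∃ a ∈ Φ.F n, ∃ b ∈ Φ.F n, ∃ c ∈ Φ.F n,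
    v - (sh ux a + sh uy b + sh uz c) ∈ Φ.F (n + 2) := by
  refine (Φ.fam.gen (Φ.K + 1)).mono fun n hn v hv => ?_
  obtain ⟨v', hv', he⟩ := hn v hv
  obtain ⟨ab, hab, _, ⟨c, hc, rfl⟩, rfl⟩ := Submodule.mem_sup.1 hv'
  obtain ⟨_, ⟨a, ha, rfl⟩, _, ⟨b, hb, rfl⟩, rfl⟩ := Submodule.mem_sup.1 hab
  refine ⟨a, ha, b, hb, c, hc, Φ.lower (n + 2) _ fun t ht => ?_⟩
  rw [Pi.sub_apply, he t (by omega), sub_self]

variable {V : Type} [AddCommGroup V] [Module (ratField k C.η C.ζ) V] [Module k V]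
  [IsScalarTower k (ratField k C.η C.ζ) V] (E : ∀ n, ↥(Φ.F n) →ₗ[k] V)

lemma hmonoF (u : Mon) : mono C.η C.ζ u ∈ ratField k C.η C.ζ :=
  poly_le_ratField _ (mono_mem_poly u)

variable (hker : ∀ n, LinearMap.ker (E n) = (Φ.F (n + 1)).comap (Φ.F n).subtype)
  (hsh : ∀ n (u : Mon) (v : ↥(Φ.F n)) (q : ratField k C.η C.ζ), (q : K) = mono C.η C.ζ u →
    E (n + deg u) ⟨sh u v, Φ.shift u n v v.2⟩ = q • E n v)

include hker in
lemma range_facts (n : ℕ) : FiniteDimensional k (LinearMap.range (E n)) ∧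
    Module.finrank k (LinearMap.range (E n)) = Φ.h n :=
  ⟨by haveI := fd_quot Φ n; exact finite_range_comp _ _ (hker n),
    finrank_range_comp _ _ (hker n)⟩

variable {e c : ℤ} (hh : ∀ᶠ n in atTop, (Φ.h n : ℤ) = poly r e c n)

include hker hsh hh in
/-- Independent families are small. -/
lemma card_le_rank (hsurj : ∀ x : V, ∃ q : ratField k C.η C.ζ, q ≠ 0 ∧
      ∃ N, ∀ n, N ≤ n → ∃ v, E n v = q • x)
    (s : Finset V) (hs : LinearIndependent (ratField k C.η C.ζ) (fun x : s => (x : V))) :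
    s.card ≤ r := by
  have hG := range_facts Φ E hker
  choose q hq0 Nx hNx using hsurj
  set N := s.sup Nx
  have hs' : LinearIndependent (ratField k C.η C.ζ) (fun x : s => q x.1 • (x : V)) := by
    simpa [Pi.smul_def'] using hs.units_smul fun x => Units.mk0 (q x.1) (hq0 x.1)
  have hbound : ∀ J : ℕ, (s.card : ℤ) * tri J ≤ (Φ.h (N + J) : ℤ) := fun J => by
    haveI := (hG (N + J)).1
    let mF : ↥(monos J) → ratField k C.η C.ζ := fun p => ⟨_, hmonoF (C := C) p.1⟩
    have hb : LinearIndependent k mF :=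
      LinearIndependent.of_comp (ratField k C.η C.ζ).val.toLinearMap
        (linearIndependent_mono C.indep J)
    have hli := linearIndependent_smul hb hs'
    have hmem : ∀ pz : ↥(monos J) × s,
        (⟨_, hmonoF pz.1.1⟩ : ratField k C.η C.ζ) • (q pz.2.1 • (pz.2 : V)) ∈
          LinearMap.range (E (N + J)) := fun pz => by
      obtain ⟨v, hv⟩ := hNx pz.2.1 N (Finset.le_sup pz.2.2)
      rw [← hv, ← hsh N pz.1.1 v ⟨_, hmonoF pz.1.1⟩ rfl]
      have htr : ∀ d, d = J → ∀ w, E (N + d) w ∈ LinearMap.range (E (N + J)) := by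
        rintro d rfl w
        exact ⟨w, rfl⟩
      exact htr _ (mem_monos.1 pz.1.2) _
    have h := (LinearIndependent.of_comp (LinearMap.range (E (N + J))).subtype
      (v := fun pz => (⟨_, hmem pz⟩ : LinearMap.range (E (N + J)))) hli).fintype_card_le_finrank
    rw [(hG (N + J)).2, Fintype.card_prod, Fintype.card_coe, Fintype.card_coe] at h
    calc (s.card : ℤ) * tri J = (((monos J).card * s.card : ℕ) : ℤ) := by
          push_cast; rw [card_monos]; ring
      _ ≤ _ := Int.ofNat_le.2 h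
  obtain ⟨e', c', hps⟩ := poly_shift r e c N
  have := poly_lead_nonneg (q := (r : ℤ) - s.card) (e := e') (c := c')
    (((tendsto_add_atTop_nat N).eventually hh).mono fun J hJ => by
      have h1 := hbound J
      rw [show N + J = J + N by omega, hJ, hps] at h1
      simp only [poly] at h1 ⊢
      linarith)
  omega

include hker hsh in
/-- Far out the classes are generated in degree one. -/
lemma class_gen : ∀ᶠ n in atTop, ∀ x ∈ LinearMap.range (E (n + 1)), ∃ a ∈ LinearMap.range (E n),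
      ∃ b ∈ LinearMap.range (E n), ∃ w ∈ LinearMap.range (E n),
      x = a + (⟨_, hmonoF (C := C) uy⟩ : ratField k C.η C.ζ) • b +
        (⟨_, hmonoF (C := C) uz⟩ : ratField k C.η C.ζ) • w := by
  filter_upwards [filt_gen Φ] with n hn
  rintro x ⟨⟨v, hv⟩, hx⟩
  obtain ⟨a, ha, b, hb, w, hw, hd⟩ := hn v hv
  refine ⟨E n ⟨a, ha⟩, ⟨_, rfl⟩, E n ⟨b, hb⟩, ⟨_, rfl⟩, E n ⟨w, hw⟩, ⟨_, rfl⟩, ?_⟩
  have e0 : E (n + deg ux) ⟨sh ux a, Φ.shift ux n a ha⟩ = E n ⟨a, ha⟩ := by
    rw [hsh n ux ⟨a, ha⟩ 1 (by simp [mono, ux]), one_smul]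
  have e1 := hsh n uy ⟨b, hb⟩ ⟨_, hmonoF (C := C) uy⟩ rfl
  have e2 := hsh n uz ⟨w, hw⟩ ⟨_, hmonoF (C := C) uz⟩ rfl
  have e3 : E (n + 1) ⟨v, hv⟩ = E (n + 1) ⟨sh ux a, Φ.shift ux n a ha⟩ +
      E (n + 1) ⟨sh uy b, Φ.shift uy n b hb⟩ + E (n + 1) ⟨sh uz w, Φ.shift uz n w hw⟩ := by
    rw [← map_add, ← map_add, ← sub_eq_zero, ← map_sub, ← LinearMap.mem_ker, hker]
    exact hd
  rw [← hx]
  show E (n + 1) ⟨v, hv⟩ = _
  rw [e3]
  exact congrArg₂ _ (congrArg₂ _ e0 e1) e2

include hker hsh hh in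
/-- The classes span no more than the rank. -/
lemma rank_le_finrank [FiniteDimensional (ratField k C.η C.ζ) V] :
    r ≤ Module.finrank (ratField k C.η C.ζ) V := by
  classical
  obtain ⟨n1, hn1⟩ := eventually_atTop.1 ((class_gen Φ E hker hsh).and hh)
  have hG := range_facts Φ E hker
  haveI := (hG n1).1
  set B := Module.finBasis (ratField k C.η C.ζ) V
  set D₀ := Module.finrank (ratField k C.η C.ζ) V with hD₀
  obtain ⟨S, hS⟩ := Module.Finite.iff_fg.1 (inferInstance : Module.Finite k (LinearMap.range (E n1)))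
  obtain ⟨δ, hδ⟩ := IsLocalization.exist_integer_multiples_of_finset
    (nonZeroDivisors (MvPolynomial (Fin 2) k))
    ((S ×ˢ (univ : Finset (Fin D₀))).image fun xl => B.repr xl.1 xl.2)
  choose P hP using fun (xl : {xl : V × Fin D₀ // xl ∈ S ×ˢ (univ : Finset (Fin D₀))}) =>
    hδ _ (mem_image_of_mem _ xl.2)
  set D := univ.sup fun xl => (P xl).totalDegree
  let Wj : ℕ → Submodule k V := fun j =>
    { carrier := {x | ∀ l, ((algebraMap (MvPolynomial (Fin 2) k) (ratField k C.η C.ζ) δ *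
          B.repr x l : ratField k C.η C.ζ) : K) ∈
          polySpace (k := k) C.η C.ζ ((j + D : ℕ) : ℤ)}
      add_mem' := fun hx hy l => by
        rw [map_add, Finsupp.add_apply, mul_add]; exact add_mem (hx l) (hy l)
      zero_mem' := fun l => by simp
      smul_mem' := fun a x hx l => by
        rw [← algebraMap_smul (ratField k C.η C.ζ) a x, map_smul, Finsupp.smul_apply,
          algebraMap_smul, mul_smul_comm, IntermediateField.coe_smul]
        exact Submodule.smul_mem _ a (hx l) }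
  have hW : ∀ j, LinearMap.range (E (n1 + j)) ≤ Wj j := by
    intro j
    induction j with
    | zero =>
      rw [add_zero, ← hS, Submodule.span_le]
      intro x hx l
      have h := hP ⟨(x, l), mk_mem_product hx (mem_univ _)⟩
      have h' : ((algebraMap (MvPolynomial (Fin 2) k) (ratField k C.η C.ζ) δ *
          B.repr x l : ratField k C.η C.ζ) : K) =
          MvPolynomial.aeval ![C.η, C.ζ] (P ⟨(x, l), mk_mem_product hx (mem_univ _)⟩) := by
        rw [← algMap_coe, h, Algebra.smul_def]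
      rw [h']
      refine aeval_mem_poly _ (Int.ofNat_le.2 ?_)
      exact le_trans (Finset.le_sup (f := fun xl => (P xl).totalDegree) (mem_univ _))
        (Nat.le_add_left _ _)
    | succ j ih =>
      intro x hx
      obtain ⟨a, ha, b, hb, w, hw, rfl⟩ := (hn1 (n1 + j) (by omega)).1 x hx
      have key : ∀ (u : Mon), deg u = 1 → ∀ z ∈ LinearMap.range (E (n1 + j)),
          (⟨_, hmonoF (C := C) u⟩ : ratField k C.η C.ζ) • z ∈ Wj (j + 1) := fun u hu z hz l => by
        rw [map_smul, Finsupp.smul_apply, smul_eq_mul, mul_left_comm, MulMemClass.coe_mul]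
        have hm := mono_mem_poly (k := k) (η := C.η) (ζ := C.ζ) u
        rw [hu] at hm
        exact poly_mono (by push_cast; omega) (mul_mem_poly hm (ih hz l))
      refine add_mem (add_mem ?_ (key uy rfl b hb)) (key uz rfl w hw)
      exact fun l => poly_mono (by push_cast; omega) (ih ha l)
  have hWrank : ∀ j, Module.finrank k (LinearMap.range (E (n1 + j))) ≤
      D₀ * Module.finrank k (polySpace (k := k) C.η C.ζ ((j + D : ℕ) : ℤ)) := fun j => by
    let φ : LinearMap.range (E (n1 + j)) →ₗ[k]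
        (Fin D₀ → polySpace (k := k) C.η C.ζ ((j + D : ℕ) : ℤ)) :=
      { toFun := fun x l => ⟨_, hW j x.2 l⟩
        map_add' := fun x y => funext fun l => Subtype.ext (by simp [mul_add])
        map_smul' := fun a x => funext fun l => Subtype.ext (by
          simp only [Submodule.coe_smul, RingHom.id_apply, Pi.smul_apply]
          rw [← algebraMap_smul (ratField k C.η C.ζ) a (x : V), map_smul, Finsupp.smul_apply,
            algebraMap_smul, mul_smul_comm, IntermediateField.coe_smul]) }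
    have hinj : Function.Injective φ := fun x y h => Subtype.ext (B.repr.injective
      (Finsupp.ext fun l => mul_left_cancel₀ (fun h0 => nonZeroDivisors.ne_zero δ.2
        (IsFractionRing.injective (MvPolynomial (Fin 2) k) (ratField k C.η C.ζ)
          (h0.trans (map_zero _).symm)))
        (Subtype.ext (show (φ x l : K) = φ y l from congrArg Subtype.val (congrFun h l)))))
    refine (LinearMap.finrank_le_finrank_of_injective hinj).trans ?_
    rw [Module.finrank_pi_fintype, sum_const, card_univ, Fintype.card_fin, smul_eq_mul]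
  obtain ⟨e', c', hps⟩ := poly_shift r e c n1
  obtain ⟨e'', c'', hps'⟩ := poly_shift D₀ 0 0 D
  have := poly_lead_nonneg (q := (D₀ : ℤ) - r) (e := e'' - e') (c := c'' - c')
    (Eventually.of_forall fun j => by
      have h1 := Int.ofNat_le.2 (hWrank j)
      rw [(hG _).2, (hn1 (n1 + j) (by omega)).2] at h1
      rw [Nat.cast_mul, finrank_poly C.indep] at h1
      rw [add_comm n1 j, hps] at h1
      have h2 := hps' j
      simp only [poly] at h1 h2 ⊢
      linarith)
  omega

omit [Module k V] [IsScalarTower k (ratField k C.η C.ζ) V] in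
/-- The graded module as classes in a vector space over the field of the cone. -/
theorem exists_emb (hΦ : Φ.Tf) (hL : maxDeg C.d C.g + Φ.K + 1 ≤ L) {e c : ℤ}
    (hh : ∀ᶠ n in atTop, (Φ.h n : ℤ) = poly r e c n) :
    ∃ (rK : ℕ) (ψ : ∀ n, ↥(Φ.F n) →ₗ[k] (Fin rK → K)), C.d * rK = r ∧
      (∀ n, LinearMap.ker (ψ n) = (Φ.F (n + 1)).comap (Φ.F n).subtype) ∧
      (∀ n (u : Mon) (v : ↥(Φ.F n)),
        ψ (n + deg u) ⟨sh u v, Φ.shift u n v v.2⟩ = mono C.η C.ζ u • ψ n v) ∧
      (∀ n i, i ≤ C.g → ∀ a ∈ C.R (i : ℤ), ∀ (v : ↥(Φ.F n)) (h : A.op i a v ∈ Φ.F (n + i)),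
        ψ (n + i) ⟨_, h⟩ = a • ψ n v) ∧
      (∀ x, ∃ q : K, q ≠ 0 ∧ ∃ n v, ψ n v = q • x) := by
  classical
  obtain ⟨V, _, _, E, act, hEsmul, hker, hsurj, hEsh, hEop, hadd, hmul, hscal⟩ :=
    exists_space Φ hΦ (T := maxDeg C.d C.g) (by omega) (by unfold maxDeg; omega)
  obtain ⟨ρ, hρ⟩ := exists_rho_of C act (maxDeg C.d C.g) hadd hmul hscal le_rfl
  letI modk : Module k V := Module.compHom V (algebraMap k (ratField k C.η C.ζ))
  haveI : IsScalarTower k (ratField k C.η C.ζ) V :=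
    IsScalarTower.of_algebraMap_smul fun _ _ => rfl
  let El : ∀ n, ↥(Φ.F n) →ₗ[k] V := fun n =>
    { toFun := E n
      map_add' := (E n).map_add
      map_smul' := fun a v => hEsmul n a v }
  have hkerl : ∀ n, LinearMap.ker (El n) = (Φ.F (n + 1)).comap (Φ.F n).subtype := fun n => by
    ext v
    exact hker n v
  have hsmall := card_le_rank Φ El hkerl hEsh hh hsurj
  haveI hfin : FiniteDimensional (ratField k C.η C.ζ) V :=
    Module.rank_lt_aleph0_iff.1 ((rank_le hsmall).trans_lt Cardinal.natCast_lt_aleph0)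
  have hDr : Module.finrank (ratField k C.η C.ζ) V = r := by
    refine le_antisymm ?_ (rank_le_finrank Φ El hkerl hEsh hh)
    set B := Module.finBasis (ratField k C.η C.ζ) V
    have := hsmall (univ.image B) (by
      have h := B.linearIndependent.linearIndepOn_id
      rw [← Set.image_univ, ← Finset.coe_univ, ← Finset.coe_image] at h
      exact h)
    rwa [card_image_of_injective _ B.injective, card_univ, Fintype.card_fin] at this
  obtain ⟨rK, eV, hrK, hact, hFK⟩ := exists_equiv_of_action ρ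
  rw [C.finrank_K, hDr] at hrK
  refine ⟨rK, fun n =>
    { toFun := fun v => eV (E n v)
      map_add' := fun v w => by rw [map_add, map_add]
      map_smul' := fun a v => by
        rw [hEsmul, hFK, RingHom.id_apply, ← algebraMap_smul K a (eV (E n v))]
        rfl }, hrK, fun n => ?_, fun n u v => ?_, fun n i hi a ha v h => ?_, fun x => ?_⟩
  · ext v
    rw [LinearMap.mem_ker]
    exact (map_eq_zero_iff eV eV.injective).trans (hker n v)
  · show eV (E _ _) = _ • eV (E n v)
    rw [hEsh n u v ⟨_, hmonoF u⟩ rfl, hFK]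
  · show eV (E _ _) = _ • eV (E n v)
    rw [hEop n i hi a ha v h, hρ i (by omega) a ha, hact]
  · obtain ⟨q, hq, M, hM⟩ := hsurj (eV.symm x)
    obtain ⟨v, hv⟩ := hM M le_rfl
    refine ⟨(q : K), by simpa using hq, M, v, ?_⟩
    show eV (E M v) = _
    rw [hv, hFK, AddEquiv.apply_symm_apply]

omit [AddCommGroup V] [Module (ratField k C.η C.ζ) V] [Module k V] in
/-- The graded module of a torsion free filtration as a family in a vector space over the field. -/
theorem exists_graded (hΦ : Φ.Tf) (hL : maxDeg C.d C.g + Φ.K + 1 ≤ L) {e c : ℤ}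
    (hh : ∀ᶠ n in atTop, (Φ.h n : ℤ) = poly r e c n) :
    ∃ (rK : ℕ) (N : ℤ → Submodule k (Fin rK → K)),
      C.d * rK = r ∧
      (∀ (m n : ℤ), ∀ a ∈ C.R m, ∀ v ∈ N n, a • v ∈ N (m + n)) ∧
      (∀ n, FiniteDimensional k (N n)) ∧
      (∀ n < 0, N n = ⊥) ∧
      (∃ b, ∀ n ≥ b, N (n + 1) = N n
        ⊔ (N n).map (DistribSMul.toLinearMap k (Fin rK → K) C.η)
        ⊔ (N n).map (DistribSMul.toLinearMap k (Fin rK → K) C.ζ)) ∧
      Submodule.span K (⋃ n, (N n : Set (Fin rK → K))) = ⊤ ∧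
      (∀ᶠ n : ℕ in atTop, (Module.finrank k (N (n : ℤ)) : ℤ) = poly r e c n) ∧
      ∀ W : Submodule K (Fin rK → K), ∃ S : Sub Φ,
        ∀ n : ℕ, S.sdim n = Module.finrank k ↥(N (n : ℤ) ⊓ W.restrictScalars k) := by
  classical
  obtain ⟨rK, ψ, hdr, hψker, hψsh, hψop, hψsurj⟩ := exists_emb Φ hΦ hL hh
  let Ψ : ∀ n, Vec k r → (Fin rK → K) := fun n v => if h : v ∈ Φ.F n then ψ n ⟨v, h⟩ else 0
  have Ψ_eq : ∀ n v (h : v ∈ Φ.F n), Ψ n v = ψ n ⟨v, h⟩ := fun n v h => dif_pos h
  have ψ_eq : ∀ n (v : ↥(Φ.F n)), ψ n v = Ψ n v := fun n v => (Ψ_eq n v v.2).symm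
  have hΨsh : ∀ n u v, v ∈ Φ.F n → Ψ (n + deg u) (sh u v) = mono C.η C.ζ u • Ψ n v :=
    fun n u v hv => by
      rw [Ψ_eq _ _ (Φ.shift u n v hv), Ψ_eq n v hv]
      exact hψsh n u ⟨v, hv⟩
  have hΨop : ∀ n i, i ≤ C.g → ∀ a ∈ C.R (i : ℤ), ∀ v ∈ Φ.F n,
      Ψ (n + i) (A.op i a v) = a • Ψ n v := fun n i hi a ha v hv => by
    rw [Ψ_eq _ _ (compat_low Φ hi ha hv), Ψ_eq n v hv]
    exact hψop n i hi a ha ⟨v, hv⟩ _
  let N : ℤ → Submodule k (Fin rK → K) := fun m =>
    if 0 ≤ m then LinearMap.range (ψ m.toNat) else ⊥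
  have hN : ∀ n : ℕ, N n = LinearMap.range (ψ n) := fun n => by simp [N]
  have hNmem : ∀ (n : ℕ) v, v ∈ Φ.F n → Ψ n v ∈ N n := fun n v hv => by
    rw [hN, Ψ_eq n v hv]; exact ⟨⟨v, hv⟩, rfl⟩
  have hsmulnat : ∀ (i n : ℕ) (a : K), a ∈ C.R (i : ℤ) → ∀ x ∈ N n, a • x ∈ N ((i + n : ℕ) : ℤ) := by
    intro i n a ha x hx
    rw [hN] at hx
    obtain ⟨⟨v, hv⟩, rfl⟩ := hx
    rw [ψ_eq]
    rcases le_or_gt i C.g with hi | hi
    · rw [← hΨop n i hi a ha v hv, add_comm]
      exact hNmem _ _ (compat_low Φ hi ha hv)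
    obtain ⟨j, rfl⟩ := Nat.exists_eq_add_of_le hi.le
    have := R_gen C j (by rwa [← Nat.cast_add])
    refine Submodule.span_induction ?_ (by rw [zero_smul]; exact zero_mem _)
      (fun a b _ _ ha hb => by rw [add_smul]; exact add_mem ha hb)
      (fun c a _ ha => by rw [smul_assoc]; exact Submodule.smul_mem _ c ha) this
    rintro _ ⟨p, hp, b, hb, rfl⟩
    rw [mul_smul, ← hΨop n C.g le_rfl b hb v hv, ← hΨsh _ p _ (compat_low Φ le_rfl hb hv),
      mem_monos.1 hp, show n + C.g + j = C.g + j + n by omega]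
    refine hNmem _ _ ?_
    have := Φ.shift p _ _ (compat_low Φ le_rfl hb hv)
    rwa [mem_monos.1 hp, show n + C.g + j = C.g + j + n by omega] at this
  have hsmul : ∀ (m n : ℤ), ∀ a ∈ C.R m, ∀ x ∈ N n, a • x ∈ N (m + n) := by
    intro m n a ha x hx
    rcases lt_or_ge m 0 with hm | hm
    · rw [C.R_neg m hm, Submodule.mem_bot] at ha
      rw [ha, zero_smul]
      exact zero_mem _
    rcases lt_or_ge n 0 with hn | hn
    · simp only [N, if_neg hn.not_ge, Submodule.mem_bot] at hx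
      rw [hx, smul_zero]
      exact zero_mem _
    obtain ⟨i, rfl⟩ := Int.eq_ofNat_of_zero_le hm
    obtain ⟨l, rfl⟩ := Int.eq_ofNat_of_zero_le hn
    exact_mod_cast hsmulnat i l a ha x hx
  have hNh : ∀ n : ℕ, Module.finrank k (N n) = Φ.h n := fun n => by
    rw [hN]; exact finrank_range_comp _ _ (hψker n)
  refine ⟨rK, N, hdr, hsmul, fun n => ?_, fun n hn => if_neg hn.not_ge, ?_, ?_, ?_, fun W => ?_⟩
  · by_cases hn : 0 ≤ n
    · haveI := fd_quot Φ n.toNat
      rw [show N n = LinearMap.range (ψ n.toNat) from if_pos hn]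
      exact finite_range_comp _ _ (hψker n.toNat)
    · rw [show N n = ⊥ from if_neg hn]
      infer_instance
  · obtain ⟨n1, hn1⟩ := eventually_atTop.1 (filt_gen Φ)
    refine ⟨(n1 : ℤ), fun n hn => le_antisymm ?_ ?_⟩
    · obtain ⟨m, rfl⟩ : ∃ m : ℕ, n = m := ⟨n.toNat, by omega⟩
      rw [show (m : ℤ) + 1 = ((m + 1 : ℕ) : ℤ) by push_cast; ring, hN, hN]
      rintro _ ⟨⟨v, hv⟩, rfl⟩
      obtain ⟨a, ha, b, hb, w, hw, hd⟩ := hn1 m (by omega) v hv
      have e : ψ (m + 1) ⟨v, hv⟩ =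
          ψ m ⟨a, ha⟩ + C.η • ψ m ⟨b, hb⟩ + C.ζ • ψ m ⟨w, hw⟩ := by
        have e0 : ψ (m + 1) ⟨v, hv⟩ = ψ (m + 1) ⟨sh ux a, Φ.shift ux m a ha⟩ +
            ψ (m + 1) ⟨sh uy b, Φ.shift uy m b hb⟩ + ψ (m + 1) ⟨sh uz w, Φ.shift uz m w hw⟩ := by
          rw [← map_add, ← map_add, ← sub_eq_zero, ← map_sub, ← LinearMap.mem_ker, hψker]
          exact hd
        rw [e0]
        refine congrArg₂ _ (congrArg₂ _ ((hψsh m ux ⟨a, ha⟩).trans ?_) ((hψsh m uy ⟨b, hb⟩).trans ?_))
          ((hψsh m uz ⟨w, hw⟩).trans ?_) <;> simp [mono, ux, uy, uz]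
      rw [e]
      exact add_mem (add_mem (Submodule.mem_sup_left (Submodule.mem_sup_left ⟨_, rfl⟩))
        (Submodule.mem_sup_left (Submodule.mem_sup_right ⟨_, ⟨_, rfl⟩, rfl⟩)))
        (Submodule.mem_sup_right ⟨_, ⟨_, rfl⟩, rfl⟩)
    · refine sup_le (sup_le (fun x hx => ?_) ?_) ?_
      · simpa [add_comm n 1] using hsmul 1 n 1 C.one_mem x hx
      · rintro _ ⟨x, hx, rfl⟩
        rw [add_comm n 1]
        exact hsmul 1 n _ C.η_mem x hx
      · rintro _ ⟨x, hx, rfl⟩
        rw [add_comm n 1]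
        exact hsmul 1 n _ C.ζ_mem x hx
  · rw [eq_top_iff]
    intro x _
    obtain ⟨q, hq, M, v, hv⟩ := hψsurj x
    have : x = q⁻¹ • ψ M v := by rw [hv, inv_smul_smul₀ hq]
    rw [this]
    exact Submodule.smul_mem _ _ (Submodule.subset_span
      (Set.mem_iUnion.2 ⟨(M : ℤ), by rw [SetLike.mem_coe, hN]; exact ⟨v, rfl⟩⟩))
  · filter_upwards [hh] with n hn
    rw [hNh, hn]
  · let G : ℕ → Submodule k (Vec k r) := fun n =>
      (LinearMap.ker ((W.restrictScalars k).mkQ ∘ₗ ψ n)).map (Φ.F n).subtype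
    have hG' : ∀ n v, v ∈ G n ↔ v ∈ Φ.F n ∧ Ψ n v ∈ W := fun n v => by
      constructor
      · rintro ⟨w, hw, rfl⟩
        refine ⟨w.2, ?_⟩
        rw [SetLike.mem_coe, LinearMap.mem_ker, LinearMap.comp_apply, Submodule.mkQ_apply,
          Submodule.Quotient.mk_eq_zero, ψ_eq] at hw
        exact hw
      · rintro ⟨hv, hw⟩
        exact ⟨⟨v, hv⟩, by
          rw [SetLike.mem_coe, LinearMap.mem_ker, LinearMap.comp_apply, Submodule.mkQ_apply,
            Submodule.Quotient.mk_eq_zero, ψ_eq]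
          exact hw, rfl⟩
    have hΨadd : ∀ n, ∀ (s : Finset Mon) (f : Mon → Vec k r), (∀ p ∈ s, f p ∈ Φ.F n) →
        Ψ n (∑ p ∈ s, f p) = ∑ p ∈ s, Ψ n (f p) := fun n s f hf => by
      induction s using Finset.induction with
      | empty =>
        rw [sum_empty, sum_empty, Ψ_eq n 0 (zero_mem _)]
        exact (ψ n).map_zero
      | @insert p s hp ih =>
        have h1 := hf p (mem_insert_self _ _)
        have h2 : ∀ q ∈ s, f q ∈ Φ.F n := fun q hq => hf q (mem_insert_of_mem hq)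
        rw [sum_insert hp, sum_insert hp, ← ih h2, Ψ_eq n _ (add_mem h1 (sum_mem h2)), Ψ_eq n _ h1,
          Ψ_eq n _ (sum_mem h2)]
        exact (ψ n).map_add ⟨_, h1⟩ ⟨_, sum_mem h2⟩
    have hΨsmul : ∀ n (a : k) v, v ∈ Φ.F n → Ψ n (a • v) = a • Ψ n v := fun n a v hv => by
      rw [Ψ_eq n _ (Submodule.smul_mem _ a hv), Ψ_eq n v hv]
      exact (ψ n).map_smul a ⟨v, hv⟩
    have hΨSh : ∀ n j (cf : ↥(monos j) → k) v, v ∈ Φ.F n →
        Ψ (n + j) (Sh j cf v) = val C.η C.ζ j cf • Ψ n v := fun n j cf v hv => by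
      let g : Mon → k := fun p => if h : p ∈ monos j then cf ⟨p, h⟩ else 0
      have hg : ∀ p : ↥(monos j), cf p = g p.1 := fun p => by simp only [g, dif_pos p.2]
      rw [Sh_apply, val_apply, sum_smul]
      simp only [hg]
      rw [sum_coe_sort (monos j) (fun p => g p • sh p v),
        sum_coe_sort (monos j) (fun p => (g p • mono C.η C.ζ p) • Ψ n v)]
      have hsh : ∀ p ∈ monos j, sh p v ∈ Φ.F (n + j) := fun p hp => by
        have := Φ.shift p n v hv; rwa [mem_monos.1 hp] at this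
      rw [hΨadd _ _ _ fun p hp => Submodule.smul_mem _ _ (hsh p hp)]
      refine sum_congr rfl fun p hp => ?_
      rw [hΨsmul _ _ _ (hsh p hp), ← mem_monos.1 hp, hΨsh n p v hv, smul_assoc]
    refine ⟨{ G := G, le := fun n v hv => ((hG' n v).1 hv).1, ge := fun n v hv => (hG' n v).2
                ⟨Φ.anti n hv, ?_⟩, shift := ?_, compat := ?_, sat := ?_ }, fun n => ?_⟩
    · rw [Ψ_eq n v (Φ.anti n hv), show ψ n ⟨v, Φ.anti n hv⟩ = 0 from
        LinearMap.mem_ker.1 (by rw [hψker]; exact hv)]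
      exact zero_mem _
    · intro p n v hv
      obtain ⟨h1, h2⟩ := (hG' n v).1 hv
      exact (hG' _ _).2 ⟨Φ.shift p n v h1, by rw [hΨsh n p v h1]; exact W.smul_mem _ h2⟩
    · intro i n f hf v hv
      obtain ⟨h1, h2⟩ := (hG' n v).1 hv
      refine (hG' _ _).2 ⟨Φ.compat i n f hf v h1, ?_⟩
      rcases hf with ⟨hi, a, ha, -, rfl⟩ | ⟨cf, -, rfl⟩
      · rw [hΨop n i hi a ha v h1]; exact W.smul_mem _ h2
      · rw [hΨSh n i cf v h1]; exact W.smul_mem _ h2
    · intro i f hf n v hv hfv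
      refine (hG' _ _).2 ⟨hv, ?_⟩
      have h2 := ((hG' _ _).1 hfv).2
      rcases hf with ⟨hi, a, ha, ha0, rfl⟩ | ⟨cf, hcf, rfl⟩
      · rw [hΨop n i hi a ha v hv] at h2
        exact (W.smul_mem_iff ha0).1 h2
      · rw [hΨSh n i cf v hv] at h2
        exact (W.smul_mem_iff fun h => hcf (val_injective C.indep i (h.trans (map_zero _).symm))).1 h2
    · show qd (G n) (Φ.F (n + 1)) = _
      set φ := ψ n ∘ₗ Submodule.inclusion (fun v hv => ((hG' n v).1 hv).1 : G n ≤ Φ.F n)
      have hk : LinearMap.ker φ = (Φ.F (n + 1)).comap (G n).subtype := by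
        rw [LinearMap.ker_comp, hψker]
        ext v
        rfl
      rw [qd, ← finrank_range_comp φ _ hk]
      suffices hr : LinearMap.range φ = N (n : ℤ) ⊓ W.restrictScalars k by rw [hr]
      ext x
      simp only [LinearMap.mem_range, Submodule.mem_inf, hN, Submodule.restrictScalars_mem]
      constructor
      · rintro ⟨v, rfl⟩
        exact ⟨⟨_, rfl⟩, by
          have := ((hG' n v).1 v.2).2
          rwa [← ψ_eq n ⟨(v : Vec k r), ((hG' n v).1 v.2).1⟩] at this⟩
      · rintro ⟨⟨v, rfl⟩, hx⟩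
        exact ⟨⟨v, (hG' n v).2 ⟨v.2, by rwa [← ψ_eq]⟩⟩, rfl⟩

end Vale.Agent.P190.Minimise
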