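import Vale.Agent.P190.Minimise.UpSet

/-!
P190, MINIMISE: the arithmetic of the data of a filtration.
-/

open Finset

namespace Vale.Agent.P190.Minimise

/-- Twice the rank times the discriminant of the data `(r, e, c)`. -/
def disc (r e c : ℤ) : ℤ := 2 * r * c - r * e - e ^ 2

lemma poly_succ (q e c : ℤ) (n : ℕ) :
    poly q e c (n + 1) - poly q e c n = q * ((n : ℤ) + 2) + e := by
  simp only [poly, tri_succ]
  push_cast
  ring

/-- The data of a filtration with layers `(q k, e k)`. -/
lemma poly_layers (r : ℤ) (K : ℕ) (q e c : ℕ → ℤ) (n : ℕ) :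
    r * tri n + ∑ k ∈ range K, (poly (q k) (e k) (c k) (n + k + 1) - poly (q k) (e k) (c k) (n + k)) =
      poly r (∑ k ∈ range K, q k) (∑ k ∈ range K, (q k * ((k : ℤ) + 1) + e k)) n := by
  simp only [poly_succ]
  simp only [poly, sum_mul]
  rw [add_assoc, ← sum_add_distrib]
  congr 1
  refine sum_congr rfl fun k _ => ?_
  push_cast
  ring

/-- The discriminant of layers with `0 ≤ q k ≤ r` and `0 ≤ e k` is nonnegative. -/
theorem disc_layers_nonneg {r : ℤ} (hr : 0 ≤ r) (K : ℕ) (q e : ℕ → ℤ)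
    (hq : ∀ k < K, 0 ≤ q k ∧ q k ≤ r ∧ 0 ≤ e k) :
    0 ≤ disc r (∑ k ∈ range K, q k) (∑ k ∈ range K, (q k * ((k : ℤ) + 1) + e k)) := by
  suffices h : 0 ≤ disc r (∑ k ∈ range K, q k) (∑ k ∈ range K, (q k * ((k : ℤ) + 1) + e k)) ∧
      ∑ k ∈ range K, q k ≤ r * K from h.1
  induction K with
  | zero => simp [disc]
  | succ K ih =>
    obtain ⟨h1, h2⟩ := ih fun k hk => hq k (by omega)
    obtain ⟨hq0, hqr, he⟩ := hq K (by omega)
    simp only [sum_range_succ, disc] at h1 ⊢
    push_cast
    have a1 := mul_le_mul_of_nonneg_left h2 hq0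
    have a2 := mul_le_mul_of_nonneg_left hqr hq0
    have a3 := mul_nonneg hr he
    constructor <;> nlinarith

/-- The change of the discriminant when a quotient with data `(q, eQ)` moves up by one. -/
lemma disc_move (r e c q eQ : ℤ) :
    disc r (e + q) (c + q + eQ) - disc r e c = 2 * r * eQ + r * q - 2 * e * q - q ^ 2 := by
  simp only [disc]
  ring

end Vale.Agent.P190.Minimise
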