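import Vale.Agent.P190.Minimise.Lead
import Vale.Agent.P190.Minimise.Num

/-!
P190, MINIMISE: filtrations of a free module over the power series between two powers of the
maximal ideal, and the data of their Hilbert functions.
-/

open Filter Finset

namespace Vale.Agent.P190.Minimise

variable {k : Type*} [Field k] {r : ℕ}

/-- A filtration between two shifts of the powers of the maximal ideal, stable under the monomials
and under graded operators. -/
structure Filt (op : ℕ → Set (Vec k r →ₗ[k] Vec k r)) where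
  /-- The steps. -/
  F : ℕ → Submodule k (Vec k r)
  /-- The width. -/
  K : ℕ
  lower : ∀ n v, (∀ t : Term r, deg t.1 < n + K → v t = 0) → v ∈ F n
  upper : ∀ n, ∀ v ∈ F n, ∀ t : Term r, deg t.1 < n → v t = 0
  anti : ∀ n, F (n + 1) ≤ F n
  shift : ∀ p n, ∀ v ∈ F n, sh p v ∈ F (n + deg p)
  compat : ∀ i n, ∀ f ∈ op i, ∀ v ∈ F n, f v ∈ F (n + i)

/-- The terms of degree in `[n, n + L)`. -/
def win (r n L : ℕ) : Finset (Term r) :=
  ((range L).biUnion fun l => monos (n + l)) ×ˢ (univ : Finset (Fin r))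

lemma mem_win {n L : ℕ} {t : Term r} : t ∈ win r n L ↔ n ≤ deg t.1 ∧ deg t.1 < n + L := by
  simp only [win, mem_product, mem_biUnion, mem_range, mem_monos, mem_univ, and_true]
  constructor
  · rintro ⟨l, hl, h⟩
    omega
  · intro h
    exact ⟨deg t.1 - n, by omega, by omega⟩

/-- The index of a window, ordered by `key`. -/
def WT (r n L : ℕ) : Type := {t : Term r // t ∈ win r n L}

instance (n L : ℕ) : Fintype (WT r n L) :=
  inferInstanceAs (Fintype ↥(win r n L))

noncomputable instance (n L : ℕ) : LinearOrder (WT r n L) :=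
  LinearOrder.lift' (fun t => key t.1) (key_injective.comp Subtype.val_injective)

/-- The coefficients in a window. -/
def proj (k : Type*) [Field k] (r n L : ℕ) : Vec k r →ₗ[k] (WT r n L → k) :=
  LinearMap.funLeft k k Subtype.val

lemma proj_apply (n L : ℕ) (v : Vec k r) (t : WT r n L) : proj k r n L v t = v t.1 := rfl

/-- The dimension of a quotient of subspaces. -/
noncomputable def qd {V : Type*} [AddCommGroup V] [Module k V] (A B : Submodule k V) : ℕ :=
  Module.finrank k (A ⧸ B.comap A.subtype)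

lemma qd_add {V V' : Type*} [AddCommGroup V] [Module k V] [AddCommGroup V'] [Module k V']
    [FiniteDimensional k V'] (π : V →ₗ[k] V') {A B : Submodule k V} (hBA : B ≤ A)
    (hker : ∀ v ∈ A, π v = 0 → v ∈ B) :
    qd A B + Module.finrank k (B.map π) = Module.finrank k (A.map π) := by
  set P := (B.map π).comap (A.map π).subtype with hP
  let φ : A →ₗ[k] A.map π ⧸ P :=
    P.mkQ ∘ₗ (π ∘ₗ A.subtype).codRestrict (A.map π) fun v => Submodule.mem_map_of_mem v.2
  have hsurj : Function.Surjective φ := fun y => by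
    obtain ⟨⟨_, v, hv, rfl⟩, rfl⟩ := P.mkQ_surjective y
    exact ⟨⟨v, hv⟩, rfl⟩
  have hk : LinearMap.ker φ = B.comap A.subtype := by
    ext ⟨v, hv⟩
    simp only [φ, LinearMap.mem_ker, LinearMap.comp_apply, Submodule.mkQ_apply,
      Submodule.Quotient.mk_eq_zero, hP, Submodule.mem_comap, Submodule.coe_subtype,
      LinearMap.codRestrict_apply]
    refine ⟨fun ⟨b, hb, e⟩ => ?_, fun h => ⟨v, h, rfl⟩⟩
    have := hker (v - b) (sub_mem hv (hBA hb)) (by rw [map_sub, e, sub_self])
    simpa using add_mem this hb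
  have e1 : qd A B = Module.finrank k (A.map π ⧸ P) := by
    rw [qd, ← hk]
    exact (φ.quotKerEquivOfSurjective hsurj).finrank_eq
  have e2 : Module.finrank k P = Module.finrank k (B.map π) :=
    (Submodule.comapSubtypeEquivOfLe (Submodule.map_mono hBA)).finrank_eq
  rw [e1, ← e2]
  exact Submodule.finrank_quotient_add_finrank P

/-- The number of coefficients of `A` seen in a window. -/
noncomputable def dimW (n L : ℕ) (A : Submodule k (Vec k r)) : ℕ :=
  Module.finrank k (A.map (proj k r n L))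

lemma qd_eq_dimW {n L : ℕ} {A B : Submodule k (Vec k r)} (hBA : B ≤ A)
    (hA : ∀ v ∈ A, ∀ t : Term r, deg t.1 < n → v t = 0)
    (hB : ∀ v, (∀ t : Term r, deg t.1 < n + L → v t = 0) → v ∈ B) :
    qd A B + dimW n L B = dimW n L A :=
  qd_add _ hBA fun v hv h0 => hB v fun t ht => by
    by_cases hn : deg t.1 < n
    · exact hA v hv t hn
    · exact congrFun h0 ⟨t, mem_win.2 ⟨by omega, ht⟩⟩

open Classical in
lemma dimW_eq {n L : ℕ} {A : Submodule k (Vec k r)}
    (hA : ∀ v ∈ A, ∀ t : Term r, deg t.1 < n → v t = 0) :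
    dimW n L A = ∑ l ∈ range L, ∑ i : Fin r,
      ((monos (n + l)).filter fun p => ∃ v ∈ A, Lead v (p, i)).card := by
  rw [dimW, finrank_eq_pivots]
  have e : {t : WT r n L | ∃ w ∈ A.map (proj k r n L), w t ≠ 0 ∧ ∀ j < t, w j = 0} =
      {t : WT r n L | ∃ v ∈ A, Lead v t.1} := by
    ext t
    constructor
    · rintro ⟨_, ⟨v, hv, rfl⟩, h1, h2⟩
      refine ⟨v, hv, h1, fun u hu => ?_⟩
      by_cases hn : deg u.1 < n
      · exact hA v hv u hn
      · have hle := deg_le_of_key_le hu.le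
        have ht := (mem_win.1 t.2).2
        exact h2 ⟨u, mem_win.2 ⟨by omega, by omega⟩⟩ hu
    · rintro ⟨v, hv, h1, h2⟩
      exact ⟨_, ⟨v, hv, rfl⟩, h1, fun j hj => h2 j.1 hj⟩
  have hinj : Function.Injective (fun t : WT r n L => t.1) := Subtype.val_injective
  have e' : (fun t : WT r n L => t.1) '' {t : WT r n L | ∃ v ∈ A, Lead v t.1} =
      ↑((win r n L).filter fun t => ∃ v ∈ A, Lead v t) := by
    ext t
    simp only [Set.mem_image, Set.mem_ofPred_eq, coe_filter]
    exact ⟨fun ⟨u, hu, e⟩ => e ▸ ⟨u.2, hu⟩, fun ⟨h1, h2⟩ => ⟨⟨t, h1⟩, h2, rfl⟩⟩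
  rw [e, ← Set.ncard_image_of_injective _ hinj, e', Set.ncard_coe_finset,
    card_filter, win, sum_product, sum_biUnion]
  · refine sum_congr rfl fun l _ => ?_
    rw [sum_comm]
    exact sum_congr rfl fun i _ => (card_filter _ _).symm
  · intro a _ b _ hne
    simp only [Function.onFun, disjoint_left, mem_monos]
    intro p h1 h2
    omega

/-- The coefficient vector of a single term. -/
def unit (t : Term r) : Vec k r := Pi.single t 1

lemma lead_unit (t : Term r) : Lead (unit (k := k) t) t :=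
  ⟨by simp [unit], fun u hu => Pi.single_eq_of_ne (by rintro rfl; exact hu.false) _⟩

variable {op : ℕ → Set (Vec k r →ₗ[k] Vec k r)} (Φ : Filt op)

/-- The leading monomials of layer `l` in coordinate `i`. -/
def Filt.lt (l : ℕ) (i : Fin r) : Set Mon :=
  {p | l ≤ deg p ∧ ∃ v ∈ Φ.F (deg p - l), Lead v (p, i)}

lemma Filt.lt_isUpper (l : ℕ) (i : Fin r) : IsUpperSet (Φ.lt l i) := by
  rintro p p' hp ⟨hl, v, hv, hlead⟩
  obtain ⟨d, rfl⟩ : ∃ d, p' = d + p := ⟨p' - p, (tsub_add_cancel_of_le hp).symm⟩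
  refine ⟨by rw [deg_add]; omega, sh d v, ?_, hlead.sh d⟩
  have := Φ.shift d _ v hv
  rwa [show deg (d + p) - l = deg p - l + deg d by rw [deg_add]; omega]

/-- The Hilbert function of a filtration. -/
noncomputable def Filt.h (n : ℕ) : ℕ := qd (Φ.F n) (Φ.F (n + 1))

lemma Filt.h_eq (n : ℕ) : (Φ.h n : ℤ) = r * tri n + ∑ l ∈ range Φ.K, ∑ i : Fin r,
    ((cnt₃ (Φ.lt l i) (n + l + 1) : ℤ) - cnt₃ (Φ.lt l i) (n + l)) := by
  classical
  have hsucc : ∀ v ∈ Φ.F (n + 1), ∀ t : Term r, deg t.1 < n → v t = 0 := fun v hv t ht =>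
    Φ.upper _ v hv t (by omega)
  have h := qd_eq_dimW (L := Φ.K + 1) (Φ.anti n) (Φ.upper n)
    (fun v hv => Φ.lower (n + 1) v fun t ht => hv t (by omega))
  rw [dimW_eq (Φ.upper n), dimW_eq hsucc] at h
  have card : ∀ (S : Set Mon) (j : ℕ),
      (((monos j).filter fun p => p ∈ S).card : ℤ) = tri j - cnt₃ S j := fun S j => by
    rw [← card_monos, ← card_monos_filter, eq_sub_iff_add_eq]
    exact_mod_cast card_filter_add_card_filter_not _
  have e1 : ∀ l i, (((monos (n + l)).filter fun p => ∃ v ∈ Φ.F n, Lead v (p, i)).card : ℤ) =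
      tri (n + l) - cnt₃ (Φ.lt l i) (n + l) := fun l i => by
    rw [← card]
    congr 2
    refine filter_congr fun p hp => ?_
    rw [mem_monos] at hp
    simp [Filt.lt, hp]
  have e2 : ∀ l i, (((monos (n + (l + 1))).filter
      fun p => ∃ v ∈ Φ.F (n + 1), Lead v (p, i)).card : ℤ) =
      tri (n + l + 1) - cnt₃ (Φ.lt l i) (n + l + 1) := fun l i => by
    rw [← card]
    congr 2
    refine filter_congr fun p hp => ?_
    rw [mem_monos] at hp
    simp [Filt.lt, hp, show l ≤ n + (l + 1) by omega, show n + (l + 1) - l = n + 1 by omega]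
  have e0 : ∀ i, ((monos (n + 0)).filter fun p => ∃ v ∈ Φ.F (n + 1), Lead v (p, i)).card = 0 :=
    fun i => by
      refine card_eq_zero.2 (filter_false_of_mem fun p hp ⟨v, hv, hl⟩ => hl.1 ?_)
      exact Φ.upper _ v hv _ (by rw [mem_monos] at hp; simp only; omega)
  have etop : ∀ i, (cnt₃ (Φ.lt Φ.K i) (n + Φ.K) : ℤ) = 0 := fun i => by
    rw [← card_monos_filter]
    simp only [Nat.cast_eq_zero, card_eq_zero, filter_eq_empty_iff, not_not]
    intro p hp
    rw [mem_monos] at hp
    refine ⟨by omega, unit (p, i), Φ.lower _ _ fun t ht => ?_, lead_unit _⟩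
    have : t ≠ (p, i) := fun h => by subst h; simp only at ht; omega
    simp [unit, this]
  have hz := congrArg (fun x : ℕ => (x : ℤ)) h
  rw [sum_range_succ' _ Φ.K, Finset.sum_eq_zero fun i _ => e0 i] at hz
  push_cast at hz
  simp only [e1, e2] at hz
  rw [sum_range_succ (fun l => ∑ i : Fin r, (tri (n + l) - (cnt₃ (Φ.lt l i) (n + l) : ℤ)))] at hz
  simp only [etop, sub_zero, sum_sub_distrib, sum_const, card_univ, Fintype.card_fin,
    nsmul_eq_mul, ← mul_sum] at hz ⊢
  have tel : ∑ l ∈ range Φ.K, tri (n + (l + 1)) - ∑ l ∈ range Φ.K, tri (n + l) =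
      tri (n + Φ.K) - tri (n + 0) := by
    rw [← sum_sub_distrib, sum_range_sub (fun l => tri (n + l))]
  simp only [Filt.h, add_zero, ← add_assoc] at hz tel ⊢
  linear_combination hz - (r : ℤ) * tel

/-- The data of a filtration. -/
theorem Filt.exists_data :
    ∃ e c : ℤ, 0 ≤ disc r e c ∧ ∀ᶠ n in atTop, (Φ.h n : ℤ) = poly r e c n := by
  classical
  choose q e c hq0 hq1 he hc using fun (l : ℕ) (i : Fin r) => cnt₃_data (Φ.lt_isUpper l i)
  set Q : ℕ → ℤ := fun l => ∑ i, q l i with hQ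
  set E : ℕ → ℤ := fun l => ∑ i, e l i with hE
  refine ⟨∑ l ∈ range Φ.K, Q l, ∑ l ∈ range Φ.K, (Q l * ((l : ℤ) + 1) + E l),
    disc_layers_nonneg (Int.natCast_nonneg r) _ Q E fun l _ =>
      ⟨sum_nonneg fun i _ => hq0 l i, ?_, sum_nonneg fun i _ => he l i⟩, ?_⟩
  · refine (sum_le_sum fun i _ => hq1 l i).trans_eq ?_
    simp
  have hev : ∀ᶠ n in atTop, ∀ l ∈ range Φ.K, ∀ i : Fin r,
      (cnt₃ (Φ.lt l i) (n + l) : ℤ) = poly (q l i) (e l i) (c l i) (n + l) ∧
      (cnt₃ (Φ.lt l i) (n + l + 1) : ℤ) = poly (q l i) (e l i) (c l i) (n + l + 1) :=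
    (Filter.eventually_all_finset _).2 fun l _ => eventually_all.2 fun i =>
      ((tendsto_add_atTop_nat l).eventually (hc l i)).and
        (((tendsto_add_atTop_nat 1).comp (tendsto_add_atTop_nat l)).eventually (hc l i))
  filter_upwards [hev] with n hn
  rw [Φ.h_eq, ← poly_layers (r : ℤ) Φ.K Q E (fun l => ∑ i, c l i)]
  congr 1
  refine sum_congr rfl fun l hl => ?_
  rw [sum_congr rfl fun i _ => by rw [(hn l hl i).1, (hn l hl i).2]]
  simp only [poly, hQ, hE, sum_sub_distrib, sum_add_distrib, sum_mul]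

end Vale.Agent.P190.Minimise
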