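import Vale.Agent.P190.Minimise.Canon

/-!
P190, MINIMISE: the graded module of a filtration, inverted at `x`, as a module over the
polynomials in `η, ζ`, with the action of the ring.
-/

open Filter Finset MvPolynomial

namespace Vale.Agent.P190.Minimise

/-- Sequences of vectors. -/
def Seq (k : Type) (r : ℕ) : Type := ℕ → Vec k r

variable {k K : Type} [Field k] [Field K] [Algebra k K] {r L : ℕ} {C : Cone k K}

instance : AddCommGroup (Seq k r) := inferInstanceAs (AddCommGroup (ℕ → Vec k r))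
instance : Module k (Seq k r) := inferInstanceAs (Module k (ℕ → Vec k r))

@[ext] lemma Seq.ext {s t : Seq k r} (h : ∀ m, s m = t m) : s = t := funext h
@[simp] lemma Seq.zero_apply (m : ℕ) : (0 : Seq k r) m = 0 := rfl
@[simp] lemma Seq.add_apply (s t : Seq k r) (m : ℕ) : (s + t) m = s m + t m := rfl
@[simp] lemma Seq.sub_apply (s t : Seq k r) (m : ℕ) : (s - t) m = s m - t m := rfl
lemma Seq.sum_apply {ι : Type*} (t : Finset ι) (f : ι → Seq k r) (m : ℕ) :
    (∑ x ∈ t, f x) m = ∑ x ∈ t, f x m := Finset.sum_apply m t f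
@[simp] lemma Seq.smul_apply (a : k) (s : Seq k r) (m : ℕ) : (a • s) m = a • s m := rfl

/-- Multiplication by a monomial in `η, ζ`. -/
def tw (u : Fin 2 →₀ ℕ) : Seq k r →ₗ[k] Seq k r where
  toFun s := fun m => sh ((0, u 0, u 1) : Mon) (s (m - (u 0 + u 1)))
  map_add' s t := Seq.ext fun m => map_add (sh (k := k) ((0, u 0, u 1) : Mon)) _ _
  map_smul' a s := Seq.ext fun m => map_smul (sh (k := k) ((0, u 0, u 1) : Mon)) a _

lemma tw_apply (u : Fin 2 →₀ ℕ) (s : Seq k r) (m : ℕ) :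
    tw u s m = sh ((0, u 0, u 1) : Mon) (s (m - (u 0 + u 1))) := rfl

/-- The monomials as endomorphisms. -/
noncomputable def twHom : Multiplicative (Fin 2 →₀ ℕ) →* Module.End k (Seq k r) where
  toFun u := tw u.toAdd
  map_one' := LinearMap.ext fun s => Seq.ext fun m => by
    simp [tw_apply, show ((0, 0, 0) : Mon) = 0 from rfl, sh_zero]
  map_mul' u v := LinearMap.ext fun s => Seq.ext fun m => by
    simp only [toAdd_mul, tw_apply, Module.End.mul_apply, sh_sh, Finsupp.add_apply,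
      Prod.mk_add_mk, add_zero]
    congr 2
    omega

/-- The polynomials as endomorphisms. -/
noncomputable def polyHom : MvPolynomial (Fin 2) k →ₐ[k] Module.End k (Seq k r) :=
  AddMonoidAlgebra.lift k (Module.End k (Seq k r)) (Fin 2 →₀ ℕ) twHom

noncomputable instance : Module (MvPolynomial (Fin 2) k) (Seq k r) :=
  Module.compHom (Seq k r) (polyHom (k := k) (r := r)).toRingHom

lemma poly_smul_apply (p : MvPolynomial (Fin 2) k) (s : Seq k r) (m : ℕ) :
    (p • s) m = ∑ u ∈ p.support, coeff u p • tw u s m := by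
  show polyHom p s m = _
  rw [polyHom, AddMonoidAlgebra.lift_apply]
  simp only [Finsupp.sum, LinearMap.sum_apply]
  rw [Seq.sum_apply]
  rfl

instance : IsScalarTower k (MvPolynomial (Fin 2) k) (Seq k r) :=
  ⟨fun a p s => by
    show polyHom (a • p) s = a • polyHom p s
    rw [map_smul]
    rfl⟩

variable {A : Act C r L}

/-- The homogenised coefficients. -/
noncomputable def hcoeff (p : MvPolynomial (Fin 2) k) (J : ℕ) : ↥(monos J) → k :=
  fun q => coeff (Finsupp.single 0 q.1.2.1 + Finsupp.single 1 q.1.2.2) p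

lemma hcoeff_ne {p : MvPolynomial (Fin 2) k} (hp : p ≠ 0) {J : ℕ} (hJ : p.totalDegree ≤ J) :
    hcoeff p J ≠ 0 := by
  obtain ⟨u, hu⟩ := ne_zero_iff.1 hp
  have hd := le_totalDegree (mem_support_iff.2 hu)
  rw [Finsupp.sum_fintype _ _ fun _ => rfl, Fin.sum_univ_two] at hd
  intro h
  have := congrFun h ⟨(J - (u 0 + u 1), u 0, u 1), mem_monos.2 (by simp only [deg]; omega)⟩
  refine hu ?_
  rw [hcoeff] at this
  rwa [show Finsupp.single (0 : Fin 2) (u 0) + Finsupp.single 1 (u 1) = u by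
    ext j; fin_cases j <;> simp] at this

section

variable (Φ : Filt A.gop)

/-- The germs of elements of the graded module inverted at `x`. -/
def germs : Submodule (MvPolynomial (Fin 2) k) (Seq k r) where
  carrier := {s | ∀ᶠ m in atTop, s m ∈ Φ.F m ∧ sh ux (s m) - s (m + 1) ∈ Φ.F (m + 2)}
  add_mem' := fun hs ht => (hs.and ht).mono fun m hm => by
    refine ⟨add_mem hm.1.1 hm.2.1, ?_⟩
    simp only [Seq.add_apply, map_add, add_sub_add_comm]
    exact add_mem hm.1.2 hm.2.2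
  zero_mem' := Eventually.of_forall fun m => by simp
  smul_mem' := fun p s hs => by
    obtain ⟨N, hN⟩ := eventually_atTop.1 hs
    refine eventually_atTop.2 ⟨N + p.totalDegree, fun m hm => ?_⟩
    simp only [poly_smul_apply]
    rw [map_sum, ← sum_sub_distrib]
    refine ⟨sum_mem fun u hu => Submodule.smul_mem _ _ ?_, sum_mem fun u hu => ?_⟩
    all_goals have hd := le_totalDegree hu
    all_goals rw [Finsupp.sum_fintype _ _ fun _ => rfl, Fin.sum_univ_two] at hd
    · have := Φ.shift (0, u 0, u 1) _ _ (hN (m - (u 0 + u 1)) (by omega)).1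
      rwa [show deg ((0, u 0, u 1) : Mon) = u 0 + u 1 by simp [deg],
        show m - (u 0 + u 1) + (u 0 + u 1) = m by omega] at this
    · rw [map_smul, ← smul_sub]
      refine Submodule.smul_mem _ _ ?_
      have := Φ.shift (0, u 0, u 1) _ _ (hN (m - (u 0 + u 1)) (by omega)).2
      rw [map_sub, sh_sh] at this
      rw [show deg ((0, u 0, u 1) : Mon) = u 0 + u 1 by simp [deg],
        show m - (u 0 + u 1) + 2 + (u 0 + u 1) = m + 2 by omega,
        show m - (u 0 + u 1) + 1 = m + 1 - (u 0 + u 1) by omega, add_comm _ ux] at this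
      rwa [tw_apply, tw_apply, sh_sh]

/-- The sequences that vanish in the graded module. -/
def null : Submodule (MvPolynomial (Fin 2) k) (Seq k r) where
  carrier := {s | ∀ᶠ m in atTop, s m ∈ Φ.F (m + 1)}
  add_mem' := fun hs ht => (hs.and ht).mono fun m hm => add_mem hm.1 hm.2
  zero_mem' := Eventually.of_forall fun m => zero_mem _
  smul_mem' := fun p s hs => by
    obtain ⟨N, hN⟩ := eventually_atTop.1 hs
    refine eventually_atTop.2 ⟨N + p.totalDegree, fun m hm => ?_⟩
    rw [poly_smul_apply]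
    refine sum_mem fun u hu => Submodule.smul_mem _ _ ?_
    have hd := le_totalDegree hu
    rw [Finsupp.sum_fintype _ _ fun _ => rfl, Fin.sum_univ_two] at hd
    have := Φ.shift (0, u 0, u 1) _ _ (hN (m - (u 0 + u 1)) (by omega))
    rwa [show deg ((0, u 0, u 1) : Mon) = u 0 + u 1 by simp [deg],
      show m - (u 0 + u 1) + 1 + (u 0 + u 1) = m + 1 by omega] at this

lemma germ_iter {s : Seq k r} (hs : s ∈ germs Φ) : ∃ N, ∀ m, N ≤ m → s m ∈ Φ.F m ∧
    ∀ e, sh ((e, 0, 0) : Mon) (s m) - s (m + e) ∈ Φ.F (m + e + 1) := by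
  obtain ⟨N, hN⟩ := eventually_atTop.1 hs
  refine ⟨N, fun m hm => ⟨(hN m hm).1, fun e => ?_⟩⟩
  induction e with
  | zero => simp [show ((0, 0, 0) : Mon) = 0 from rfl, sh_zero]
  | succ e ih =>
    have h1 := Φ.shift ux _ _ ih
    have h2 := (hN (m + e) (by omega)).2
    rw [map_sub, sh_sh, show (ux + (e, 0, 0) : Mon) = (e + 1, 0, 0) by simp [ux, add_comm],
      show deg ux = 1 from rfl] at h1
    have := add_mem h1 h2
    rw [sub_add_sub_cancel] at this
    exact this

lemma smul_germ {s : Seq k r} (hs : s ∈ germs Φ) (p : MvPolynomial (Fin 2) k) {J : ℕ}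
    (hJ : p.totalDegree ≤ J) :
    ∀ᶠ m in atTop, (p • s) m - Sh J (hcoeff p J) (s (m - J)) ∈ Φ.F (m + 1) := by
  obtain ⟨N, hN⟩ := germ_iter Φ hs
  refine eventually_atTop.2 ⟨N + J, fun m hm => ?_⟩
  rw [poly_smul_apply, Sh_apply]
  have e : ∑ q : ↥(monos J), hcoeff p J q • sh q.1 (s (m - J)) =
      ∑ u ∈ p.support, coeff u p • sh ((J - (u 0 + u 1), u 0, u 1) : Mon) (s (m - J)) := by
    symm
    refine sum_bij_ne_zero (fun u hu _ => (⟨(J - (u 0 + u 1), u 0, u 1), mem_monos.2 (by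
      have hd := le_totalDegree hu
      rw [Finsupp.sum_fintype _ _ fun _ => rfl, Fin.sum_univ_two] at hd
      simp only [deg]; omega)⟩ : ↥(monos J))) (fun _ _ _ => mem_univ _) ?_ ?_ ?_
    · intro u _ _ u' _ _ h
      simp only [Subtype.mk.injEq, Prod.mk.injEq] at h
      ext j; fin_cases j
      · exact h.2.1
      · exact h.2.2
    · rintro ⟨⟨a, b, c⟩, hq⟩ _ hne
      rw [mem_monos, deg] at hq
      simp only [hcoeff] at hne
      refine ⟨Finsupp.single 0 b + Finsupp.single 1 c, mem_support_iff.2 fun h => hne (by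
        simp [h]), ?_, ?_⟩
      · simp only at hq
        simpa [show J - (b + c) = a by omega] using hne
      · simp only at hq
        simp [show J - (b + c) = a by omega]
    · intro u _ _
      simp only [hcoeff]
      rw [show Finsupp.single (0 : Fin 2) (u 0) + Finsupp.single 1 (u 1) = u by
        ext j; fin_cases j <;> simp]
  rw [e, ← sum_sub_distrib]
  refine sum_mem fun u hu => ?_
  have hd := le_totalDegree hu
  rw [Finsupp.sum_fintype _ _ fun _ => rfl, Fin.sum_univ_two] at hd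
  rw [← smul_sub]
  refine Submodule.smul_mem _ _ ?_
  have h1 := Φ.shift (0, u 0, u 1) _ _ ((hN (m - J) (by omega)).2 (J - (u 0 + u 1)))
  rw [map_sub, sh_sh, show deg ((0, u 0, u 1) : Mon) = u 0 + u 1 by simp [deg],
    show m - J + (J - (u 0 + u 1)) + 1 + (u 0 + u 1) = m + 1 by omega,
    show m - J + (J - (u 0 + u 1)) = m - (u 0 + u 1) by omega] at h1
  rw [tw_apply, ← neg_sub]
  refine neg_mem ?_
  simpa using h1

lemma null_of_smul (hΦ : Φ.Tf) {s : Seq k r} (hs : s ∈ germs Φ) {p : MvPolynomial (Fin 2) k}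
    (hp : p ≠ 0) (h : p • s ∈ null Φ) : s ∈ null Φ := by
  obtain ⟨N, hN⟩ := eventually_atTop.1 ((smul_germ Φ hs p le_rfl).and
    ((show ∀ᶠ m in atTop, (p • s) m ∈ Φ.F (m + 1) from h).and
      (show ∀ᶠ m in atTop, s m ∈ Φ.F m ∧ _ from hs)))
  refine eventually_atTop.2 ⟨N, fun m hm => ?_⟩
  set J := p.totalDegree
  obtain ⟨h1, h2, -⟩ := hN (m + J) (by omega)
  rw [show m + J - J = m by omega] at h1
  have h3 : Sh J (hcoeff p J) (s m) ∈ Φ.F (m + J + 1) := by simpa using sub_mem h2 h1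
  exact hΦ J _ (Or.inr ⟨_, hcoeff_ne hp le_rfl, rfl⟩) m _ (hN m hm).2.2.1 h3

lemma compat_low {i : ℕ} (hi : i ≤ C.g) {a : K} (ha : a ∈ C.R (i : ℤ)) {n : ℕ} {v : Vec k r}
    (hv : v ∈ Φ.F n) : A.op i a v ∈ Φ.F (n + i) := by
  rcases eq_or_ne a 0 with rfl | ha0
  · simp [A.op_zero]
  · exact Φ.compat i n _ (Or.inl ⟨hi, a, ha, ha0, rfl⟩) v hv

/-- All bounded degrees act on the filtration. -/
lemma compat_high {i : ℕ} (hi : i + Φ.K + 1 ≤ L) {a : K} (ha : a ∈ C.R (i : ℤ)) {n : ℕ}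
    {v : Vec k r} (hv : v ∈ Φ.F n) : A.op i a v ∈ Φ.F (n + i) := by
  rcases le_or_gt i C.g with h | h
  · exact compat_low Φ h ha hv
  obtain ⟨j, rfl⟩ := Nat.exists_eq_add_of_le h.le
  refine A.op_high (by omega) ha (Φ.upper n v hv) (m := n + (C.g + j) + Φ.K) (by omega) _
    (fun w hw => Φ.lower _ w hw) fun p hp b hb => ?_
  have := Φ.shift p _ _ (compat_low Φ le_rfl hb hv)
  rwa [mem_monos.1 hp, show n + C.g + j = n + (C.g + j) by omega] at this

lemma small_mem {n m : ℕ} {v : Vec k r} (h : m + Φ.K ≤ n) (hv : v ∈ U k r n) : v ∈ Φ.F m :=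
  Φ.lower m v (U_anti h hv)

/-- The graded module inverted at `x`. -/
abbrev Loc : Type :=
  ↥(germs Φ) ⧸ (null Φ).comap (germs Φ).subtype

lemma loc_torsion_free (hΦ : Φ.Tf) {p : MvPolynomial (Fin 2) k} (hp : p ≠ 0) {x : Loc Φ}
    (h : p • x = 0) : x = 0 := by
  obtain ⟨⟨s, hs⟩, rfl⟩ := Submodule.Quotient.mk_surjective _ x
  rw [← Submodule.Quotient.mk_smul, Submodule.Quotient.mk_eq_zero] at h
  rw [Submodule.Quotient.mk_eq_zero]
  exact null_of_smul Φ hΦ hs hp h

/-- An element of the ring of degree `i`, on sequences. -/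
noncomputable def seqOp (i : ℕ) (a : K) : Seq k r →ₗ[MvPolynomial (Fin 2) k] Seq k r where
  toFun s := fun m => A.op i a (s (m - i))
  map_add' s t := Seq.ext fun m => map_add (A.op i a) (s (m - i)) (t (m - i))
  map_smul' p s := by
    refine Seq.ext fun m => ?_
    let T : Seq k r := fun m => A.op i a (s (m - i))
    show A.op i a ((p • s) (m - i)) = (p • T) m
    rw [poly_smul_apply, poly_smul_apply, map_sum]
    refine Finset.sum_congr rfl fun u _ => ?_
    rw [map_smul, tw_apply, tw_apply, A.op_comm, Nat.sub_right_comm]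

lemma seqOp_apply (i : ℕ) (a : K) (s : Seq k r) (m : ℕ) :
    seqOp (A := A) i a s m = A.op i a (s (m - i)) := rfl

lemma seqOp_germs {i : ℕ} (hi : i + Φ.K + 1 ≤ L) (a : K) {s : Seq k r} (hs : s ∈ germs Φ) :
    seqOp (A := A) i a s ∈ germs Φ := by
  by_cases ha : a ∈ C.R (i : ℤ)
  swap
  · exact Eventually.of_forall fun m => by simp [seqOp_apply, Act.op, ha]
  obtain ⟨N, hN⟩ := eventually_atTop.1 hs
  refine eventually_atTop.2 ⟨N + i, fun m hm => ?_⟩
  obtain ⟨h1, h2⟩ := hN (m - i) (by omega)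
  have h1' := compat_high Φ hi ha h1
  have h2' := compat_high Φ hi ha h2
  rw [show m - i + i = m by omega] at h1'
  rw [map_sub, A.op_comm, show m - i + 2 + i = m + 2 by omega,
    show m - i + 1 = m + 1 - i by omega] at h2'
  exact ⟨h1', h2'⟩

lemma seqOp_null {i : ℕ} (hi : i + Φ.K + 1 ≤ L) (a : K) {s : Seq k r} (hs : s ∈ null Φ) :
    seqOp (A := A) i a s ∈ null Φ := by
  by_cases ha : a ∈ C.R (i : ℤ)
  swap
  · exact Eventually.of_forall fun m => by simp [seqOp_apply, Act.op, ha]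
  obtain ⟨N, hN⟩ := eventually_atTop.1 hs
  refine eventually_atTop.2 ⟨N + i, fun m hm => ?_⟩
  have h := compat_high Φ hi ha (hN (m - i) (by omega))
  rwa [show m - i + 1 + i = m + 1 by omega] at h

/-- An element of the ring of degree `i`, on the graded module inverted at `x`. -/
noncomputable def locOp (i : ℕ) (a : K) : Loc Φ →ₗ[MvPolynomial (Fin 2) k] Loc Φ :=
  if hi : i + Φ.K + 1 ≤ L then
    Submodule.mapQ _ _ ((seqOp (A := A) i a).restrict fun _ hs => seqOp_germs Φ hi a hs)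
      fun _ hs => seqOp_null Φ hi a hs
  else 0

lemma locOp_mk {i : ℕ} (hi : i + Φ.K + 1 ≤ L) (a : K) (s : ↥(germs Φ)) :
    locOp Φ i a (Submodule.Quotient.mk s) =
      Submodule.Quotient.mk ⟨seqOp (A := A) i a s, seqOp_germs Φ hi a s.2⟩ := by
  rw [locOp, dif_pos hi]
  rfl

lemma locOp_mul {i j : ℕ} (h : i + j + Φ.K + 1 ≤ L) {a b : K} (ha : a ∈ C.R (i : ℤ))
    (hb : b ∈ C.R (j : ℤ)) : locOp Φ (i + j) (a * b) = locOp Φ i a ∘ₗ locOp Φ j b := by
  refine LinearMap.ext fun x => ?_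
  obtain ⟨⟨s, hs⟩, rfl⟩ := Submodule.Quotient.mk_surjective _ x
  rw [LinearMap.comp_apply, locOp_mk Φ h, locOp_mk Φ (show j + Φ.K + 1 ≤ L by omega),
    locOp_mk Φ (show i + Φ.K + 1 ≤ L by omega), Submodule.Quotient.eq]
  obtain ⟨N, hN⟩ := eventually_atTop.1 hs
  refine eventually_atTop.2 ⟨N + (i + j), fun m hm => ?_⟩
  have h1 := A.op_mul (show i + j ≤ L by omega) ha hb
    (Φ.upper _ _ (hN (m - (i + j)) (by omega)).1)
  show (seqOp (A := A) (i + j) (a * b) s - seqOp (A := A) i a (seqOp (A := A) j b s)) m ∈ _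
  rw [Seq.sub_apply, seqOp_apply, seqOp_apply, seqOp_apply, Nat.sub_sub]
  exact small_mem Φ (by omega) h1

lemma locOp_add {i : ℕ} {a b : K} (ha : a ∈ C.R (i : ℤ)) (hb : b ∈ C.R (i : ℤ)) :
    locOp Φ i (a + b) = locOp Φ i a + locOp Φ i b := by
  by_cases hi : i + Φ.K + 1 ≤ L
  · refine LinearMap.ext fun x => ?_
    obtain ⟨⟨s, hs⟩, rfl⟩ := Submodule.Quotient.mk_surjective _ x
    rw [LinearMap.add_apply, locOp_mk Φ hi, locOp_mk Φ hi, locOp_mk Φ hi,
      ← Submodule.Quotient.mk_add]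
    congr 1
    refine Subtype.ext (Seq.ext fun m => ?_)
    show A.op i (a + b) _ = A.op i a _ + A.op i b _
    rw [A.op_add ha hb, LinearMap.add_apply]
  · simp [locOp, hi]

lemma locOp_poly {j : ℕ} (hj : j + Φ.K + 1 ≤ L) (p : MvPolynomial (Fin 2) k)
    (hp : p.totalDegree ≤ j) (x : Loc Φ) :
    locOp Φ j (aeval ![C.η, C.ζ] p) x = p • x := by
  obtain ⟨⟨s, hs⟩, rfl⟩ := Submodule.Quotient.mk_surjective _ x
  rw [locOp_mk Φ hj, ← Submodule.Quotient.mk_smul, Submodule.Quotient.eq]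
  have hv : aeval ![C.η, C.ζ] p = val C.η C.ζ j (hcoeff p j) := by
    rw [val_apply, p.as_sum, map_sum]
    conv_lhs => rw [sum_congr rfl fun u _ => show aeval ![C.η, C.ζ] (monomial u (coeff u p)) =
      coeff u p • mono C.η C.ζ ((j - (u 0 + u 1), u 0, u 1) : Mon) by
        rw [aeval_monomial, Finsupp.prod_fintype _ _ fun _ => pow_zero _, Fin.prod_univ_two,
          Algebra.smul_def]
        rfl]
    rw [← p.as_sum]
    refine sum_bij_ne_zero (fun u hu _ => (⟨(j - (u 0 + u 1), u 0, u 1), mem_monos.2 (by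
      have hd := le_totalDegree hu
      rw [Finsupp.sum_fintype _ _ fun _ => rfl, Fin.sum_univ_two] at hd
      simp only [deg]; omega)⟩ : ↥(monos j))) (fun _ _ _ => mem_univ _) ?_ ?_ ?_
    · intro u _ _ u' _ _ h
      simp only [Subtype.mk.injEq, Prod.mk.injEq] at h
      ext i; fin_cases i
      · exact h.2.1
      · exact h.2.2
    · rintro ⟨⟨a, b, c⟩, hq⟩ _ hne
      rw [mem_monos, deg] at hq
      simp only [hcoeff] at hne
      refine ⟨Finsupp.single 0 b + Finsupp.single 1 c, mem_support_iff.2 fun h => hne (by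
        simp [h]), ?_, ?_⟩
      · simp only at hq
        simpa [show j - (b + c) = a by omega] using hne
      · simp only at hq
        simp [show j - (b + c) = a by omega]
    · intro u _ _
      simp only [hcoeff]
      rw [show Finsupp.single (0 : Fin 2) (u 0) + Finsupp.single 1 (u 1) = u by
        ext i; fin_cases i <;> simp]
  obtain ⟨N, hN⟩ := eventually_atTop.1 ((smul_germ Φ hs p hp).and
    (show ∀ᶠ m in atTop, s m ∈ Φ.F m ∧ _ from hs))
  refine eventually_atTop.2 ⟨N + j, fun m hm => ?_⟩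
  show (seqOp (A := A) j (aeval ![C.η, C.ζ] p) s - p • s) m ∈ _
  rw [Seq.sub_apply, seqOp_apply, hv]
  have h1 := small_mem Φ (m := m + 1) (show m + 1 + Φ.K ≤ (m - j) + L by omega)
    (A.op_val (show j ≤ L by omega) (hcoeff p j) (Φ.upper _ _ (hN (m - j) (by omega)).2.1))
  simpa using sub_mem h1 (hN m (by omega)).1

/-- The sequence of an element of degree `n`. -/
def xseq (n : ℕ) : Vec k r →ₗ[k] Seq k r where
  toFun v := fun m => if n ≤ m then sh ((m - n, 0, 0) : Mon) v else 0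
  map_add' v w := Seq.ext fun m => by
    show _ = (if n ≤ m then sh ((m - n, 0, 0) : Mon) v else 0) +
      (if n ≤ m then sh ((m - n, 0, 0) : Mon) w else 0)
    split_ifs <;> simp
  map_smul' a v := Seq.ext fun m => by
    show _ = a • (if n ≤ m then sh ((m - n, 0, 0) : Mon) v else 0)
    split_ifs <;> simp

lemma xseq_apply (n m : ℕ) (v : Vec k r) :
    xseq n v m = if n ≤ m then sh ((m - n, 0, 0) : Mon) v else 0 := rfl

lemma xseq_germs {n : ℕ} {v : Vec k r} (hv : v ∈ Φ.F n) : xseq n v ∈ germs Φ := by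
  refine eventually_atTop.2 ⟨n, fun m hm => ?_⟩
  rw [xseq_apply, xseq_apply, if_pos hm, if_pos (hm.trans (Nat.le_succ m))]
  refine ⟨?_, ?_⟩
  · have := Φ.shift (m - n, 0, 0) n _ hv
    rwa [show n + deg ((m - n, 0, 0) : Mon) = m by simp [deg]; omega] at this
  · rw [sh_sh, show (ux + (m - n, 0, 0) : Mon) = (m + 1 - n, 0, 0) by simp [ux]; omega, sub_self]
    exact zero_mem _

/-- The class of an element of degree `n`. -/
noncomputable def cls (n : ℕ) : ↥(Φ.F n) →ₗ[k] Loc Φ :=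
  ((Submodule.mkQ ((null Φ).comap (germs Φ).subtype)).restrictScalars k) ∘ₗ
    (xseq n ∘ₗ (Φ.F n).subtype).codRestrict ((germs Φ).restrictScalars k) fun v => xseq_germs Φ v.2

lemma cls_mk (n : ℕ) (v : ↥(Φ.F n)) :
    cls Φ n v = Submodule.Quotient.mk ⟨xseq n (v : Vec k r), xseq_germs Φ v.2⟩ := rfl

lemma cls_eq_zero (hΦ : Φ.Tf) {n : ℕ} (v : ↥(Φ.F n)) :
    cls Φ n v = 0 ↔ (v : Vec k r) ∈ Φ.F (n + 1) := by
  rw [cls_mk, Submodule.Quotient.mk_eq_zero]
  constructor
  · intro h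
    obtain ⟨N, hN⟩ := eventually_atTop.1 (show ∀ᶠ m in atTop, _ from h)
    have h1 := hN (n + N) (by omega)
    change xseq n (v : Vec k r) (n + N) ∈ _ at h1
    rw [xseq_apply, if_pos (Nat.le_add_right n N),
      Nat.add_sub_cancel_left] at h1
    refine hΦ N (Sh N (Pi.single ⟨(N, 0, 0), mem_monos.2 (by simp [deg])⟩ 1))
      (Or.inr ⟨_, fun h => by simpa using congrFun h ⟨(N, 0, 0), mem_monos.2 (by simp [deg])⟩, rfl⟩)
      n v v.2 ?_
    rw [Sh_apply, sum_eq_single ⟨(N, 0, 0), mem_monos.2 (by simp [deg])⟩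
      (fun q _ hq => by simp [hq]) (fun h => absurd (mem_univ _) h)]
    simpa using h1
  · intro h
    refine eventually_atTop.2 ⟨n, fun m hm => ?_⟩
    show xseq n (v : Vec k r) m ∈ _
    rw [xseq_apply, if_pos hm]
    have := Φ.shift (m - n, 0, 0) _ _ h
    rwa [show n + 1 + deg ((m - n, 0, 0) : Mon) = m + 1 by simp [deg]; omega] at this

lemma exists_cls (x : Loc Φ) : ∃ N, ∀ n, N ≤ n → ∃ v, cls Φ n v = x := by
  obtain ⟨⟨s, hs⟩, rfl⟩ := Submodule.Quotient.mk_surjective _ x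
  obtain ⟨N, hN⟩ := germ_iter Φ hs
  refine ⟨N, fun n hn => ⟨⟨s n, (hN n hn).1⟩, ?_⟩⟩
  rw [cls_mk, Submodule.Quotient.eq]
  refine eventually_atTop.2 ⟨n, fun m hm => ?_⟩
  show (xseq n (s n) - s) m ∈ _
  rw [Seq.sub_apply, xseq_apply, if_pos hm]
  have := (hN n hn).2 (m - n)
  rwa [show n + (m - n) = m by omega] at this

lemma cls_op {i n : ℕ} (hi : i + Φ.K + 1 ≤ L) {a : K} (ha : a ∈ C.R (i : ℤ)) (v : ↥(Φ.F n)) :
    cls Φ (n + i) ⟨A.op i a v, compat_high Φ hi ha v.2⟩ = locOp Φ i a (cls Φ n v) := by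
  rw [cls_mk, cls_mk, locOp_mk Φ hi, Submodule.Quotient.eq]
  refine eventually_atTop.2 ⟨n + i, fun m hm => ?_⟩
  show (xseq (n + i) (A.op i a v) - seqOp (A := A) i a (xseq n (v : Vec k r))) m ∈ _
  rw [Seq.sub_apply, seqOp_apply, xseq_apply, xseq_apply]
  rw [if_pos hm, if_pos (by omega), A.op_comm, show m - (n + i) = m - i - n by omega, sub_self]
  exact zero_mem _

open Classical in
lemma cls_sh {n : ℕ} (u : Mon) (v : ↥(Φ.F n)) :
    cls Φ (n + deg u) ⟨sh u v, Φ.shift u n v v.2⟩ =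
      (monomial (expo u) (1 : k)) • cls Φ n v := by
  rw [cls_mk, cls_mk, ← Submodule.Quotient.mk_smul, Submodule.Quotient.eq]
  refine eventually_atTop.2 ⟨n + deg u, fun m hm => ?_⟩
  show (xseq (n + deg u) (sh u (v : Vec k r)) -
    (monomial (expo u) (1 : k)) • xseq n (v : Vec k r)) m ∈ _
  rw [Seq.sub_apply, xseq_apply, if_pos hm, poly_smul_apply, support_monomial, if_neg one_ne_zero, sum_singleton,
    coeff_monomial, if_pos rfl, one_smul, tw_apply, expo_zero_apply, expo_one_apply, xseq_apply]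
  obtain ⟨a, b, c⟩ := u
  simp only [deg] at hm ⊢
  rw [if_pos (by omega), sh_sh, sh_sh, show ((m - (n + (a + (b + c))), 0, 0) + (a, b, c) : Mon) =
    (0, b, c) + (m - (b + c) - n, 0, 0) by simp; omega, sub_self]
  exact zero_mem _

end

end Vale.Agent.P190.Minimise
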