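import Vale.Agent.P190.Minimise.Germ

/-!
P190, MINIMISE: the graded module of a filtration generates a vector space of the same rank over the
rational functions, on which the field of the cone acts.
-/

open Filter Finset TensorProduct

namespace Vale.Agent.P190.Minimise

section

variable {k K : Type} [Field k] [Field K] [Algebra k K]

/-- The variables inside the rational functions. -/
def ratVars (η ζ : K) : Fin 2 → ratField k η ζ :=
  ![⟨η, IntermediateField.subset_adjoin _ _ (by simp)⟩,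
    ⟨ζ, IntermediateField.subset_adjoin _ _ (by simp)⟩]

noncomputable instance (η ζ : K) : Algebra (MvPolynomial (Fin 2) k) (ratField k η ζ) :=
  (MvPolynomial.aeval (R := k) (ratVars (k := k) η ζ)).toRingHom.toAlgebra

lemma algMap_coe (η ζ : K) (p : MvPolynomial (Fin 2) k) :
    ((algebraMap (MvPolynomial (Fin 2) k) (ratField k η ζ) p : ratField k η ζ) : K) =
      MvPolynomial.aeval ![η, ζ] p :=
  congrArg (fun φ : MvPolynomial (Fin 2) k →ₐ[k] K => φ p)
    (show (ratField k η ζ).val.comp (MvPolynomial.aeval (ratVars (k := k) η ζ)) =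
      MvPolynomial.aeval ![η, ζ] from MvPolynomial.algHom_ext fun i => by
        fin_cases i <;> simp [ratVars])

instance (η ζ : K) : IsScalarTower k (MvPolynomial (Fin 2) k) (ratField k η ζ) :=
  IsScalarTower.of_algebraMap_eq fun a => Subtype.ext (by rw [algMap_coe]; simp)

instance (C : Cone k K) : IsFractionRing (MvPolynomial (Fin 2) k) (ratField k C.η C.ζ) := by
  haveI : FaithfulSMul (MvPolynomial (Fin 2) k) (ratField k C.η C.ζ) :=
    (faithfulSMul_iff_algebraMap_injective _ _).2 fun P Q e => C.indep (by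
      rw [← algMap_coe, ← algMap_coe, e])
  refine IsFractionRing.of_field _ _ fun x => ?_
  obtain ⟨r, s, e⟩ := (IntermediateField.mem_adjoin_range_iff k ![C.η, C.ζ] (x : K)).1 (by
    rw [Matrix.range_cons_cons_empty]; exact x.2)
  exact ⟨r, s, Subtype.ext (by push_cast; rw [algMap_coe, algMap_coe]; exact e)⟩

/-- Operators indexed by degree with the rules of the ring give an action of the field. -/
theorem exists_rho_of (C : Cone k K) {V : Type} [AddCommGroup V] [Module (ratField k C.η C.ζ) V]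
    (act : ℕ → K → V →ₗ[ratField k C.η C.ζ] V) (T : ℕ)
    (hadd : ∀ i : ℕ, ∀ a b : K, a ∈ C.R (i : ℤ) → b ∈ C.R (i : ℤ) → act i (a + b) = act i a + act i b)
    (hmul : ∀ i j, i + j ≤ T → ∀ a ∈ C.R (i : ℤ), ∀ b ∈ C.R (j : ℤ),
      act (i + j) (a * b) = act i a ∘ₗ act j b)
    (hscal : ∀ j ≤ T, ∀ q : ratField k C.η C.ζ, (q : K) ∈ polySpace (k := k) C.η C.ζ (j : ℤ) →
      act j (q : K) = q • LinearMap.id)
    (hT : maxDeg C.d C.g ≤ T) :
    ∃ ρ : K →ₐ[ratField k C.η C.ζ] Module.End (ratField k C.η C.ζ) V,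
      ∀ i ≤ 2 * C.g, ∀ a ∈ C.R (i : ℤ), act i a = ρ a := by
  classical
  obtain ⟨b, δ, hb, hδ, hδm, hrepr⟩ := exists_coords C
  set E : K →ₗ[ratField k C.η C.ζ] (V →ₗ[ratField k C.η C.ζ] V) :=
    b.constr (ratField k C.η C.ζ) fun l => act C.g (b l) with hE
  have hT' : C.d * (4 * C.g) + 2 * C.g ≤ T := by
    refine le_trans ?_ hT
    have := Nat.mul_le_mul (show C.d ≤ (C.d + 1) * (C.d + 1) by nlinarith)
      (show 4 * C.g ≤ 4 * (C.g + 1) by omega)
    unfold maxDeg
    linarith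
  have hsum : ∀ (i : ℕ) (f : Fin C.d → K), (∀ l, f l ∈ C.R (i : ℤ)) →
      act i (∑ l, f l) = ∑ l, act i (f l) := fun i f hf => by
    let φ : ↥(C.R (i : ℤ)) →+ (V →ₗ[ratField k C.η C.ζ] V) :=
      AddMonoidHom.mk' (fun a => act i a) fun a b => hadd i a b a.2 b.2
    have h := map_sum φ (fun l => (⟨f l, hf l⟩ : ↥(C.R (i : ℤ)))) univ
    refine Eq.trans ?_ h
    show act i _ = act i _
    rw [AddSubmonoidClass.coe_finsetSum]
  have key : ∀ i, C.g ≤ i → i ≤ 2 * C.g → ∀ a ∈ C.R (i : ℤ), act i a = E a := fun i hgi hi a ha => by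
    set D := C.d * (2 * C.g + i)
    have hD : D + i ≤ T := by
      have : D ≤ C.d * (4 * C.g) := Nat.mul_le_mul_left _ (by omega)
      omega
    have hδD : (δ : K) ∈ polySpace (k := k) C.η C.ζ (D : ℤ) :=
      poly_mono (Int.ofNat_le.2 (Nat.mul_le_mul_left _ (Nat.le_add_right _ _))) hδm
    obtain ⟨e, he⟩ := Nat.exists_eq_add_of_le hgi
    have hq : ∀ l, ((δ * b.repr a l : ratField k C.η C.ζ) : K) ∈
        polySpace (k := k) C.η C.ζ ((D + e : ℕ) : ℤ) := fun l =>
      poly_mono (Int.ofNat_le.2 (Nat.le_add_right D e)) (hrepr i a ha l)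
    have h1 : act (D + i) ((δ : K) * a) = δ • act i a := by
      rw [hmul D i hD _ (poly_le_R C _ hδD) a ha, hscal D (by omega) δ hδD, LinearMap.smul_comp,
        LinearMap.id_comp]
    have h2 : (δ : K) * a = ∑ l, ((δ * b.repr a l : ratField k C.η C.ζ) : K) * b l := by
      conv_lhs => rw [← b.sum_repr a, mul_sum]
      exact sum_congr rfl fun l _ => by
        rw [IntermediateField.smul_def, smul_eq_mul, MulMemClass.coe_mul, mul_assoc]
    have h3 : ∀ l, ((δ * b.repr a l : ratField k C.η C.ζ) : K) * b l ∈ C.R ((D + i : ℕ) : ℤ) :=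
      fun l => by
        have := C.mul_mem _ _ _ (poly_le_R C _ (hq l)) _ (hb l)
        rwa [show ((D + e : ℕ) : ℤ) + (C.g : ℤ) = ((D + i : ℕ) : ℤ) by push_cast [he]; ring] at this
    rw [h2, hsum _ _ h3] at h1
    refine smul_right_injective _ hδ (show δ • act i a = δ • E a from ?_)
    rw [← h1, hE, Module.Basis.constr_apply_fintype, smul_sum]
    refine sum_congr rfl fun l _ => ?_
    rw [show D + i = (D + e) + C.g by omega, hmul _ _ (by omega) _ (poly_le_R C _ (hq l)) _ (hb l),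
      hscal _ (by omega) _ (hq l), LinearMap.smul_comp, LinearMap.id_comp, mul_smul,
      Module.Basis.equivFun_apply]
  have h1R : ∀ e : ℕ, (1 : K) ∈ C.R (e : ℤ) := fun e =>
    poly_le_R C _ (one_mem_poly (Int.natCast_nonneg e))
  have h1act : ∀ e, e ≤ T → act e (1 : K) = LinearMap.id := fun e he => by
    simpa using hscal e he 1 (by
      simpa using one_mem_poly (k := k) (η := C.η) (ζ := C.ζ) (Int.natCast_nonneg e))
  have key' : ∀ i ≤ 2 * C.g, ∀ a ∈ C.R (i : ℤ), act i a = E a := fun i hi a ha => by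
    rcases le_total C.g i with h | h
    · exact key i h hi a ha
    · obtain ⟨e, he⟩ := Nat.exists_eq_add_of_le h
      have h' := hmul i e (by omega) a ha 1 (h1R e)
      rw [mul_one, ← he, h1act e (by omega), LinearMap.comp_id] at h'
      rw [← h', key C.g le_rfl (by omega) a (R_mono C (Int.ofNat_le.2 h) ha)]
  have hone : E 1 = 1 := by
    rw [← key' 0 (Nat.zero_le _) 1 (h1R 0), h1act 0 (Nat.zero_le _), Module.End.one_eq_id]
  have hbb : ∀ l m, E (b l * b m) = (E (b l)).comp (E (b m)) := fun l m => by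
    have hlm : b l * b m ∈ C.R ((C.g + C.g : ℕ) : ℤ) := by
      push_cast; exact C.mul_mem _ _ _ (hb l) _ (hb m)
    rw [← key' (C.g + C.g) (by omega) _ hlm, hmul _ _ (by omega) _ (hb l) _ (hb m),
      key' C.g (by omega) _ (hb l), key' C.g (by omega) _ (hb m)]
  let E' : K →ₗ[ratField k C.η C.ζ] Module.End (ratField k C.η C.ζ) V := E
  have hmulE : ∀ x y, E' (x * y) = E' x * E' y := fun x y => by
    rw [← b.sum_repr x, ← b.sum_repr y]
    simp only [sum_mul, mul_sum, map_sum, smul_mul_assoc, mul_smul_comm, map_smul]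
    refine sum_congr rfl fun l _ => ?_
    congr 1
    refine sum_congr rfl fun m _ => ?_
    congr 1
    exact hbb m l
  exact ⟨AlgHom.ofLinearMap E' hone hmulE, key'⟩

variable {r L : ℕ} {C : Cone k K} {A : Act C r L} (Φ : Filt A.gop)

/-- The vector space of the graded module. -/
abbrev Space : Type := ratField k C.η C.ζ ⊗[MvPolynomial (Fin 2) k] Loc Φ

instance spaceTower :
    IsScalarTower (MvPolynomial (Fin 2) k) (ratField k C.η C.ζ) (Space Φ) :=
  TensorProduct.isScalarTower_left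

/-- An element of the ring of degree `i` on the vector space. -/
noncomputable def act (i : ℕ) (a : K) :
    Space Φ →ₗ[ratField k C.η C.ζ] Space Φ :=
  (locOp Φ i a).baseChange _

/-- The class of an element of degree `n` in the vector space. -/
noncomputable def emb (n : ℕ) : ↥(Φ.F n) →ₗ[k] Space Φ :=
  (TensorProduct.mk (MvPolynomial (Fin 2) k) (ratField k C.η C.ζ) (Loc Φ) 1).restrictScalars k ∘ₗ
    cls Φ n

lemma emb_apply (n : ℕ) (v : ↥(Φ.F n)) :
    emb Φ n v = (1 : ratField k C.η C.ζ) ⊗ₜ[MvPolynomial (Fin 2) k] cls Φ n v := rfl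

lemma one_tmul_eq_zero (hΦ : Φ.Tf) {x : Loc Φ}
    (h : (1 : ratField k C.η C.ζ) ⊗ₜ[MvPolynomial (Fin 2) k] x = 0) : x = 0 := by
  haveI := (isLocalizedModule_iff_isBaseChange (nonZeroDivisors (MvPolynomial (Fin 2) k))
    (ratField k C.η C.ζ) (TensorProduct.mk (MvPolynomial (Fin 2) k) (ratField k C.η C.ζ) (Loc Φ) 1)).2
    (TensorProduct.isBaseChange _ _ _)
  obtain ⟨⟨p, hp⟩, e⟩ := (IsLocalizedModule.eq_zero_iff (nonZeroDivisors (MvPolynomial (Fin 2) k))
    (TensorProduct.mk (MvPolynomial (Fin 2) k) (ratField k C.η C.ζ) (Loc Φ) 1)).1 h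
  exact loc_torsion_free Φ hΦ (nonZeroDivisors.ne_zero hp) e

lemma exists_denominator (x : Space Φ) : ∃ (p : MvPolynomial (Fin 2) k) (y : Loc Φ), p ≠ 0 ∧
    (1 : ratField k C.η C.ζ) ⊗ₜ[MvPolynomial (Fin 2) k] y = p • x := by
  haveI := (isLocalizedModule_iff_isBaseChange (nonZeroDivisors (MvPolynomial (Fin 2) k))
    (ratField k C.η C.ζ) (TensorProduct.mk (MvPolynomial (Fin 2) k) (ratField k C.η C.ζ) (Loc Φ) 1)).2
    (TensorProduct.isBaseChange _ _ _)
  obtain ⟨⟨y, ⟨p, hp⟩⟩, e⟩ := IsLocalizedModule.surj (nonZeroDivisors (MvPolynomial (Fin 2) k))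
    (TensorProduct.mk (MvPolynomial (Fin 2) k) (ratField k C.η C.ζ) (Loc Φ) 1) x
  exact ⟨p, y, nonZeroDivisors.ne_zero hp, e.symm⟩

lemma emb_eq_zero (hΦ : Φ.Tf) {n : ℕ} (v : ↥(Φ.F n)) :
    emb Φ n v = 0 ↔ (v : Vec k r) ∈ Φ.F (n + 1) := by
  rw [← cls_eq_zero Φ hΦ, emb_apply]
  exact ⟨one_tmul_eq_zero Φ hΦ, fun h => by rw [h, tmul_zero]⟩

lemma act_tmul (i : ℕ) (a : K) (q : ratField k C.η C.ζ) (x : Loc Φ) :
    act Φ i a (q ⊗ₜ x) = q ⊗ₜ locOp Φ i a x := LinearMap.baseChange_tmul _ _ _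

lemma act_mul {i j : ℕ} (h : i + j + Φ.K + 1 ≤ L) {a b : K} (ha : a ∈ C.R (i : ℤ))
    (hb : b ∈ C.R (j : ℤ)) : act Φ (i + j) (a * b) = act Φ i a ∘ₗ act Φ j b := by
  rw [act, act, act, locOp_mul Φ h ha hb, LinearMap.baseChange_comp]

lemma act_add {i : ℕ} {a b : K} (ha : a ∈ C.R (i : ℤ)) (hb : b ∈ C.R (i : ℤ)) :
    act Φ i (a + b) = act Φ i a + act Φ i b := by
  rw [act, act, act, locOp_add Φ ha hb, LinearMap.baseChange_add]

lemma act_scalar {j : ℕ} (hj : j + Φ.K + 1 ≤ L) {q : ratField k C.η C.ζ}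
    (hq : (q : K) ∈ polySpace (k := k) C.η C.ζ (j : ℤ)) :
    act Φ j (q : K) = q • LinearMap.id := by
  obtain ⟨p, hp, hd⟩ := exists_totalDegree hq
  have hd' : p.totalDegree ≤ j := by
    rw [max_eq_left (Int.natCast_nonneg j)] at hd
    exact Int.ofNat_le.1 hd
  have e : q = algebraMap (MvPolynomial (Fin 2) k) (ratField k C.η C.ζ) p :=
    Subtype.ext (by rw [algMap_coe, hp])
  refine TensorProduct.AlgebraTensorModule.ext fun c x => ?_
  rw [act_tmul, ← hp, locOp_poly Φ hj p hd', tmul_smul, LinearMap.smul_apply, LinearMap.id_apply,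
    e, algebraMap_smul]

/-- The vector space of the graded module, with the classes and the operators. -/
theorem exists_space (hΦ : Φ.Tf) {T : ℕ} (hT : T + Φ.K + 1 ≤ L) (hg : C.g ≤ T) :
    ∃ (V : Type) (_ : AddCommGroup V) (_ : Module (ratField k C.η C.ζ) V)
      (e : ∀ n, ↥(Φ.F n) →+ V) (act : ℕ → K → V →ₗ[ratField k C.η C.ζ] V),
      (∀ n (a : k) v, e n (a • v) = algebraMap k (ratField k C.η C.ζ) a • e n v) ∧
      (∀ n (v : ↥(Φ.F n)), e n v = 0 ↔ (v : Vec k r) ∈ Φ.F (n + 1)) ∧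
      (∀ x : V, ∃ q : ratField k C.η C.ζ, q ≠ 0 ∧ ∃ N, ∀ n, N ≤ n → ∃ v, e n v = q • x) ∧
      (∀ n (u : Mon) (v : ↥(Φ.F n)) (q : ratField k C.η C.ζ), (q : K) = mono C.η C.ζ u →
        e (n + deg u) ⟨sh u v, Φ.shift u n v v.2⟩ = q • e n v) ∧
      (∀ n i, i ≤ C.g → ∀ (a : K), a ∈ C.R (i : ℤ) → ∀ (v : ↥(Φ.F n))
        (h : A.op i a v ∈ Φ.F (n + i)), e (n + i) ⟨_, h⟩ = act i a (e n v)) ∧
      (∀ i : ℕ, ∀ a b : K, a ∈ C.R (i : ℤ) → b ∈ C.R (i : ℤ) →
        act i (a + b) = act i a + act i b) ∧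
      (∀ i j, i + j ≤ T → ∀ a ∈ C.R (i : ℤ), ∀ b ∈ C.R (j : ℤ),
        act (i + j) (a * b) = act i a ∘ₗ act j b) ∧
      (∀ j ≤ T, ∀ q : ratField k C.η C.ζ, (q : K) ∈ polySpace (k := k) C.η C.ζ (j : ℤ) →
        act j (q : K) = q • LinearMap.id) := by
  classical
  refine ⟨Space Φ, inferInstance, inferInstance, fun n => (emb Φ n).toAddMonoidHom, act Φ,
    fun n a v => ?_, fun n v => emb_eq_zero Φ hΦ v, fun x => ?_, fun n u v q hq => ?_,
    fun n i hi a ha v h => ?_, fun i a b ha hb => act_add Φ ha hb,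
    fun i j h a ha b hb => act_mul Φ (by omega) ha hb, fun j hj q hq => act_scalar Φ (by omega) hq⟩
  · show emb Φ n (a • v) = _ • emb Φ n v
    rw [emb_apply, emb_apply, map_smul, ← algebraMap_smul (MvPolynomial (Fin 2) k) a (cls Φ n v),
      tmul_smul, ← algebraMap_smul (ratField k C.η C.ζ) (algebraMap k (MvPolynomial (Fin 2) k) a),
      ← IsScalarTower.algebraMap_apply]
  · obtain ⟨p, y, hp, e⟩ := exists_denominator Φ x
    obtain ⟨N, hN⟩ := exists_cls Φ y
    refine ⟨algebraMap _ _ p, fun h => hp (IsFractionRing.injective (MvPolynomial (Fin 2) k)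
      (ratField k C.η C.ζ) (h.trans (map_zero _).symm)), N, fun n hn => ?_⟩
    obtain ⟨v, hv⟩ := hN n hn
    refine ⟨v, ?_⟩
    show emb Φ n v = _
    rw [emb_apply, hv, e, algebraMap_smul]
  · show emb Φ (n + deg u) _ = q • emb Φ n v
    rw [emb_apply, cls_sh Φ u v, tmul_smul, ← algebraMap_smul (ratField k C.η C.ζ), emb_apply]
    congr 1
    exact Subtype.ext (by rw [algMap_coe, aeval_expo, hq])
  · show emb Φ (n + i) _ = act Φ i a (emb Φ n v)
    rw [emb_apply, cls_op Φ (by omega) ha v, emb_apply, act_tmul]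

end

end Vale.Agent.P190.Minimise
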