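import Vale.Agent.P190.Minimise.Dual
import Vale.Agent.P190.Minimise.Coprime
import Vale.Agent.P190.Minimise.Loc

/-!
P190, MINIMISE: the reflexive hull of a generated family differs from it by a bounded amount.
-/

open Filter Finset

namespace Vale.Agent.P190.Minimise

variable {k K : Type} [Field k] [Field K] [Algebra k K] {C : Cone k K} {rK : ℕ}

lemma poly_bdd {a b c B : ℤ}
    (h : ∀ᶠ n : ℕ in atTop, 0 ≤ poly a b c n ∧ poly a b c n ≤ B) : a = 0 ∧ b = 0 ∧ 0 ≤ c := by
  have h1 := poly_lead_nonneg (h.mono fun n hn => hn.1)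
  have h2 : 0 ≤ -a := poly_lead_nonneg (q := -a) (e := -b) (c := B - c) (h.mono fun n hn => by
    have := hn.2
    simp only [poly] at this ⊢
    linarith)
  obtain rfl : a = 0 := by omega
  obtain ⟨N, hN⟩ := eventually_atTop.1 h
  simp only [poly, zero_mul, zero_add] at hN
  have hb : b = 0 := by
    obtain ⟨l1, u1⟩ := hN N le_rfl
    obtain ⟨l2, u2⟩ := hN (N + B.natAbs + 1) (by omega)
    push_cast at l2 u2
    rcases lt_trichotomy b 0 with hb | hb | hb
    · nlinarith [le_abs_self B, Int.abs_eq_natAbs B]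
    · exact hb
    · nlinarith [le_abs_self B, Int.abs_eq_natAbs B]
  subst hb
  exact ⟨rfl, rfl, by simpa using (hN N le_rfl).1⟩

/-- A family with the rules of a module, but possibly not reflexive. -/
structure Pre (C : Cone k K) {rK : ℕ} (N : ℤ → Submodule k (Fin rK → K)) (n₁ : ℕ) : Prop where
  smul : ∀ (m n : ℤ), ∀ a ∈ C.R m, ∀ v ∈ N n, a • v ∈ N (m + n)
  fd : ∀ n, FiniteDimensional k (N n)
  below : ∀ n < (n₁ : ℤ), N n = ⊥
  gen : ∀ n ≥ (n₁ : ℤ), N (n + 1) ≤ N n
        ⊔ (N n).map (DistribSMul.toLinearMap k (Fin rK → K) C.η)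
        ⊔ (N n).map (DistribSMul.toLinearMap k (Fin rK → K) C.ζ)
  span : Submodule.span (ratField k C.η C.ζ) (N (n₁ : ℤ) : Set (Fin rK → K)) = ⊤

variable {N : ℤ → Submodule k (Fin rK → K)} {n₁ : ℕ}

lemma mono_smul_mem (hN : ∀ (m n : ℤ), ∀ a ∈ C.R m, ∀ v ∈ N n, a • v ∈ N (m + n)) (u : Mon) {n : ℤ}
    {v : Fin rK → K} (hv : v ∈ N n) : mono C.η C.ζ u • v ∈ N (n + deg u) := by
  rw [add_comm n]
  exact hN _ _ _ (mono_mem_R C u) v hv

lemma poly_smul_mem (hN : ∀ (m n : ℤ), ∀ a ∈ C.R m, ∀ v ∈ N n, a • v ∈ N (m + n)) {m n : ℤ}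
    {p : K} (hp : p ∈ polySpace (k := k) C.η C.ζ m) {v : Fin rK → K} (hv : v ∈ N n) :
    p • v ∈ N (m + n) := hN m n p (poly_le_R C m hp) v hv

/-- The high pieces come from the first one. -/
lemma gen_le_span (hgen : ∀ n ≥ (n₁ : ℤ), N (n + 1) ≤ N n
        ⊔ (N n).map (DistribSMul.toLinearMap k (Fin rK → K) C.η)
        ⊔ (N n).map (DistribSMul.toLinearMap k (Fin rK → K) C.ζ)) (j : ℕ) : N ((n₁ : ℤ) + j) ≤ Submodule.span k
    {x | ∃ p ∈ polySpace (k := k) C.η C.ζ (j : ℤ), ∃ v ∈ N (n₁ : ℤ), x = p • v} := by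
  induction j with
  | zero =>
    intro v hv
    exact Submodule.subset_span ⟨1, one_mem_poly le_rfl, v, by simpa using hv, (one_smul _ v).symm⟩
  | succ j ih =>
    rw [show (n₁ : ℤ) + ((j + 1 : ℕ) : ℤ) = ((n₁ : ℤ) + j) + 1 by push_cast; ring]
    refine (hgen _ (by omega)).trans ?_
    have key : ∀ c : K, c ∈ polySpace (k := k) C.η C.ζ 1 →
        (N ((n₁ : ℤ) + j)).map (DistribSMul.toLinearMap k (Fin rK → K) c) ≤ Submodule.span k
          {x | ∃ p ∈ polySpace (k := k) C.η C.ζ ((j + 1 : ℕ) : ℤ), ∃ v ∈ N (n₁ : ℤ), x = p • v} :=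
      fun c hc => by
        refine (Submodule.map_mono ih).trans ((Submodule.map_span_le _ _ _).2 ?_)
        rintro _ ⟨p, hp, v, hv, rfl⟩
        refine Submodule.subset_span ⟨c * p, ?_, v, hv, (mul_smul c p v).symm⟩
        push_cast
        rw [add_comm]
        exact mul_mem_poly hc hp
    refine sup_le (sup_le (fun v hv => key 1 (one_mem_poly zero_le_one) ⟨v, hv, one_smul _ v⟩)
      (key _ ?_)) (key _ ?_)
    · simpa using monom_mem_poly (k := k) (η := C.η) (ζ := C.ζ) (a := 1) (b := 0) (le_refl _)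
    · simpa using monom_mem_poly (k := k) (η := C.η) (ζ := C.ζ) (a := 0) (b := 1) (le_refl _)

lemma Pre.mem_dual_iff (h : Pre C N n₁) {n : ℤ} {w : Fin rK → K} :
    w ∈ dualFam C.η C.ζ N n ↔ ∀ v ∈ N (n₁ : ℤ),
      (pair (k := k) C.η C.ζ w v : K) ∈ polySpace (k := k) C.η C.ζ (n + n₁ - 3) := by
  refine ⟨fun hw v hv => mem_dual.1 hw _ v hv, fun hw => mem_dual.2 fun j v hv => ?_⟩
  rcases lt_or_ge j (n₁ : ℤ) with hj | hj
  · rw [h.below j hj, Submodule.mem_bot] at hv
    simp [hv]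
  obtain ⟨i, rfl⟩ : ∃ i : ℕ, j = (n₁ : ℤ) + i := ⟨(j - n₁).toNat, by omega⟩
  refine Submodule.span_induction ?_ (by simp) (fun x y _ _ hx hy => by
      rw [map_add]; exact add_mem hx hy) (fun a x _ hx => ?_) (gen_le_span h.gen i hv)
  · rintro _ ⟨p, hp, v, hv, rfl⟩
    have e : pair (k := k) C.η C.ζ w (p • v) =
        (⟨p, poly_le_ratField _ hp⟩ : ratField k C.η C.ζ) * pair (k := k) C.η C.ζ w v := by
      rw [show p • v = (⟨p, poly_le_ratField _ hp⟩ : ratField k C.η C.ζ) • v from rfl, map_smul,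
        smul_eq_mul]
    rw [e, MulMemClass.coe_mul, show n + (n₁ + (i : ℤ)) - 3 = i + (n + n₁ - 3) by ring]
    exact mul_mem_poly hp (hw v hv)
  · rw [← algebraMap_smul (ratField k C.η C.ζ) a x, map_smul, algebraMap_smul,
      IntermediateField.coe_smul]
    exact Submodule.smul_mem _ a hx

/-- Coordinates with a common denominator. -/
theorem Pre.exists_frame (h : Pre C N n₁) :
    ∃ (r₀ : ℕ) (w : Fin r₀ → Fin rK → K) (c : Fin r₀ → Fin rK → K) (D : ℕ),
      r₀ = Module.finrank (ratField k C.η C.ζ) (Fin rK → K) ∧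
      (∀ l, w l ∈ N (n₁ : ℤ)) ∧
      (∀ v ∈ N (n₁ : ℤ), ∀ l,
        (pair (k := k) C.η C.ζ (c l) v : K) ∈ polySpace (k := k) C.η C.ζ (D : ℤ)) ∧
      (∀ v v', (∀ l, pair (k := k) C.η C.ζ (c l) v = pair (k := k) C.η C.ζ (c l) v') → v = v') ∧
      ∃ δ : ratField k C.η C.ζ, δ ≠ 0 ∧ ∀ l l',
        pair (k := k) C.η C.ζ (c l) (w l') = if l' = l then δ else 0 := by
  classical
  haveI := C.sep
  set F := ratField k C.η C.ζ
  obtain ⟨s, hs, hspan, hli⟩ := exists_linearIndependent F (N (n₁ : ℤ) : Set (Fin rK → K))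
  rw [h.span] at hspan
  set b₀ := Module.Basis.mk hli (by rw [Subtype.range_coe]; exact hspan.ge)
  haveI : Fintype s := FiniteDimensional.fintypeBasisIndex b₀
  set r₀ := Module.finrank F (Fin rK → K)
  set b := b₀.reindex (Fintype.equivFinOfCardEq (Module.finrank_eq_card_basis b₀).symm)
  haveI := h.fd (n₁ : ℤ)
  obtain ⟨S, hS⟩ := Module.Finite.iff_fg.1 (inferInstance : Module.Finite k (N (n₁ : ℤ)))
  obtain ⟨δ, hδ⟩ := IsLocalization.exist_integer_multiples_of_finset
    (nonZeroDivisors (MvPolynomial (Fin 2) k)) (S := ↥F)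
    ((S ×ˢ (univ : Finset (Fin r₀))).image fun xl => b.repr xl.1 xl.2)
  choose P hP using fun (xl : {xl : (Fin rK → K) × Fin r₀ // xl ∈ S ×ˢ (univ : Finset (Fin r₀))}) =>
    hδ _ (mem_image_of_mem _ xl.2)
  set δF : F := algebraMap (MvPolynomial (Fin 2) k) F δ with hδF
  have hnd := pair_nondegenerate (k := k) (K := K) (rK := rK) (η := C.η) (ζ := C.ζ)
  set bd := (pair (k := k) (rK := rK) C.η C.ζ).dualBasis hnd b
  have hpair : ∀ l v, pair (k := k) C.η C.ζ (δF • bd l) v = δF * b.repr v l := fun l v => by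
    conv_lhs => rw [← b.sum_repr v]
    rw [map_smul, LinearMap.smul_apply, map_sum, smul_eq_mul,
      sum_eq_single l (fun j _ hj => by
        rw [map_smul, LinearMap.BilinForm.apply_dualBasis_left, if_neg hj, smul_zero])
        (fun h => absurd (mem_univ _) h), map_smul, LinearMap.BilinForm.apply_dualBasis_left,
      if_pos rfl, smul_eq_mul, mul_one]
  refine ⟨r₀, fun l => b l, fun l => δF • bd l, univ.sup fun xl => (P xl).totalDegree, rfl,
    fun l => ?_, fun v hv l => ?_, fun v v' hv => ?_, δF, ?_, fun l l' => ?_⟩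
  · simp only [b, b₀, Module.Basis.reindex_apply, Module.Basis.mk_apply]
    exact hs (Subtype.coe_prop _)
  · rw [← hS] at hv
    refine Submodule.span_induction ?_ (by simp) (fun x y _ _ hx hy => by
        rw [map_add]; exact add_mem hx hy) (fun a x _ hx => ?_) hv
    · intro x hx
      have hp := hP ⟨(x, l), mk_mem_product hx (mem_univ _)⟩
      rw [hpair, hδF, ← Algebra.smul_def, ← hp, algMap_coe]
      exact aeval_mem_poly _ (Int.ofNat_le.2 (Finset.le_sup (f := fun xl => (P xl).totalDegree)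
        (mem_univ _)))
    · rw [← algebraMap_smul F a x, map_smul, algebraMap_smul, IntermediateField.coe_smul]
      exact Submodule.smul_mem _ a hx
  · have hδ0 : δF ≠ 0 := fun h0 => nonZeroDivisors.ne_zero δ.2
      (IsFractionRing.injective (MvPolynomial (Fin 2) k) F (h0.trans (map_zero _).symm))
    refine b.repr.injective (Finsupp.ext fun l => mul_left_cancel₀ hδ0 ?_)
    rw [← hpair, ← hpair]
    exact hv l
  · exact fun h0 => nonZeroDivisors.ne_zero δ.2
      (IsFractionRing.injective (MvPolynomial (Fin 2) k) F (h0.trans (map_zero _).symm))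
  · rw [hpair, b.repr_self, Finsupp.single_apply]
    split_ifs <;> simp

end Vale.Agent.P190.Minimise
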