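import Vale.Agent.P190.Minimise.Hull
import Vale.Agent.P190.Minimise.Embed

/-!
P190, MINIMISE: the reflexive hull is a module with the same slope.
-/

open Filter Finset

namespace Vale.Agent.P190.Minimise

variable {k K : Type} [Field k] [Field K] [Algebra k K] {C : Cone k K} {rK : ℕ}
variable {N : ℤ → Submodule k (Fin rK → K)} {n₁ : ℕ}

/-- Two coprime polynomials carry the double dual into the family. -/
theorem Pre.exists_killers [Infinite k] (h : Pre C N n₁) :
    ∃ (f g : MvPolynomial (Fin 2) k) (E : ℕ), f ≠ 0 ∧ g ≠ 0 ∧ f.totalDegree = E ∧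
      g.totalDegree ≤ E ∧ IsRelPrime f g ∧
      ∀ n, ∀ v ∈ dualFam C.η C.ζ (dualFam C.η C.ζ N) n,
        MvPolynomial.aeval ![C.η, C.ζ] f • v ∈ N (n + E) ∧
        MvPolynomial.aeval ![C.η, C.ζ] g • v ∈ N (n + E) := by
  classical
  obtain ⟨r₀, w, c, D, -, hw, hcD, hsep, δ, hδ, hdiag⟩ := h.exists_frame
  haveI := h.fd (n₁ : ℤ)
  obtain ⟨S₀, hS₀⟩ := Module.Finite.iff_fg.1 (inferInstance : Module.Finite k (N (n₁ : ℤ)))
  set S : Finset (Fin rK → K) := S₀ ∪ univ.image w
  have hSN : ∀ u ∈ S, u ∈ N (n₁ : ℤ) := fun u hu => by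
    rcases mem_union.1 hu with hu | hu
    · rw [← hS₀]; exact Submodule.subset_span hu
    · obtain ⟨l, -, rfl⟩ := mem_image.1 hu; exact hw l
  choose P hP hPd using fun (ul : S × Fin r₀) => exists_totalDegree (hcD ul.1 (hSN _ ul.1.2) ul.2)
  set q := algebraMap (MvPolynomial (Fin 2) k) (ratField k C.η C.ζ) with hq
  have hqP : ∀ ul : S × Fin r₀, q (P ul) = pair (k := k) C.η C.ζ (c ul.2) ul.1 := fun ul =>
    Subtype.ext (by rw [hq, algMap_coe, hP])
  let M : (Fin r₀ → S) → Matrix (Fin r₀) (Fin r₀) (MvPolynomial (Fin 2) k) := fun t =>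
    Matrix.of fun i l => P (t i, l)
  let t₀ : Fin r₀ → S := fun l => ⟨w l, mem_union_right _ (mem_image_of_mem w (mem_univ l))⟩
  have ht₀ : (M t₀).det ≠ 0 := fun h0 => by
    have e : ((M t₀).map q) = Matrix.diagonal fun _ => δ := by
      ext i l
      rw [Matrix.map_apply, Matrix.diagonal_apply]
      show ((q (P (t₀ i, l)) : ratField k C.η C.ζ) : K) = _
      rw [hqP, hdiag]
    have := congrArg q h0
    rw [map_zero, RingHom.map_det, RingHom.mapMatrix_apply, e, Matrix.det_diagonal, prod_const] at this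
    exact pow_ne_zero _ hδ this
  obtain ⟨G, Q, E, cf, cg, hG, hQ, hQE, hf, hg, hfE, hcop⟩ :=
    exists_coprime (fun t => (M t).det) t₀ ht₀
  have hqG : q G ≠ 0 := fun h0 => hG (IsFractionRing.injective (MvPolynomial (Fin 2) k)
    (ratField k C.η C.ζ) (h0.trans (map_zero _).symm))
  let φ : (Fin r₀ → S) → Fin r₀ → Fin rK → K := fun t i =>
    ∑ l, (q ((M t).adjugate l i) / q G) • c l
  have hφ : ∀ t i x, pair (k := k) C.η C.ζ (φ t i) x =
      (∑ l, q ((M t).adjugate l i) * pair (k := k) C.η C.ζ (c l) x) / q G := fun t i x => by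
    simp only [φ, map_sum, map_smul, LinearMap.sum_apply, LinearMap.smul_apply, smul_eq_mul,
      sum_div]
    exact sum_congr rfl fun l _ => by ring
  have hφS : ∀ t i (u : S), pair (k := k) C.η C.ζ (φ t i) u = q (Q (Function.update t i u)) :=
    fun t i u => by
      have hu : M (Function.update t i u) = (M t).updateRow i fun l => P (u, l) := by
        ext a b
        by_cases ha : a = i
        · subst ha; simp [M]
        · simp [M, Matrix.updateRow_ne ha, Function.update_of_ne ha]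
      have e : (M (Function.update t i u)).det = ∑ l, (M t).adjugate l i * P (u, l) := by
        rw [hu, ← Matrix.cramer_transpose_apply, Matrix.cramer_eq_adjugate_mulVec,
          ← Matrix.adjugate_transpose]
        simp [Matrix.mulVec, dotProduct]
      rw [hφ, eq_comm, eq_div_iff hqG, ← map_mul, mul_comm, ← hQ, e, map_sum]
      exact sum_congr rfl fun l _ => by rw [map_mul, hqP]
  have hφD : ∀ t i, φ t i ∈ dualFam C.η C.ζ N ((E : ℤ) - n₁ + 3) := fun t i => by
    rw [h.mem_dual_iff]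
    intro v hv
    rw [show (E : ℤ) - n₁ + 3 + n₁ - 3 = E by ring]
    rw [← hS₀] at hv
    refine Submodule.span_induction ?_ (by simp) (fun x y _ _ hx hy => by
      rw [map_add]; exact add_mem hx hy) (fun a x _ hx => ?_) hv
    · intro x hx
      rw [hφS t i ⟨x, mem_union_left _ hx⟩, hq, algMap_coe]
      exact aeval_mem_poly _ (Int.ofNat_le.2 (hQE _))
    · rw [← algebraMap_smul (ratField k C.η C.ζ) a x, map_smul, algebraMap_smul,
        IntermediateField.coe_smul]
      exact Submodule.smul_mem _ a hx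
  have key : ∀ n, ∀ v ∈ dualFam C.η C.ζ (dualFam C.η C.ζ N) n, ∀ t,
      MvPolynomial.aeval ![C.η, C.ζ] (Q t) • v ∈ N (n + E) := fun n v hv t => by
    have hc : ∀ i, (pair (k := k) C.η C.ζ (φ t i) v : K) ∈
        polySpace (k := k) C.η C.ζ (n + E - n₁) := fun i => by
      have := mem_dual.1 hv _ _ (hφD t i)
      rw [pair_comm, show n + ((E : ℤ) - n₁ + 3) - 3 = n + E - n₁ by ring] at this
      exact this
    have e : q (Q t) • v = ∑ i, pair (k := k) C.η C.ζ (φ t i) v • (t i : Fin rK → K) := by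
      refine hsep _ _ fun m => ?_
      have hM : ∀ l, ∑ i, (M t).adjugate l i * M t i m = if l = m then (M t).det else 0 := fun l => by
        have := congrFun (congrFun (Matrix.adjugate_mul (M t)) l) m
        simpa [Matrix.mul_apply, Matrix.one_apply] using this
      have hM' : ∀ l, ∑ i, q ((M t).adjugate l i) * pair (k := k) C.η C.ζ (c m) (t i) =
          if l = m then q ((M t).det) else 0 := fun l => by
        have := congrArg q (hM l)
        rw [map_sum, apply_ite q, map_zero] at this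
        rw [← this]
        exact sum_congr rfl fun i _ => by rw [map_mul]; congr 1; exact (hqP (t i, m)).symm
      rw [map_smul, smul_eq_mul, map_sum]
      simp only [map_smul, smul_eq_mul, hφ, div_mul_eq_mul_div, ← sum_div, sum_mul]
      rw [sum_comm, eq_div_iff hqG]
      simp only [mul_right_comm _ (pair (k := k) C.η C.ζ (c _) v), ← sum_mul, hM', ite_mul, zero_mul]
      rw [sum_ite_eq' univ m, if_pos (mem_univ _), hQ t, map_mul]
      ring
    rw [show MvPolynomial.aeval ![C.η, C.ζ] (Q t) • v = q (Q t) • v by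
      rw [← algMap_coe]; rfl, e]
    refine sum_mem fun i _ => ?_
    have := poly_smul_mem h.smul (hc i) (hSN _ (t i).2)
    rw [show n + (E : ℤ) - n₁ + n₁ = n + E by ring] at this
    exact this
  refine ⟨_, _, E, hf, hg, hfE, ?_, hcop, fun n v hv => ⟨?_, ?_⟩⟩
  · refine MvPolynomial.totalDegree_finsetSum_le fun t _ => ?_
    exact (MvPolynomial.totalDegree_smul_le _ _).trans (hQE t)
  all_goals
    rw [map_sum, sum_smul]
    refine sum_mem fun t _ => ?_
    rw [map_smul, smul_assoc]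
    exact Submodule.smul_mem _ _ (key n v hv t)

/-- The reflexive hull. -/
theorem Pre.exists_hull [Infinite k] (h : Pre C N n₁) {ρ e c : ℤ}
    (hh : ∀ᶠ n : ℕ in atTop, (Module.finrank k (N (n : ℤ)) : ℤ) = poly ρ e c n) :
    ∃ (N' : ℤ → Submodule k (Fin rK → K)) (c' : ℤ), C.IsMod N' ∧ c ≤ c' ∧
      (∀ᶠ n : ℕ in atTop, (Module.finrank k (N' (n : ℤ)) : ℤ) = poly ρ e c' n) ∧
      ∃ B : ℕ, ∀ W : Submodule k (Fin rK → K), ∀ᶠ n : ℕ in atTop,
        Module.finrank k ↥(N (n : ℤ) ⊓ W) ≤ Module.finrank k ↥(N' (n : ℤ) ⊓ W) ∧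
        Module.finrank k ↥(N' (n : ℤ) ⊓ W) ≤ Module.finrank k ↥(N (n : ℤ) ⊓ W) + B := by
  classical
  obtain ⟨r₀, -, cw, D, -, -, hcD, hsep, -⟩ := h.exists_frame
  set E' := dualFam C.η C.ζ (dualFam C.η C.ζ N) with hE'
  have hsmul : ∀ (m n : ℤ), ∀ a ∈ C.R m, ∀ v ∈ E' n, a • v ∈ E' (m + n) :=
    dual_smul C.R (dual_smul C.R h.smul)
  let θ : (Fin rK → K) →ₗ[k] (Fin r₀ → K) :=
    { toFun := fun v l => (pair (k := k) C.η C.ζ (cw l) v : K)
      map_add' := fun v w => funext fun l => by simp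
      map_smul' := fun a v => funext fun l => by
        rw [← algebraMap_smul (ratField k C.η C.ζ) a v, map_smul, algebraMap_smul,
          IntermediateField.coe_smul]
        rfl }
  have hθ : Function.Injective θ := fun v v' e => hsep v v' fun l => Subtype.ext (congrFun e l)
  have hθmono : ∀ (u : Mon) v, θ (mono C.η C.ζ u • v) = mono C.η C.ζ u • θ v := fun u v =>
    funext fun l => by
      show (pair (k := k) C.η C.ζ (cw l)
        ((⟨_, poly_le_ratField _ (mono_mem_poly u)⟩ : ratField k C.η C.ζ) • v) : K) = _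
      rw [map_smul]
      rfl
  have hcdual : ∀ l, cw l ∈ dualFam C.η C.ζ N ((D : ℤ) - n₁ + 3) := fun l => by
    rw [h.mem_dual_iff, show (D : ℤ) - n₁ + 3 + n₁ - 3 = D by ring]
    exact fun v hv => hcD v hv l
  have hθE : ∀ n, ∀ v ∈ E' n, ∀ l, θ v l ∈ polySpace (k := k) C.η C.ζ (n + D - n₁) := fun n v hv l => by
    have := mem_dual.1 hv _ _ (hcdual l)
    rw [pair_comm, show n + ((D : ℤ) - n₁ + 3) - 3 = n + D - n₁ by ring] at this
    exact this
  have hfd : ∀ n, FiniteDimensional k (E' n) := fun n => by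
    let φ : E' n →ₗ[k] (Fin r₀ → polySpace (k := k) C.η C.ζ (n + D - n₁)) :=
      LinearMap.pi fun l => ((LinearMap.proj l) ∘ₗ θ ∘ₗ (E' n).subtype).codRestrict _
        fun v => hθE n v v.2 l
    exact Module.Finite.of_injective φ fun v v' e => Subtype.ext
      (hθ (funext fun l => show (φ v l : K) = φ v' l from congrArg Subtype.val (congrFun e l)))
  have hbelow : ∀ n < (n₁ : ℤ) - D, E' n = ⊥ := fun n hn => by
    rw [eq_bot_iff]
    intro v hv
    refine hθ (funext fun l => ?_)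
    have := hθE n v hv l
    rw [poly_bot (by omega), Submodule.mem_bot] at this
    rw [this, map_zero]
    rfl
  obtain ⟨⟨ρ', e', c', hpoly⟩, hgen'⟩ := lattice_data C.indep θ hθ hθmono
    (fun m => E' ((m : ℤ) + n₁ - D))
    (fun m v hv l => by
      have := hθE _ v hv l
      rwa [show (m : ℤ) + n₁ - D + D - n₁ = m by ring] at this)
    (fun u m v hv => by
      have := mono_smul_mem hsmul u hv
      rwa [show ((m + deg u : ℕ) : ℤ) + n₁ - D = (m : ℤ) + n₁ - D + deg u by push_cast; ring])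
  obtain ⟨M₁, hM₁⟩ := eventually_atTop.1 hgen'
  set n₂ : ℕ := M₁ + n₁ + D
  have hgen : ∀ n ≥ (n₂ : ℤ), E' (n + 1) ≤ E' n
      ⊔ (E' n).map (DistribSMul.toLinearMap k (Fin rK → K) C.η)
      ⊔ (E' n).map (DistribSMul.toLinearMap k (Fin rK → K) C.ζ) := fun n hn => by
    obtain ⟨m, rfl⟩ : ∃ m : ℕ, n = (m : ℤ) + n₁ - D := ⟨(n + D - n₁).toNat, by omega⟩
    have := hM₁ m (by omega)
    rwa [show ((m + 1 : ℕ) : ℤ) + n₁ - D = (m : ℤ) + n₁ - D + 1 by push_cast; ring] at this
  obtain ⟨f, g, E, hf, hg, hfE, hgE, hcop, hkill⟩ := h.exists_killers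
  haveI := hfd (n₂ : ℤ)
  obtain ⟨T, hT⟩ := Module.Finite.iff_fg.1 (inferInstance : Module.Finite k (E' (n₂ : ℤ)))
  set B := T.card * (E * E)
  have hbound : ∀ J : ℕ, Module.finrank k (E' ((n₂ + (J + 2 * E) : ℕ) : ℤ)) ≤
      Module.finrank k (N ((n₂ + (J + 2 * E) : ℕ) : ℤ)) + B := fun J => by
    set P := polySpace (k := k) C.η C.ζ ((J + 2 * E : ℕ) : ℤ)
    set fK := MvPolynomial.aeval ![C.η, C.ζ] f
    set gK := MvPolynomial.aeval ![C.η, C.ζ] g
    set Z := (polySpace (k := k) C.η C.ζ ((J + E : ℕ) : ℤ)).map (LinearMap.mulLeft k fK) ⊔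
      (polySpace (k := k) C.η C.ζ ((J + E : ℕ) : ℤ)).map (LinearMap.mulLeft k gK)
    have hZP : Z ≤ P := by
      have key : ∀ F : MvPolynomial (Fin 2) k, F.totalDegree ≤ E →
          (polySpace (k := k) C.η C.ζ ((J + E : ℕ) : ℤ)).map
            (LinearMap.mulLeft k (MvPolynomial.aeval ![C.η, C.ζ] F)) ≤ P := fun F hF => by
        rintro _ ⟨p, hp, rfl⟩
        exact poly_mono (by push_cast; omega)
          (mul_mem_poly (aeval_mem_poly F (m := (E : ℤ)) (Int.ofNat_le.2 hF)) hp)
      exact sup_le (key f hfE.le) (key g hgE)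
    obtain ⟨Y, hY⟩ := Submodule.exists_isCompl (Z.comap P.subtype)
    have hYrank : Module.finrank k Y ≤ E * E := by
      have h1 := Submodule.finrank_add_eq_of_isCompl hY
      have h2 : Module.finrank k (Z.comap P.subtype) = Module.finrank k Z :=
        (Submodule.comapSubtypeEquivOfLe hZP).finrank_eq
      have h3 := exists_span_large C.indep hf hg hfE hcop J
      have h4 := finrank_poly C.indep (J + 2 * E)
      have h5 := tri_second J E
      zify at h1 ⊢
      rw [h2] at h1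
      linarith
    let Λ : (T → Y) →ₗ[k] (Fin rK → K) :=
      { toFun := fun y => ∑ x : T, ((y x : P) : K) • (x : Fin rK → K)
        map_add' := fun y y' => by simp [add_smul, sum_add_distrib]
        map_smul' := fun a y => by simp [smul_sum, smul_assoc] }
    have hle : E' ((n₂ + (J + 2 * E) : ℕ) : ℤ) ≤
        N ((n₂ + (J + 2 * E) : ℕ) : ℤ) ⊔ LinearMap.range Λ := by
      rw [Nat.cast_add]
      refine (gen_le_span hgen _).trans (Submodule.span_le.2 ?_)
      rintro _ ⟨p, hp, v, hv, rfl⟩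
      rw [← hT] at hv
      refine Submodule.span_induction ?_ (by simp) (fun x y _ _ hx hy => by
        rw [smul_add]; exact add_mem hx hy) (fun a x _ hx => by
        rw [SetLike.mem_coe, smul_comm]; exact Submodule.smul_mem _ a hx) hv
      intro x hx
      obtain ⟨z, hz, y, hy, e⟩ := Submodule.mem_sup.1
        (hY.sup_eq_top.ge (Submodule.mem_top : (⟨p, hp⟩ : P) ∈ ⊤))
      have e' : p = (z : K) + (y : K) := (congrArg Subtype.val e).symm
      rw [SetLike.mem_coe, e', add_smul]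
      refine Submodule.add_mem_sup ?_ ?_
      · have hxE : x ∈ E' (n₂ : ℤ) := by rw [← hT]; exact Submodule.subset_span hx
        obtain ⟨z1, ⟨a, ha, rfl⟩, z2, ⟨b, hb, rfl⟩, ez⟩ := Submodule.mem_sup.1 (show (z : K) ∈ Z from hz)
        rw [← ez, add_smul, LinearMap.mulLeft_apply, LinearMap.mulLeft_apply, mul_comm fK, mul_comm gK,
          mul_smul, mul_smul]
        refine add_mem ?_ ?_
        · have := poly_smul_mem h.smul ha (hkill _ x hxE).1
          rwa [show ((J + E : ℕ) : ℤ) + ((n₂ : ℤ) + E) = (n₂ : ℤ) + ((J + 2 * E : ℕ) : ℤ) by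
            push_cast; ring] at this
        · have := poly_smul_mem h.smul hb (hkill _ x hxE).2
          rwa [show ((J + E : ℕ) : ℤ) + ((n₂ : ℤ) + E) = (n₂ : ℤ) + ((J + 2 * E : ℕ) : ℤ) by
            push_cast; ring] at this
      · refine ⟨Pi.single ⟨x, hx⟩ ⟨y, hy⟩, ?_⟩
        show ∑ x' : T, _ = _
        rw [sum_eq_single ⟨x, hx⟩ (fun x' _ hx' => by rw [Pi.single_eq_of_ne hx']; simp)
          (fun h' => absurd (mem_univ _) h'), Pi.single_eq_same]
    haveI := h.fd ((n₂ + (J + 2 * E) : ℕ) : ℤ)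
    refine (Submodule.finrank_mono hle).trans ((Submodule.finrank_add_le_finrank_add_finrank _ _).trans ?_)
    refine Nat.add_le_add_left ((LinearMap.finrank_range_le Λ).trans ?_) _
    rw [Module.finrank_pi_fintype, sum_const, card_univ, Fintype.card_coe, smul_eq_mul]
    exact Nat.mul_le_mul_left _ hYrank
  have hboth : ∀ᶠ n : ℕ in atTop, Module.finrank k (N (n : ℤ)) ≤ Module.finrank k (E' (n : ℤ)) ∧
      Module.finrank k (E' (n : ℤ)) ≤ Module.finrank k (N (n : ℤ)) + B := by
    filter_upwards [eventually_ge_atTop (n₂ + 2 * E)] with n hn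
    haveI := hfd (n : ℤ)
    refine ⟨Submodule.finrank_mono (le_dual_dual N n), ?_⟩
    obtain ⟨J, rfl⟩ : ∃ J, n = n₂ + (J + 2 * E) := ⟨n - n₂ - 2 * E, by omega⟩
    exact hbound J
  obtain ⟨e'', c'', hshift⟩ := poly_shift ρ' e' c' D
  obtain ⟨u, v, hshift'⟩ := poly_shift ρ e c n₁
  have hdiff : ∀ᶠ m : ℕ in atTop, 0 ≤ poly (ρ' - ρ) (e'' - u) (c'' - v) m ∧
      poly (ρ' - ρ) (e'' - u) (c'' - v) m ≤ B := by
    filter_upwards [(tendsto_add_atTop_nat n₁).eventually (hboth.and hh),
      (tendsto_add_atTop_nat D).eventually hpoly] with m ⟨⟨h1, h2⟩, h3⟩ h4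
    rw [show ((m + D : ℕ) : ℤ) + n₁ - D = ((m + n₁ : ℕ) : ℤ) by push_cast; ring, hshift] at h4
    rw [hshift'] at h3
    have h5 : poly (ρ' - ρ) (e'' - u) (c'' - v) m =
        poly ρ' e'' c'' m - poly ρ u v m := by simp only [poly]; ring
    rw [h5, ← h4, ← h3]
    omega
  obtain ⟨hρ, he, hc⟩ := poly_bdd hdiff
  have hN' : ∀ᶠ n : ℕ in atTop,
      (Module.finrank k (E' (n : ℤ)) : ℤ) = poly ρ e (c + (c'' - v)) n := by
    filter_upwards [(tendsto_sub_atTop_nat n₁).eventually
      ((tendsto_add_atTop_nat D).eventually hpoly), eventually_ge_atTop n₁] with n hn hle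
    rw [show ((n - n₁ + D : ℕ) : ℤ) + n₁ - D = (n : ℤ) by push_cast [Nat.cast_sub hle]; ring, hshift] at hn
    rw [hn, show ρ' = ρ by omega, show e'' = u by omega]
    have := hshift' (n - n₁)
    rw [Nat.sub_add_cancel hle] at this
    simp only [poly] at this ⊢
    linarith
  refine ⟨E', c + (c'' - v), ⟨hsmul, hfd, ⟨_, hbelow⟩, ⟨(n₂ : ℤ), fun n hn => le_antisymm (hgen n hn) ?_⟩,
    ?_, fun n => dual_reflexive _ n⟩, by omega, hN', B, fun W => ?_⟩
  · refine sup_le (sup_le (fun x hx => ?_) ?_) ?_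
    · simpa [add_comm n 1] using hsmul 1 n 1 C.one_mem x hx
    · rintro _ ⟨x, hx, rfl⟩
      rw [add_comm n 1]
      exact hsmul 1 n _ C.η_mem x hx
    · rintro _ ⟨x, hx, rfl⟩
      rw [add_comm n 1]
      exact hsmul 1 n _ C.ζ_mem x hx
  · rw [eq_top_iff]
    intro x _
    refine Submodule.span_induction (fun v hv => Submodule.subset_span
      (Set.mem_iUnion.2 ⟨(n₁ : ℤ), le_dual_dual N _ hv⟩)) (zero_mem _) (fun _ _ _ _ => add_mem)
      (fun a v _ hv => ?_) (h.span.ge (Submodule.mem_top : x ∈ ⊤))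
    exact Submodule.smul_mem _ (a : K) hv
  · filter_upwards [hboth] with n hn
    haveI := hfd (n : ℤ)
    haveI := h.fd (n : ℤ)
    have hle := le_dual_dual (η := C.η) (ζ := C.ζ) N (n : ℤ)
    refine ⟨Submodule.finrank_mono (inf_le_inf_right W hle), ?_⟩
    have h1 := Submodule.finrank_sup_add_finrank_inf_eq (E' (n : ℤ) ⊓ W) (N (n : ℤ))
    have h2 : Module.finrank k ↥(E' (n : ℤ) ⊓ W ⊔ N (n : ℤ)) ≤ Module.finrank k (E' (n : ℤ)) :=
      Submodule.finrank_mono (sup_le inf_le_left hle)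
    have h3 : Module.finrank k ↥(E' (n : ℤ) ⊓ W ⊓ N (n : ℤ)) ≤
        Module.finrank k ↥(N (n : ℤ) ⊓ W) :=
      Submodule.finrank_mono (le_inf inf_le_right (inf_le_left.trans inf_le_right))
    omega

end Vale.Agent.P190.Minimise
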