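import Vale.Agent.P190.Minimise.UpSet

/-!
P190, MINIMISE: leading terms in a free module of power series in three variables, written by
coefficients.
-/

open Finset

namespace Vale.Agent.P190.Minimise

/-- Exponents of monomials. -/
abbrev Mon : Type := ℕ × ℕ × ℕ

/-- Terms of a free module of rank `r`. -/
abbrev Term (r : ℕ) : Type := Mon × Fin r

/-- The free module of rank `r` over the power series, by coefficients. -/
abbrev Vec (k : Type*) (r : ℕ) : Type _ := Term r → k

/-- The degree of a monomial. -/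
def deg (p : Mon) : ℕ := p.1 + (p.2.1 + p.2.2)

lemma deg_add (p q : Mon) : deg (p + q) = deg p + deg q := by
  simp only [deg, Prod.fst_add, Prod.snd_add]
  ring

lemma deg_mono {p q : Mon} (h : p ≤ q) : deg p ≤ deg q := by
  obtain ⟨h1, h2, h3⟩ := h
  simp only [deg]
  omega

/-- The monomials of degree `j`. -/
def monos (j : ℕ) : Finset Mon :=
  (range (j + 1)).biUnion fun a => (range (j - a + 1)).image fun b => (a, b, j - a - b)

lemma mem_monos {j : ℕ} {p : Mon} : p ∈ monos j ↔ deg p = j := by
  obtain ⟨a, b, c⟩ := p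
  simp only [monos, mem_biUnion, mem_range, mem_image, Prod.mk.injEq, deg]
  constructor
  · rintro ⟨a', ha, b', hb, rfl, rfl, rfl⟩
    omega
  · intro h
    exact ⟨a, by omega, b, by omega, rfl, rfl, by omega⟩

open Classical in
lemma card_monos_filter (S : Set Mon) (j : ℕ) :
    ((monos j).filter fun p => p ∉ S).card = cnt₃ S j := by
  rw [monos, filter_biUnion, card_biUnion, cnt₃]
  · refine sum_congr rfl fun a _ => ?_
    rw [filter_image, card_image_of_injective _ fun b b' h => by simpa using (Prod.mk.inj (Prod.mk.inj h).2).1,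
      cnt₂, ← Set.ncard_coe_finset]
    congr 1
    ext b
    simp
  · intro a _ a' _ hne
    simp only [Function.onFun, disjoint_left, mem_filter, mem_image]
    rintro p ⟨⟨b, _, rfl⟩, _⟩ ⟨⟨b', _, h⟩, _⟩
    exact hne (Prod.mk.inj h).1.symm

lemma card_monos (j : ℕ) : ((monos j).card : ℤ) = tri j := by
  classical
  have h := card_monos_filter (∅ : Set Mon) j
  simp only [Set.mem_empty_iff_false, not_false_eq_true, filter_true] at h
  rw [h]
  simp only [cnt₃, Set.mem_empty_iff_false, Set.setOf_false, cnt₂_empty]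
  clear h
  induction j with
  | zero => rfl
  | succ n ih =>
    rw [sum_range_succ', tri_succ, ← ih]
    simp only [Nat.succ_sub_succ, Nat.sub_zero]
    push_cast
    ring

/-- The order of terms: by degree, then lexicographically. -/
def key {r : ℕ} (t : Term r) : ℕ ×ₗ ℕ ×ₗ ℕ ×ₗ Fin r :=
  toLex (deg t.1, toLex (t.1.1, toLex (t.1.2.1, t.2)))

lemma key_injective {r : ℕ} : Function.Injective (key (r := r)) := by
  rintro ⟨⟨a, b, c⟩, i⟩ ⟨⟨a', b', c'⟩, i'⟩ h
  simp only [key, deg, toLex_inj, Prod.mk.injEq] at h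
  obtain ⟨h1, rfl, rfl, rfl⟩ := h
  simp only [Prod.mk.injEq, true_and, and_true]
  omega

lemma deg_le_of_key_le {r : ℕ} {t u : Term r} (h : key t ≤ key u) : deg t.1 ≤ deg u.1 := by
  simp only [key, Prod.Lex.toLex_le_toLex] at h
  rcases h with h | ⟨h, -⟩ <;> omega

lemma key_lt_add {r : ℕ} (p : Mon) {t u : Term r} :
    key (p + t.1, t.2) < key (p + u.1, u.2) ↔ key t < key u := by
  simp only [key, Prod.Lex.toLex_lt_toLex, deg_add, Prod.fst_add, Prod.snd_add, Nat.add_lt_add_iff_left,
    Nat.add_left_cancel_iff]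

variable {k : Type*} [Field k] {r : ℕ}

/-- `t` is the leading term of `v`. -/
def Lead (v : Vec k r) (t : Term r) : Prop :=
  v t ≠ 0 ∧ ∀ u, key u < key t → v u = 0

/-- Multiplication by a monomial. -/
def sh (p : Mon) : Vec k r →ₗ[k] Vec k r where
  toFun v t := if p ≤ t.1 then v (t.1 - p, t.2) else 0
  map_add' v w := by
    funext t
    by_cases h : p ≤ t.1 <;> simp [h]
  map_smul' c v := by
    funext t
    by_cases h : p ≤ t.1 <;> simp [h]

lemma sh_apply (p : Mon) (v : Vec k r) (t : Term r) :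
    sh p v t = if p ≤ t.1 then v (t.1 - p, t.2) else 0 := rfl

lemma sh_apply_add (p : Mon) (v : Vec k r) (t : Term r) : sh p v (p + t.1, t.2) = v t := by
  rw [sh_apply, if_pos (le_self_add : p ≤ p + t.1), add_tsub_cancel_left]

lemma sh_zero : sh (0 : Mon) = (LinearMap.id : Vec k r →ₗ[k] Vec k r) := by
  refine LinearMap.ext fun v => funext fun t => ?_
  simpa using sh_apply_add 0 v t

lemma sh_sh (p q : Mon) (v : Vec k r) : sh p (sh q v) = sh (p + q) v := by
  funext t
  simp only [sh_apply]
  by_cases hp : p ≤ t.1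
  · by_cases hq : q ≤ t.1 - p
    · have : p + q ≤ t.1 := by
        calc p + q ≤ p + (t.1 - p) := add_le_add le_rfl hq
          _ = t.1 := add_tsub_cancel_of_le hp
      rw [if_pos hp, if_pos hq, if_pos this, tsub_tsub]
    · rw [if_pos hp, if_neg hq, if_neg]
      exact fun h => hq (le_tsub_of_add_le_left h)
  · rw [if_neg hp, if_neg]
    exact fun h => hp (le_self_add.trans h)

lemma Lead.sh {v : Vec k r} {t : Term r} (h : Lead v t) (p : Mon) :
    Lead (sh p v) (p + t.1, t.2) := by
  refine ⟨by rw [sh_apply_add]; exact h.1, fun u hu => ?_⟩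
  rw [sh_apply]
  split_ifs with hp
  · refine h.2 _ ((key_lt_add p).1 ?_)
    rwa [add_tsub_cancel_of_le hp]
  · rfl

lemma lead_exists {v : Vec k r} (h : v ≠ 0) : ∃ t, Lead v t := by
  obtain ⟨t₀, ht₀⟩ := Function.ne_iff.1 h
  set T : Set (ℕ ×ₗ ℕ ×ₗ ℕ ×ₗ Fin r) := {x | ∃ t, v t ≠ 0 ∧ key t = x} with hT
  have hne : T.Nonempty := ⟨_, t₀, ht₀, rfl⟩
  obtain ⟨t, ht, e⟩ := wellFounded_lt.min_mem _ hne
  refine ⟨t, ht, fun u hu => by_contra fun h0 => ?_⟩
  exact (wellFounded_lt.not_lt_min T (x := key u) ⟨u, h0, rfl⟩) (e ▸ hu)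

/-- A subspace of a space of finitely many coefficients has as dimension its number of pivots. -/
theorem finrank_eq_pivots {ι : Type*} [Fintype ι] [LinearOrder ι] (W : Submodule k (ι → k)) :
    Module.finrank k W = {i | ∃ w ∈ W, w i ≠ 0 ∧ ∀ j < i, w j = 0}.ncard := by
  classical
  set P := {i | ∃ w ∈ W, w i ≠ 0 ∧ ∀ j < i, w j = 0}
  refine le_antisymm ?_ ?_
  · set φ : W →ₗ[k] (P → k) :=
      { toFun := fun w i => (w : ι → k) i
        map_add' := fun _ _ => rfl
        map_smul' := fun _ _ => rfl }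
    have hinj : Function.Injective φ := by
      refine (injective_iff_map_eq_zero φ).2 fun w hw => Subtype.ext (funext fun i => ?_)
      by_contra h
      have hs : (Finset.univ.filter fun j => (w : ι → k) j ≠ 0).Nonempty :=
        ⟨i, mem_filter.2 ⟨mem_univ _, h⟩⟩
      set j := (Finset.univ.filter fun j => (w : ι → k) j ≠ 0).min' hs
      have hj : (w : ι → k) j ≠ 0 :=
        (mem_filter.1 ((Finset.univ.filter fun j => (w : ι → k) j ≠ 0).min'_mem hs)).2
      have hjP : j ∈ P := ⟨w, w.2, hj, fun l hl => by_contra fun h0 =>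
        (Finset.min'_le _ l (mem_filter.2 ⟨mem_univ _, h0⟩)).not_gt hl⟩
      exact hj (congrFun hw ⟨j, hjP⟩)
    refine (LinearMap.finrank_le_finrank_of_injective hinj).trans ?_
    rw [Module.finrank_pi, ← Nat.card_eq_fintype_card, Nat.card_coe_set_eq]
  · choose w hwW hw0 hwlt using fun i : P => i.2
    have hli : LinearIndependent k (fun i : P => (⟨w i, hwW i⟩ : W)) := by
      rw [Fintype.linearIndependent_iff]
      intro g hg i
      by_contra hi
      have hs : (Finset.univ.filter fun j : P => g j ≠ 0).Nonempty :=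
        ⟨i, mem_filter.2 ⟨mem_univ _, hi⟩⟩
      set j := (Finset.univ.filter fun j : P => g j ≠ 0).min' hs
      have hj : g j ≠ 0 := (mem_filter.1 ((Finset.univ.filter fun j : P => g j ≠ 0).min'_mem hs)).2
      have h0 := congrFun (congrArg (Subtype.val (p := (· ∈ W))) hg) (j : ι)
      simp only [Submodule.coe_sum, Submodule.coe_smul, Finset.sum_apply, Pi.smul_apply,
        smul_eq_mul, ZeroMemClass.coe_zero, Pi.zero_apply] at h0
      rw [Finset.sum_eq_single j (fun l _ hl => ?_) (fun h => absurd (mem_univ _) h)] at h0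
      · exact mul_ne_zero hj (hw0 j) h0
      · by_cases hgl : g l = 0
        · rw [hgl, zero_mul]
        · rw [hwlt l j (lt_of_le_of_ne (Finset.min'_le _ l (mem_filter.2 ⟨mem_univ _, hgl⟩))
            (fun h => hl (Subtype.ext h.symm))), mul_zero]
    have := hli.fintype_card_le_finrank
    rwa [← Nat.card_eq_fintype_card, Nat.card_coe_set_eq] at this

end Vale.Agent.P190.Minimise
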