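import Vale.Agent.P190.Spec
import Vale.Agent.P190.Minimise.HullMain

/-!
P190, MINIMISE: an action to high enough order gives a graded reflexive module with a window.
-/

open Filter Finset

namespace Vale.Agent.P190.Minimise

variable {k K : Type} [Field k] [Field K] [Algebra k K] {C : Cone k K}

lemma hasPoly_of_nat {rK : ℕ} {N : ℤ → Submodule k (Fin rK → K)} {r e c : ℤ}
    (h : ∀ᶠ n : ℕ in atTop, (Module.finrank k (N (n : ℤ)) : ℤ) = poly r e c n) :
    HasPoly N (r : ℚ) (e : ℚ) (c : ℚ) := by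
  obtain ⟨M, hM⟩ := eventually_atTop.1 h
  refine eventually_atTop.2 ⟨(M : ℤ), fun n hn => ?_⟩
  obtain ⟨m, rfl⟩ : ∃ m : ℕ, n = m := ⟨n.toNat, by omega⟩
  have h1 : ((Module.finrank k (N (m : ℤ)) : ℤ) : ℚ) = ((poly r e c m : ℤ) : ℚ) := by
    rw [hM m (by omega)]
  have h2 : 2 * ((tri m : ℤ) : ℚ) = ((m : ℚ) + 1) * ((m : ℚ) + 2) := by exact_mod_cast two_mul_tri m
  simp only [poly, Int.cast_add, Int.cast_mul, Int.cast_natCast, Int.cast_one] at h1
  rw [h1]
  push_cast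
  linear_combination ((r : ℚ) / 2) * h2

lemma quad_bdd {a b c B : ℚ}
    (h : ∀ᶠ n : ℕ in atTop, |a * (((n : ℚ) + 2) * ((n : ℚ) + 1) / 2) + b * ((n : ℚ) + 1) + c| ≤ B) :
    a = 0 ∧ b = 0 := by
  obtain ⟨N, hN⟩ := eventually_atTop.1 h
  have hB : 0 ≤ B := (abs_nonneg _).trans (hN N le_rfl)
  have ha : a = 0 := by
    by_contra ha
    obtain ⟨m, hm⟩ := exists_nat_gt (4 * B / |a| + 1)
    have h0 := abs_le.1 (hN N le_rfl)
    have h1 := abs_le.1 (hN (N + m) (by omega))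
    have h2 := abs_le.1 (hN (N + 2 * m) (by omega))
    push_cast at h1 h2
    have hap : 0 < |a| := abs_pos.2 ha
    have hm1 : (1 : ℚ) ≤ m := by
      have : (0 : ℚ) ≤ 4 * B / |a| := by positivity
      linarith
    have hk : |a| * ((m : ℚ) * m) ≤ 4 * B := by
      rw [← abs_of_nonneg (show (0 : ℚ) ≤ (m : ℚ) * m by positivity), ← abs_mul, abs_le]
      constructor <;> linarith
    have hm4 : 4 * B < (m - 1) * |a| := by
      rw [← div_lt_iff₀ hap]; linarith
    nlinarith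
  subst ha
  refine ⟨rfl, ?_⟩
  by_contra hb
  obtain ⟨m, hm⟩ := exists_nat_gt (2 * B / |b| + 1)
  have h0 := abs_le.1 (hN N le_rfl)
  have h1 := abs_le.1 (hN (N + m) (by omega))
  push_cast at h1
  have hbp : 0 < |b| := abs_pos.2 hb
  have hk : |b| * (m : ℚ) ≤ 2 * B := by
    rw [← abs_of_nonneg (show (0 : ℚ) ≤ (m : ℚ) by positivity), ← abs_mul, abs_le]
    constructor <;> linarith
  have hm4 : 2 * B < (m - 1) * |b| := by
    rw [← div_lt_iff₀ hbp]; linarith
  nlinarith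

lemma span_first {rK : ℕ} {N : ℤ → Submodule k (Fin rK → K)} {n₁ : ℕ}
    (hsmul : ∀ (m n : ℤ), ∀ a ∈ C.R m, ∀ v ∈ N n, a • v ∈ N (m + n))
    (hgen : ∀ n ≥ (n₁ : ℤ), N (n + 1) ≤ N n
      ⊔ (N n).map (DistribSMul.toLinearMap k (Fin rK → K) C.η)
      ⊔ (N n).map (DistribSMul.toLinearMap k (Fin rK → K) C.ζ))
    (hspan : Submodule.span K (⋃ n, (N n : Set (Fin rK → K))) = ⊤) :
    Submodule.span (ratField k C.η C.ζ) (N (n₁ : ℤ) : Set (Fin rK → K)) = ⊤ := by
  set S := Submodule.span (ratField k C.η C.ζ) (N (n₁ : ℤ) : Set (Fin rK → K))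
  have hN : ∀ m, ∀ v ∈ N m, v ∈ S := fun m v hv => by
    rcases le_or_gt m (n₁ : ℤ) with hm | hm
    · refine Submodule.subset_span ?_
      have h1 : (1 : K) ∈ C.R ((n₁ : ℤ) - m) := poly_le_R C _ (one_mem_poly (by omega))
      have := hsmul _ _ _ h1 v hv
      rwa [one_smul, sub_add_cancel] at this
    · obtain ⟨j, rfl⟩ : ∃ j : ℕ, m = (n₁ : ℤ) + j := ⟨(m - n₁).toNat, by omega⟩
      refine Submodule.span_induction ?_ (zero_mem _) (fun _ _ _ _ => add_mem)
        (fun a x _ hx => by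
          rw [← algebraMap_smul (ratField k C.η C.ζ) a x]; exact S.smul_mem _ hx)
        (gen_le_span hgen j hv)
      rintro _ ⟨p, hp, w, hw, rfl⟩
      exact S.smul_mem (⟨p, poly_le_ratField _ hp⟩ : ratField k C.η C.ζ) (Submodule.subset_span hw)
  obtain ⟨b, -, hb, -⟩ := exists_coords C
  have hK : ∀ (a : K), ∀ x ∈ S, a • x ∈ S := fun a x hx => by
    refine Submodule.span_induction (fun v hv => ?_) (by rw [smul_zero]; exact zero_mem _)
      (fun x y _ _ hx hy => by rw [smul_add]; exact add_mem hx hy)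
      (fun q x _ hx => by rw [smul_comm]; exact S.smul_mem q hx) hx
    rw [← b.sum_repr a, sum_smul]
    refine sum_mem fun l _ => ?_
    rw [smul_assoc]
    exact S.smul_mem _ (hN _ _ (hsmul _ _ _ (hb l) v hv))
  rw [eq_top_iff]
  intro x _
  exact Submodule.span_induction (fun v hv => by
    obtain ⟨m, hm⟩ := Set.mem_iUnion.1 hv
    exact hN m v hm) (zero_mem _) (fun _ _ _ _ => add_mem) (fun a v _ hv => hK a v hv)
    (hspan.ge (Submodule.mem_top : x ∈ ⊤))

end Vale.Agent.P190.Minimise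

open Vale.Agent.P190.Minimise in
/-- Module MINIMISE. -/
theorem Vale.Agent.P190.minimiseModule : Vale.Agent.P190.MinimiseModule := by
  intro d g r₀ hr₀
  refine ⟨maxDeg d g + g + 2 * r₀ * r₀ * g * (g + 1) + 1, ?_⟩
  intro k K _ _ _ _ C hd hg happ
  subst hd hg
  obtain ⟨A⟩ := exists_act happ
  have hL₀ : maxDeg C.d C.g + C.g ≤
      maxDeg C.d C.g + C.g + 2 * r₀ * r₀ * C.g * (C.g + 1) + 1 := by omega
  obtain ⟨Φ, e, c, hTf, hK, hdisc, hh, hmin⟩ := exists_min (A.canon hL₀) (A.canon_tf hL₀)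
    (B := 2 * r₀ * r₀ * C.g * (C.g + 1)) fun e c h => A.canon_bound hL₀ h
  have hKw : Φ.K ≤ C.g + 2 * r₀ * r₀ * C.g * (C.g + 1) := hK
  obtain ⟨rK, N, hdr, hsmul, hfd, hbel, ⟨b, hgen⟩, hspan, hNpoly, hsub⟩ :=
    exists_graded Φ hTf (by omega) hh
  have hrK : 0 < rK := Nat.pos_of_ne_zero fun h => by rw [h, mul_zero] at hdr; omega
  have hrle : rK ≤ r₀ := by rw [← hdr]; exact Nat.le_mul_of_pos_left _ C.d_pos
  set n₁ : ℕ := b.toNat
  let N1 : ℤ → Submodule k (Fin rK → K) := fun m => if (n₁ : ℤ) ≤ m then N m else ⊥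
  have hN1 : ∀ m, (n₁ : ℤ) ≤ m → N1 m = N m := fun m hm => if_pos hm
  have hgen' : ∀ n ≥ (n₁ : ℤ), N (n + 1) ≤ N n
      ⊔ (N n).map (DistribSMul.toLinearMap k (Fin rK → K) C.η)
      ⊔ (N n).map (DistribSMul.toLinearMap k (Fin rK → K) C.ζ) := fun n hn =>
    (hgen n (by omega)).le
  have hpre : Pre C N1 n₁ := by
    refine ⟨fun m n a ha v hv => ?_, fun n => ?_, fun n hn => if_neg (by omega), fun n hn => ?_, ?_⟩
    · rcases lt_or_ge m 0 with hm | hm
      · rw [C.R_neg m hm, Submodule.mem_bot] at ha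
        rw [ha, zero_smul]; exact zero_mem _
      by_cases hn : (n₁ : ℤ) ≤ n
      · rw [hN1 n hn] at hv
        rw [hN1 _ (by omega)]
        exact hsmul m n a ha v hv
      · rw [show N1 n = ⊥ from if_neg hn, Submodule.mem_bot] at hv
        rw [hv, smul_zero]; exact zero_mem _
    · by_cases hn : (n₁ : ℤ) ≤ n
      · rw [hN1 n hn]; exact hfd n
      · rw [show N1 n = ⊥ from if_neg hn]; infer_instance
    · rw [hN1 n hn, hN1 _ (by omega)]; exact hgen' n hn
    · rw [hN1 _ le_rfl]; exact span_first hsmul hgen' hspan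
  have hN1poly : ∀ᶠ n : ℕ in atTop, (Module.finrank k (N1 (n : ℤ)) : ℤ) = poly r₀ e c n := by
    filter_upwards [hNpoly, eventually_ge_atTop n₁] with n hn hle
    rw [hN1 _ (by omega)]; exact hn
  obtain ⟨N', c', hmod, hcc, hpoly', B, hB⟩ := hpre.exists_hull hN1poly
  refine ⟨rK, N', hrK, hrle, hmod, (e : ℚ), (c' : ℚ), ?_, ?_, ?_⟩
  · rw [hdr]
    simpa using hasPoly_of_nat hpoly'
  · rw [hdr]
    have hr : (0 : ℚ) < r₀ := by exact_mod_cast hr₀
    have h0 : (0 : ℚ) ≤ ((disc r₀ e c : ℤ) : ℚ) := by exact_mod_cast hdisc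
    have hc' : (c : ℚ) ≤ (c' : ℚ) := by exact_mod_cast hcc
    simp only [disc] at h0
    push_cast at h0
    rw [show excess (r₀ : ℚ) (e : ℚ) (c' : ℚ) =
      (2 * (r₀ : ℚ) * c' - r₀ * e - (e : ℚ) ^ 2) / (2 * r₀) by rw [excess]; field_simp]
    refine div_nonneg ?_ (by positivity)
    nlinarith
  · intro W _ _ eV cV hV
    obtain ⟨S, hS⟩ := hsub W
    obtain ⟨s, eS, cS, -, -, hSp, hwin⟩ := window hh hmin S
    obtain ⟨M, hM⟩ := eventually_atTop.1 hV
    set σ : ℕ := C.d * Module.finrank K W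
    have hdiff : ∀ᶠ n : ℕ in atTop, |((σ : ℚ) - s) * (((n : ℚ) + 2) * ((n : ℚ) + 1) / 2) +
        (eV - eS) * ((n : ℚ) + 1) + (cV - cS)| ≤ B := by
      filter_upwards [eventually_ge_atTop M.toNat, eventually_ge_atTop n₁, hB (W.restrictScalars k),
        hSp] with n hnM hn1 hnB hnS
      rw [hN1 _ (by omega)] at hnB
      rw [hS] at hnS
      have hv := hM (n : ℤ) (by omega)
      have h2 : 2 * ((tri n : ℤ) : ℚ) = ((n : ℚ) + 1) * ((n : ℚ) + 2) := by
        exact_mod_cast two_mul_tri n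
      have hnS' : ((Module.finrank k ↥(N (n : ℤ) ⊓ W.restrictScalars k) : ℤ) : ℚ) =
          ((poly s eS cS n : ℤ) : ℚ) := by rw [hnS]
      simp only [poly, Int.cast_add, Int.cast_mul, Int.cast_natCast, Int.cast_one] at hnS'
      have hl : ((Module.finrank k ↥(N (n : ℤ) ⊓ W.restrictScalars k) : ℕ) : ℚ) ≤
          Module.finrank k ↥(N' (n : ℤ) ⊓ W.restrictScalars k) := by exact_mod_cast hnB.1
      have hu : ((Module.finrank k ↥(N' (n : ℤ) ⊓ W.restrictScalars k) : ℕ) : ℚ) ≤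
          Module.finrank k ↥(N (n : ℤ) ⊓ W.restrictScalars k) + B := by exact_mod_cast hnB.2
      rw [Cone.part] at hv
      push_cast at hv
      have key : ((σ : ℚ) - s) * (((n : ℚ) + 2) * ((n : ℚ) + 1) / 2) +
          (eV - eS) * ((n : ℚ) + 1) + (cV - cS) =
          (Module.finrank k ↥(N' (n : ℤ) ⊓ W.restrictScalars k) : ℚ) -
            Module.finrank k ↥(N (n : ℤ) ⊓ W.restrictScalars k) := by
        rw [hv, hnS']
        linear_combination ((s : ℚ) / 2) * h2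
      rw [key, abs_le]
      constructor <;> linarith
    obtain ⟨hσ, heV⟩ := quad_bdd hdiff
    have hs : (s : ℚ) = C.d * (Module.finrank K W : ℚ) := by
      have : (σ : ℚ) = C.d * (Module.finrank K W : ℚ) := by simp [σ]
      linarith
    have hdrQ : (C.d : ℚ) * rK = r₀ := by exact_mod_cast hdr
    have hr : (0 : ℚ) < r₀ := by exact_mod_cast hr₀
    have hrKQ : (0 : ℚ) < rK := by exact_mod_cast hrK
    have hd0 : (0 : ℚ) < C.d := by exact_mod_cast C.d_pos
    have hw : 2 * (r₀ : ℚ) * eS ≤ 2 * e * s + ((r₀ : ℚ) - s) * s := by exact_mod_cast hwin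
    rw [show eV = (eS : ℚ) by linarith]
    set u : ℚ := (Module.finrank K W : ℚ)
    have hu0 : 0 ≤ u := Nat.cast_nonneg _
    have hu1 : u ≤ rK := by
      have := W.finrank_le
      rw [Module.finrank_fin_fun] at this
      exact Nat.cast_le.2 this
    rw [hs, ← hdrQ] at hw
    have hdiv : (eS : ℚ) ≤ e / rK * u + (C.d * (rK - u) * u / rK) / 2 := by
      rw [show e / (rK : ℚ) * u + (C.d * (rK - u) * u / rK) / 2 =
        (2 * e * (C.d * u) + (C.d * rK - C.d * u) * (C.d * u)) / (2 * (C.d * rK)) by field_simp,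
        le_div_iff₀ (by positivity)]
      linarith
    refine hdiv.trans ?_
    refine add_le_add le_rfl (div_le_div_of_nonneg_right (le_min ?_ ?_) zero_le_two)
    · rw [div_le_iff₀ hrKQ]
      nlinarith [mul_nonneg (mul_nonneg hd0.le hu0) hu0]
    · rw [div_le_iff₀ hrKQ]
      nlinarith [mul_nonneg (mul_nonneg hd0.le (sub_nonneg.2 hu1)) (sub_nonneg.2 hu1)]
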