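import Vale.Agent.P190.Defs
import Vale.Agent.P190.Minimise.Lead

/-!
P190, MINIMISE: the graded polynomial ring inside the field of fractions of degree zero.
-/

open Finset

namespace Vale.Agent.P190.Minimise

variable {k K : Type} [Field k] [Field K] [Algebra k K] {η ζ : K}

/-- A monomial, divided by the power of `x` of its degree. -/
def mono (η ζ : K) (p : Mon) : K := η ^ p.2.1 * ζ ^ p.2.2

lemma mono_add (p q : Mon) : mono η ζ (p + q) = mono η ζ p * mono η ζ q := by
  simp only [mono, Prod.fst_add, Prod.snd_add, pow_add]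
  ring

lemma mono_zero : mono η ζ (0 : Mon) = 1 := by simp [mono]

lemma monom_mem_poly {a b : ℕ} {m : ℤ} (h : ((a + b : ℕ) : ℤ) ≤ m) :
    η ^ a * ζ ^ b ∈ polySpace (k := k) η ζ m :=
  Submodule.subset_span ⟨a, b, h, rfl⟩

lemma mono_mem_poly (p : Mon) : mono η ζ p ∈ polySpace (k := k) η ζ (deg p : ℤ) :=
  monom_mem_poly (by simp only [deg]; push_cast; omega)

lemma poly_mono {m m' : ℤ} (h : m ≤ m') : polySpace (k := k) η ζ m ≤ polySpace (k := k) η ζ m' :=
  Submodule.span_mono fun _ ⟨a, b, hab, e⟩ => ⟨a, b, hab.trans h, e⟩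

lemma poly_bot {m : ℤ} (h : m < 0) : polySpace (k := k) η ζ m = ⊥ := by
  rw [eq_bot_iff, polySpace, Submodule.span_le]
  rintro v ⟨a, b, hab, -⟩
  omega

lemma one_mem_poly {m : ℤ} (h : 0 ≤ m) : (1 : K) ∈ polySpace (k := k) η ζ m := by
  simpa using monom_mem_poly (k := k) (η := η) (ζ := ζ) (a := 0) (b := 0) (by simpa using h)

lemma mul_mem_poly {m n : ℤ} {p q : K} (hp : p ∈ polySpace (k := k) η ζ m)
    (hq : q ∈ polySpace (k := k) η ζ n) : p * q ∈ polySpace (k := k) η ζ (m + n) := by
  refine Submodule.span_induction ?_ (by simp) (fun x y _ _ hx hy => by rw [add_mul]; exact add_mem hx hy)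
    (fun c x _ hx => by rw [smul_mul_assoc]; exact Submodule.smul_mem _ c hx) hp
  rintro _ ⟨a, b, hab, rfl⟩
  refine Submodule.span_induction ?_ (by simp) (fun x y _ _ hx hy => by rw [mul_add]; exact add_mem hx hy)
    (fun c x _ hx => by rw [mul_smul_comm]; exact Submodule.smul_mem _ c hx) hq
  rintro _ ⟨a', b', hab', rfl⟩
  rw [mul_mul_mul_comm, ← pow_add, ← pow_add]
  exact monom_mem_poly (by push_cast at hab hab' ⊢; omega)

lemma prod_mem_poly {ι : Type*} (s : Finset ι) (f : ι → K) (D : ℤ) (hD : 0 ≤ D)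
    (h : ∀ i ∈ s, f i ∈ polySpace (k := k) η ζ D) :
    ∏ i ∈ s, f i ∈ polySpace (k := k) η ζ (s.card * D) := by
  classical
  induction s using Finset.induction with
  | empty => simpa using one_mem_poly (le_refl (0 : ℤ))
  | @insert a s ha ih =>
    rw [prod_insert ha, card_insert_of_notMem ha]
    push_cast
    rw [add_mul, one_mul, add_comm]
    exact mul_mem_poly (h a (mem_insert_self a s)) (ih fun i hi => h i (mem_insert_of_mem hi))

lemma poly_le_ratField (m : ℤ) {p : K} (hp : p ∈ polySpace (k := k) η ζ m) :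
    p ∈ ratField k η ζ := by
  refine Submodule.span_induction ?_ (zero_mem _) (fun _ _ _ _ => add_mem)
    (fun c x _ hx => (ratField k η ζ).smul_mem hx) hp
  rintro _ ⟨a, b, -, rfl⟩
  exact mul_mem (pow_mem (IntermediateField.subset_adjoin _ _ (by simp)) _)
    (pow_mem (IntermediateField.subset_adjoin _ _ (by simp)) _)

/-- The polynomial with the given coefficients in degree `m`. -/
noncomputable def val (η ζ : K) (m : ℕ) : (↥(monos m) → k) →ₗ[k] K :=
  Fintype.linearCombination k fun p => mono η ζ p.1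

lemma val_apply (m : ℕ) (c : ↥(monos m) → k) :
    val η ζ m c = ∑ p, c p • mono η ζ p.1 := rfl

lemma range_val (m : ℕ) :
    LinearMap.range (val (k := k) η ζ m) = polySpace (k := k) η ζ (m : ℤ) := by
  rw [val, Fintype.range_linearCombination, polySpace]
  congr 1
  ext v
  constructor
  · rintro ⟨⟨⟨a, b, c⟩, hp⟩, rfl⟩
    rw [mem_monos, deg] at hp
    exact ⟨b, c, by simp only at hp; omega, rfl⟩
  · rintro ⟨a, b, hab, rfl⟩
    exact ⟨⟨(m - (a + b), a, b), mem_monos.2 (by simp only [deg]; omega)⟩, rfl⟩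

lemma exists_val {m : ℕ} {p : K} (hp : p ∈ polySpace (k := k) η ζ (m : ℤ)) :
    ∃ c, val (k := k) η ζ m c = p := by
  rw [← range_val] at hp
  exact hp

/-- The exponent of a monomial in `η, ζ`. -/
noncomputable def expo (p : Mon) : Fin 2 →₀ ℕ :=
  Finsupp.single 0 p.2.1 + Finsupp.single 1 p.2.2

lemma expo_zero_apply (p : Mon) : expo p 0 = p.2.1 := by simp [expo]

lemma expo_one_apply (p : Mon) : expo p 1 = p.2.2 := by simp [expo]

lemma aeval_expo (p : Mon) :
    MvPolynomial.aeval ![η, ζ] (MvPolynomial.monomial (expo p) (1 : k)) = mono η ζ p := by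
  rw [MvPolynomial.aeval_monomial, map_one, one_mul, expo,
    Finsupp.prod_add_index' (fun i => pow_zero _) (fun i => pow_add _),
    Finsupp.prod_single_index, Finsupp.prod_single_index] <;> simp [mono]

lemma linearIndependent_mono (h : AlgebraicIndependent k ![η, ζ]) (m : ℕ) :
    LinearIndependent k fun p : ↥(monos m) => mono η ζ p.1 := by
  have hinj : Function.Injective fun p : ↥(monos m) => expo p.1 := by
    rintro ⟨⟨a, b, c⟩, hp⟩ ⟨⟨a', b', c'⟩, hp'⟩ e
    have h0 := congrArg (fun s => s 0) e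
    have h1 := congrArg (fun s => s 1) e
    simp only [expo_zero_apply, expo_one_apply] at h0 h1
    simp only [mem_monos, deg] at hp hp'
    simp only [Subtype.mk.injEq, Prod.mk.injEq]
    exact ⟨by omega, h0, h1⟩
  have := ((MvPolynomial.basisMonomials (Fin 2) k).linearIndependent.comp _ hinj).map'
    (MvPolynomial.aeval ![η, ζ]).toLinearMap (LinearMap.ker_eq_bot.2 h)
  simpa [Function.comp_def, MvPolynomial.coe_basisMonomials, aeval_expo] using this

lemma val_injective (h : AlgebraicIndependent k ![η, ζ]) (m : ℕ) :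
    Function.Injective (val (k := k) η ζ m) :=
  (linearIndependent_mono h m).fintypeLinearCombination_injective

lemma finrank_poly (h : AlgebraicIndependent k ![η, ζ]) (m : ℕ) :
    (Module.finrank k (polySpace (k := k) η ζ (m : ℤ)) : ℤ) = tri m := by
  rw [← range_val, LinearMap.finrank_range_of_inj (val_injective h m), Module.finrank_pi,
    Fintype.card_coe, card_monos]

instance fd_poly (m : ℤ) : FiniteDimensional k (polySpace (k := k) η ζ m) := by
  rcases lt_or_ge m 0 with h | h
  · rw [poly_bot h]; infer_instance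
  · obtain ⟨m, rfl⟩ := Int.eq_ofNat_of_zero_le h
    rw [← range_val]
    infer_instance

lemma exists_totalDegree {m : ℤ} {p : K} (hp : p ∈ polySpace (k := k) η ζ m) :
    ∃ P : MvPolynomial (Fin 2) k, MvPolynomial.aeval ![η, ζ] P = p ∧
      (P.totalDegree : ℤ) ≤ max m 0 := by
  refine Submodule.span_induction ?_ ⟨0, by simp, by simp⟩ ?_ ?_ hp
  · rintro _ ⟨a, b, hab, rfl⟩
    refine ⟨MvPolynomial.X 0 ^ a * MvPolynomial.X 1 ^ b, by simp, ?_⟩
    have h := MvPolynomial.totalDegree_mul ((MvPolynomial.X 0 : MvPolynomial (Fin 2) k) ^ a)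
      (MvPolynomial.X 1 ^ b)
    simp only [MvPolynomial.totalDegree_X_pow] at h
    omega
  · rintro x y - - ⟨P, rfl, hP⟩ ⟨Q, rfl, hQ⟩
    exact ⟨P + Q, map_add _ _ _, le_trans (Int.ofNat_le.2 (MvPolynomial.totalDegree_add P Q))
      (by push_cast; omega)⟩
  · rintro c x - ⟨P, rfl, hP⟩
    exact ⟨c • P, map_smul _ _ _, le_trans (Int.ofNat_le.2 (MvPolynomial.totalDegree_smul_le c P)) hP⟩

lemma aeval_mem_poly (P : MvPolynomial (Fin 2) k) {m : ℤ} (h : (P.totalDegree : ℤ) ≤ m) :
    MvPolynomial.aeval ![η, ζ] P ∈ polySpace (k := k) η ζ m := by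
  rw [P.as_sum, map_sum]
  refine sum_mem fun s hs => ?_
  have hd := MvPolynomial.le_totalDegree hs
  rw [Finsupp.sum_fintype _ _ fun _ => rfl, Fin.sum_univ_two] at hd
  rw [MvPolynomial.aeval_monomial, Finsupp.prod_fintype _ _ fun _ => pow_zero _,
    Fin.prod_univ_two]
  simp only [Matrix.cons_val_zero, Matrix.cons_val_one, ← Algebra.smul_def]
  exact Submodule.smul_mem _ _ (monom_mem_poly (by push_cast at h ⊢; omega))

end Vale.Agent.P190.Minimise
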