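import Vale.Agent.P190.Minimise.Poly

/-!
P190, MINIMISE: traces of elements of the ring are polynomials of the same degree.
-/

open Finset MvPolynomial

namespace Vale.Agent.P190.Minimise

variable {k K : Type} [Field k] [Field K] [Algebra k K]

/-- Elements stabilising a finite module over a polynomial ring have polynomial trace. -/
theorem trace_mem_range (F : IntermediateField k K) [FiniteDimensional F K] (a b : F)
    (hinj : Function.Injective (aeval (R := k) ![(a : K), (b : K)]))
    (hgen : ∀ x : F, ∃ r s : MvPolynomial (Fin 2) k,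
      (x : K) = aeval ![(a : K), (b : K)] r / aeval ![(a : K), (b : K)] s)
    (G : Submodule k K) [FiniteDimensional k G] (hG : G ≠ ⊥) (y : K)
    (hy : ∀ n ∈ G, y * n ∈ Submodule.span k
      {v | ∃ P : MvPolynomial (Fin 2) k, ∃ g ∈ G, v = aeval ![(a : K), (b : K)] P * g}) :
    ∃ P : MvPolynomial (Fin 2) k,
      (Algebra.trace F K y : K) = aeval ![(a : K), (b : K)] P := by
  letI algF : Algebra (MvPolynomial (Fin 2) k) F := (aeval (R := k) ![a, b]).toRingHom.toAlgebra
  letI algK : Algebra (MvPolynomial (Fin 2) k) K :=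
    (aeval (R := k) ![(a : K), (b : K)]).toRingHom.toAlgebra
  have he : ∀ P : MvPolynomial (Fin 2) k,
      ((aeval (R := k) ![a, b] P : F) : K) = aeval ![(a : K), (b : K)] P := fun P => by
    exact congrArg (fun φ : MvPolynomial (Fin 2) k →ₐ[k] K => φ P)
      (show F.val.comp (aeval ![a, b]) = aeval ![(a : K), (b : K)] from
        algHom_ext fun i => by fin_cases i <;> simp)
  haveI : IsScalarTower (MvPolynomial (Fin 2) k) F K :=
    IsScalarTower.of_algebraMap_eq fun P => (he P).symm
  haveI : FaithfulSMul (MvPolynomial (Fin 2) k) F :=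
    (faithfulSMul_iff_algebraMap_injective _ _).2 fun P Q e => hinj (by
      rw [← he, ← he]; exact congrArg Subtype.val e)
  haveI : IsFractionRing (MvPolynomial (Fin 2) k) F := IsFractionRing.of_field _ _ fun x => by
    obtain ⟨r, s, e⟩ := hgen x
    exact ⟨r, s, Subtype.ext (by
      show (x : K) = _
      rw [e, ← he r, ← he s]
      rfl)⟩
  have hint : IsIntegral (MvPolynomial (Fin 2) k) y := by
    obtain ⟨s, hs⟩ := Module.Finite.iff_fg.1 (inferInstance : Module.Finite k G)
    have hsG : Submodule.span (MvPolynomial (Fin 2) k) (G : Set K) =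
        Submodule.span (MvPolynomial (Fin 2) k) (s : Set K) := by
      refine le_antisymm (Submodule.span_le.2 fun v hv => ?_)
        (Submodule.span_mono fun v hv => by rw [← hs]; exact Submodule.subset_span hv)
      rw [← hs] at hv
      refine Submodule.span_induction (fun x hx => Submodule.subset_span hx) (zero_mem _)
        (fun _ _ _ _ => add_mem) (fun c x _ hx => ?_) hv
      have : c • x = (C c : MvPolynomial (Fin 2) k) • x := by
        rw [Algebra.smul_def, Algebra.smul_def]
        congr 1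
        exact (aeval_C _ c).symm
      rw [this]
      exact Submodule.smul_mem _ _ hx
    refine isIntegral_of_smul_mem_submodule (Submodule.span (MvPolynomial (Fin 2) k) (G : Set K))
      ?_ ⟨s, hsG.symm⟩ y fun n hn => ?_
    · obtain ⟨v, hv, hv0⟩ := (Submodule.ne_bot_iff _).1 hG
      exact (Submodule.ne_bot_iff _).2 ⟨v, Submodule.subset_span hv, hv0⟩
    · refine Submodule.span_induction (fun x hx => ?_) (by simp)
        (fun u v _ _ hu hv => by rw [smul_add]; exact add_mem hu hv)
        (fun c x _ hx => by rw [smul_comm]; exact Submodule.smul_mem _ c hx) hn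
      rw [smul_eq_mul]
      refine Submodule.span_induction ?_ (zero_mem _) (fun _ _ _ _ => add_mem) ?_ (hy x hx)
      · rintro _ ⟨P, g, hg, rfl⟩
        exact Submodule.smul_mem _ P (Submodule.subset_span hg)
      · intro c v _ hv
        have : c • v = (C c : MvPolynomial (Fin 2) k) • v := by
          rw [Algebra.smul_def, Algebra.smul_def]
          congr 1
          exact (aeval_C _ c).symm
        rw [this]
        exact Submodule.smul_mem _ _ hv
  obtain ⟨P, hP⟩ := IsIntegrallyClosed.isIntegral_iff.1 (Algebra.isIntegral_trace (L := F) hint)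
  exact ⟨P, by rw [← hP]; exact he P⟩

variable (C : Cone k K)

instance fd_cone : FiniteDimensional (ratField k C.η C.ζ) K :=
  FiniteDimensional.of_finrank_pos (by rw [C.finrank_K]; exact C.d_pos)

lemma R_le_succ (n : ℤ) : C.R n ≤ C.R (n + 1) := fun a ha => by
  simpa using C.mul_mem _ _ _ ha _ C.one_mem

lemma R_mono {m n : ℤ} (h : m ≤ n) : C.R m ≤ C.R n := by
  induction n, h using Int.le_induction with
  | base => exact le_rfl
  | succ n _ ih => exact ih.trans (R_le_succ C n)

lemma mono_mem_R (p : Mon) : mono C.η C.ζ p ∈ C.R (deg p : ℤ) := by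
  have h1 : (1 : K) ∈ C.R 0 := by rw [C.R_zero]; exact Submodule.subset_span rfl
  have hp : ∀ (a : K), a ∈ C.R 1 → ∀ j : ℕ, a ^ j ∈ C.R (j : ℤ) := fun a ha j => by
    induction j with
    | zero => simpa using h1
    | succ n ih => rw [pow_succ]; push_cast; exact C.mul_mem _ _ _ ih _ ha
  refine R_mono C ?_ (C.mul_mem _ _ _ (hp _ C.η_mem p.2.1) _ (hp _ C.ζ_mem p.2.2))
  simp only [deg]
  push_cast
  omega

lemma poly_le_R (m : ℤ) : polySpace (k := k) C.η C.ζ m ≤ C.R m := by
  rw [polySpace, Submodule.span_le]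
  rintro _ ⟨a, b, hab, rfl⟩
  have := mono_mem_R C (0, a, b)
  exact R_mono C (by simpa [deg] using hab) this

/-- The high pieces are spanned by the products of monomials and the piece of degree `g`. -/
lemma R_gen (i : ℕ) : C.R ((C.g : ℤ) + i) ≤
    Submodule.span k {v | ∃ p ∈ monos i, ∃ b ∈ C.R C.g, v = mono C.η C.ζ p * b} := by
  induction i with
  | zero =>
    intro b hb
    exact Submodule.subset_span ⟨0, mem_monos.2 rfl, b, by simpa using hb, by rw [mono_zero, one_mul]⟩
  | succ n ih =>
    rw [show (C.g : ℤ) + ((n + 1 : ℕ) : ℤ) = ((C.g : ℤ) + n) + 1 by push_cast; ring,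
      C.gen _ (by omega)]
    have key : ∀ (c : K) (u : Mon), deg u = 1 → c = mono C.η C.ζ u →
        (C.R ((C.g : ℤ) + n)).map (LinearMap.mulLeft k c) ≤ Submodule.span k
          {v | ∃ p ∈ monos (n + 1), ∃ b ∈ C.R C.g, v = mono C.η C.ζ p * b} := fun c u hu hc => by
      refine (Submodule.map_mono ih).trans (Submodule.map_span_le _ _ _ |>.2 ?_)
      rintro _ ⟨p, hp, b, hb, rfl⟩
      refine Submodule.subset_span ⟨u + p, ?_, b, hb, ?_⟩
      · rw [mem_monos] at hp ⊢
        rw [deg_add, hu, hp, add_comm]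
      · rw [LinearMap.mulLeft_apply, hc, mono_add, mul_assoc]
    refine sup_le (sup_le ?_ (key _ (0, 1, 0) rfl (by simp [mono])))
      (key _ (0, 0, 1) rfl (by simp [mono]))
    intro v hv
    exact key 1 (1, 0, 0) rfl (by simp [mono]) ⟨v, hv, by simp⟩

/-- The trace of an element of degree `i` is a polynomial of degree at most `i`. -/
theorem trace_mem_poly {i : ℕ} {a : K} (ha : a ∈ C.R (i : ℤ)) :
    (Algebra.trace (ratField k C.η C.ζ) K a : K) ∈ polySpace (k := k) C.η C.ζ (i : ℤ) := by
  set F := ratField k C.η C.ζ with hF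
  haveI : FiniteDimensional k (C.R C.g) := C.fd _
  have hG : C.R (C.g : ℤ) ≠ ⊥ := fun h => by
    have h1 : (1 : K) ∈ C.R (C.g : ℤ) := R_mono C (Int.natCast_nonneg _) (by
      rw [C.R_zero]; exact Submodule.subset_span rfl)
    rw [h] at h1
    exact one_ne_zero ((Submodule.mem_bot k).1 h1)
  have hη0 : C.η ≠ 0 := fun h => by
    have := C.indep (a₁ := X (0 : Fin 2)) (a₂ := 0) (by simp [h])
    exact X_ne_zero _ this
  have hζ0 : C.ζ ≠ 0 := fun h => by
    have := C.indep (a₁ := X (1 : Fin 2)) (a₂ := 0) (by simp [h])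
    exact X_ne_zero _ this
  have hηF : C.η ∈ F := IntermediateField.subset_adjoin _ _ (by simp)
  have hζF : C.ζ ∈ F := IntermediateField.subset_adjoin _ _ (by simp)
  -- the first chart
  obtain ⟨P, hP⟩ := trace_mem_range F ⟨C.η, hηF⟩ ⟨C.ζ, hζF⟩ C.indep (fun x =>
    (IntermediateField.mem_adjoin_range_iff k ![C.η, C.ζ] (x : K)).1 (by
      rw [Matrix.range_cons_cons_empty]; exact x.2)) (C.R C.g) hG a fun n hn => by
    refine Submodule.span_mono ?_ (R_gen C i (by
      rw [mul_comm]; exact C.mul_mem _ _ _ hn _ ha))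
    rintro _ ⟨p, -, b, hb, rfl⟩
    exact ⟨monomial (expo p) 1, b, hb, by rw [aeval_expo]⟩
  simp only at hP
  -- the chart at infinity
  set u := C.η⁻¹ with hu
  set w := C.ζ * C.η⁻¹ with hw
  have huF : u ∈ F := inv_mem hηF
  have hwF : w ∈ F := mul_mem hζF (inv_mem hηF)
  have hom : ∀ (Q : MvPolynomial (Fin 2) k) (N : ℕ), Q.totalDegree ≤ N →
      C.η ^ N * aeval ![u, w] Q = val C.η C.ζ N
        (fun p => coeff (Finsupp.single 0 p.1.1 + Finsupp.single 1 p.1.2.2) Q) := by
    intro Q N hN
    rw [val_apply, Finset.sum_coe_sort (monos N) (fun p => coeff (Finsupp.single 0 p.1 + Finsupp.single 1 p.2.2) Q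
      • mono C.η C.ζ p)]
    rw [show aeval ![u, w] Q = ∑ s ∈ Q.support, coeff s Q • (u ^ s 0 * w ^ s 1) by
      conv_lhs => rw [Q.as_sum]
      rw [map_sum]
      refine sum_congr rfl fun s _ => ?_
      rw [aeval_monomial, Finsupp.prod_fintype _ _ fun _ => pow_zero _, Fin.prod_univ_two,
        Algebra.smul_def]
      rfl, mul_sum]
    refine (sum_bij_ne_zero (fun s _ _ => ((s 0, N - s 0 - s 1, s 1) : Mon)) ?_ ?_ ?_ ?_)
    · intro s hs _
      have hd := le_totalDegree hs
      rw [Finsupp.sum_fintype _ _ fun _ => rfl, Fin.sum_univ_two] at hd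
      exact mem_monos.2 (by simp only [deg]; omega)
    · intro s _ _ t _ _ e
      simp only [Prod.mk.injEq] at e
      ext j
      fin_cases j
      · exact e.1
      · exact e.2.2
    · rintro ⟨a', b', c'⟩ hp hne
      rw [mem_monos, deg] at hp
      refine ⟨Finsupp.single 0 a' + Finsupp.single 1 c', ?_, ?_, ?_⟩
      · rw [mem_support_iff]
        exact fun h => hne (by simp [h])
      · have hne' : coeff (Finsupp.single (0 : Fin 2) a' + Finsupp.single 1 c') Q ≠ 0 :=
          fun h => hne (by simp [h])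
        exact mul_ne_zero (pow_ne_zero _ hη0) (smul_ne_zero hne' (mul_ne_zero
          (pow_ne_zero _ (inv_ne_zero hη0))
          (pow_ne_zero _ (mul_ne_zero hζ0 (inv_ne_zero hη0)))))
      · simp only [Prod.mk.injEq, Finsupp.add_apply, Finsupp.single_eq_same, ne_eq, one_ne_zero,
          not_false_eq_true, Finsupp.single_eq_of_ne, zero_ne_one, add_zero, zero_add, and_true,
          true_and]
        simp only at hp ⊢
        omega
    · intro s hs _
      have hd := le_totalDegree hs
      rw [Finsupp.sum_fintype _ _ fun _ => rfl, Fin.sum_univ_two] at hd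
      have es : Finsupp.single (0 : Fin 2) (s 0) + Finsupp.single 1 (s 1) = s := by
        ext j; fin_cases j <;> simp
      simp only [es, mono, hu, hw, mul_smul_comm, mul_pow, inv_pow]
      congr 1
      rw [show N = N - s 0 - s 1 + s 0 + s 1 by omega, pow_add, pow_add,
        show N - s 0 - s 1 + s 0 + s 1 - s 0 - s 1 = N - s 0 - s 1 by omega]
      field_simp
  have hinj : Function.Injective (aeval (R := k) ![u, w]) := by
    refine (injective_iff_map_eq_zero _).2 fun Q hQ => ?_
    have h0 := hom Q Q.totalDegree le_rfl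
    rw [hQ, mul_zero] at h0
    have hc := val_injective C.indep Q.totalDegree (h0.symm.trans (map_zero _).symm)
    ext s
    by_cases hs : s ∈ Q.support
    · have hd := le_totalDegree hs
      rw [Finsupp.sum_fintype _ _ fun _ => rfl, Fin.sum_univ_two] at hd
      have := congrFun hc ⟨(s 0, Q.totalDegree - s 0 - s 1, s 1),
        mem_monos.2 (by simp only [deg]; omega)⟩
      have es : Finsupp.single (0 : Fin 2) (s 0) + Finsupp.single 1 (s 1) = s := by
        ext j; fin_cases j <;> simp
      simpa [es] using this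
    · simpa using hs
  have hgen : ∀ x : F, ∃ r s : MvPolynomial (Fin 2) k,
      (x : K) = aeval ![u, w] r / aeval ![u, w] s := fun x => by
    refine (IntermediateField.mem_adjoin_range_iff k ![u, w] (x : K)).1 ?_
    refine (IntermediateField.adjoin_le_iff.2 ?_) x.2
    rw [Matrix.range_cons_cons_empty]
    have e1 : C.η ∈ IntermediateField.adjoin k ({u, w} : Set K) := by
      simpa [hu] using inv_mem (IntermediateField.subset_adjoin k ({u, w} : Set K)
        (Set.mem_insert u _))
    rintro v (rfl | rfl)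
    · exact e1
    · simpa [hw, hη0] using mul_mem (IntermediateField.subset_adjoin k ({u, w} : Set K)
        (Set.mem_insert_of_mem u rfl)) e1
  obtain ⟨Q, hQ⟩ := trace_mem_range F ⟨u, huF⟩ ⟨w, hwF⟩ hinj hgen (C.R C.g) hG
    (a * (C.η ^ i)⁻¹) fun n hn => by
    have h1 : a * n ∈ C.R ((C.g : ℤ) + i) := by
      rw [mul_comm]; exact C.mul_mem _ _ _ hn _ ha
    rw [show a * (C.η ^ i)⁻¹ * n = LinearMap.mulLeft k (C.η ^ i)⁻¹ (a * n) by
      rw [LinearMap.mulLeft_apply]; ring]
    refine (Submodule.map_span_le _ _ _ |>.2 ?_) (Submodule.mem_map_of_mem (R_gen C i h1))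
    rintro _ ⟨⟨a', b', c'⟩, hp, b, hb, rfl⟩
    rw [mem_monos, deg] at hp
    simp only at hp
    refine Submodule.subset_span ⟨X 0 ^ a' * X 1 ^ c', b, hb, ?_⟩
    simp only [map_mul, map_pow, aeval_X, LinearMap.mulLeft_apply, mono, Matrix.cons_val_zero,
      Matrix.cons_val_one, hu, hw, mul_pow, inv_pow, ← hp, pow_add]
    field_simp
  have hηi : (C.η ^ i)⁻¹ ∈ F := inv_mem (pow_mem hηF i)
  have htr : (Algebra.trace F K a : K) * (C.η ^ i)⁻¹ = aeval ![u, w] Q := by
    simp only at hQ
    rw [← hQ, show a * (C.η ^ i)⁻¹ = (⟨_, hηi⟩ : F) • a by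
      rw [IntermediateField.smul_def, smul_eq_mul, mul_comm], map_smul]
    simp [mul_comm]
  -- compare
  rw [hP]
  rcases eq_or_ne P 0 with rfl | hP0
  · simp
  set N := Q.totalDegree
  have hmem : C.η ^ N * aeval ![C.η, C.ζ] P ∈ polySpace (k := k) C.η C.ζ (((i + N : ℕ)) : ℤ) := by
    have : C.η ^ N * aeval ![C.η, C.ζ] P = C.η ^ i * (C.η ^ N * aeval ![u, w] Q) := by
      rw [← htr, hP]; field_simp
    rw [this, hom Q N le_rfl]
    push_cast
    refine mul_mem_poly ?_ (by rw [← range_val]; exact ⟨_, rfl⟩)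
    simpa using monom_mem_poly (k := k) (η := C.η) (ζ := C.ζ) (a := i) (b := 0) (le_refl _)
  obtain ⟨P', hP', hd⟩ := exists_totalDegree hmem
  have e : P' = X 0 ^ N * P := C.indep (by rw [hP']; simp)
  rw [e, totalDegree_mul_of_isDomain (pow_ne_zero _ (X_ne_zero _)) hP0, totalDegree_X_pow] at hd
  exact aeval_mem_poly P (by push_cast at hd ⊢; omega)

end Vale.Agent.P190.Minimise
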