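import Mathlib

/-!
P190, MINIMISE: the complement of an up-set of monomials in three variables has, degree by
degree, the count of a quotient of a free module: eventually `q * C(j+2,2) + e (j+1) + c` with
`0 ≤ q ≤ 1` and `0 ≤ e`.
-/

open Filter Finset

namespace Vale.Agent.P190.Minimise

/-- The number of monomials of degree `j` in three variables. -/
def tri (j : ℕ) : ℤ := (Nat.choose (j + 2) 2 : ℤ)

lemma tri_succ (j : ℕ) : tri (j + 1) = tri j + (j + 2) := by
  simp only [tri]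
  rw [show j + 1 + 2 = (j + 2) + 1 by ring, Nat.choose_succ_succ, Nat.choose_one_right]
  push_cast
  ring

lemma tri_zero : tri 0 = 1 := rfl

lemma tri_nonneg (j : ℕ) : 0 ≤ tri j := Int.natCast_nonneg _

lemma two_mul_tri (j : ℕ) : 2 * tri j = ((j : ℤ) + 1) * ((j : ℤ) + 2) := by
  induction j with
  | zero => rfl
  | succ n ih => rw [tri_succ]; push_cast; linarith

/-- The shape of a Hilbert function. -/
def poly (r e c : ℤ) (n : ℕ) : ℤ := r * tri n + e * ((n : ℤ) + 1) + c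

lemma poly_inj {r e c r' e' c' : ℤ} (h : ∀ᶠ n : ℕ in atTop, poly r e c n = poly r' e' c' n) :
    r = r' ∧ e = e' ∧ c = c' := by
  obtain ⟨N, hN⟩ := eventually_atTop.1 h
  have h0 := hN N le_rfl
  have h1 := hN (N + 1) (by omega)
  have h2 := hN (N + 2) (by omega)
  simp only [poly, show N + 2 = N + 1 + 1 from rfl, tri_succ] at h0 h1 h2
  push_cast at h0 h1 h2
  have hr : r = r' := by linarith
  subst hr
  have he : e = e' := by linarith
  subst he
  exact ⟨rfl, rfl, by linarith⟩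

/-- The complement of `S` in degree `m` of two variables. -/
noncomputable def cnt₂ (S : Set (ℕ × ℕ)) (m : ℕ) : ℕ :=
  {b ∈ (range (m + 1) : Set ℕ) | (b, m - b) ∉ S}.ncard

/-- The complement of `S` in degree `j` of three variables. -/
noncomputable def cnt₃ (S : Set (ℕ × ℕ × ℕ)) (j : ℕ) : ℕ :=
  ∑ a ∈ range (j + 1), cnt₂ {p | (a, p) ∈ S} (j - a)

lemma cnt₂_empty (m : ℕ) : cnt₂ ∅ m = m + 1 := by
  have e : {b ∈ (range (m + 1) : Set ℕ) | (b, m - b) ∉ (∅ : Set (ℕ × ℕ))} = ↑(range (m + 1)) := by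
    ext b; simp
  rw [cnt₂, e, Set.ncard_coe_finset, card_range]

lemma cnt₂_le (S : Set (ℕ × ℕ)) (m : ℕ) : cnt₂ S m ≤ m + 1 := by
  refine (Set.ncard_le_ncard (t := (range (m + 1) : Set ℕ)) (fun b hb => hb.1)
    (Finset.finite_toSet _)).trans ?_
  simp

/-- A monotone proposition is eventually constant. -/
lemma eventually_const_prop (p : ℕ → Prop) (hp : ∀ m n, m ≤ n → p m → p n) :
    ∃ b : Prop, ∀ᶠ m in atTop, (p m ↔ b) := by
  by_cases h : ∃ m, p m
  · obtain ⟨m, hm⟩ := h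
    exact ⟨True, (eventually_ge_atTop m).mono fun n hn => iff_true_intro (hp m n hn hm)⟩
  · exact ⟨False, Eventually.of_forall fun n => iff_false_intro fun hn => h ⟨n, hn⟩⟩

lemma cnt₂_eventually_const {S : Set (ℕ × ℕ)} (hS : IsUpperSet S) (hne : S.Nonempty) :
    ∃ c : ℕ, ∀ᶠ m in atTop, cnt₂ S m = c := by
  classical
  obtain ⟨⟨u, v⟩, huv⟩ := hne
  have hup : ∀ {b c b' c' : ℕ}, b ≤ b' → c ≤ c' → (b, c) ∈ S → (b', c') ∈ S :=
    fun hb hc h => hS (Prod.mk_le_mk.2 ⟨hb, hc⟩) h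
  choose L hL using fun b : ℕ => eventually_const_prop (fun m => b ≤ m ∧ (b, m - b) ∈ S)
    fun m n hmn h => ⟨h.1.trans hmn, hup le_rfl (by omega) h.2⟩
  choose R hR using fun c : ℕ => eventually_const_prop (fun m => c ≤ m ∧ (m - c, c) ∈ S)
    fun m n hmn h => ⟨h.1.trans hmn, hup (by omega) le_rfl h.2⟩
  refine ⟨((range u).filter fun b => ¬ L b).card + ((range v).filter fun c => ¬ R c).card, ?_⟩
  have eL : ∀ᶠ m in atTop, ∀ b ∈ range u, (b ≤ m ∧ (b, m - b) ∈ S ↔ L b) :=
    (Filter.eventually_all_finset _).2 fun b _ => hL b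
  have eR : ∀ᶠ m in atTop, ∀ c ∈ range v, (c ≤ m ∧ (m - c, c) ∈ S ↔ R c) :=
    (Filter.eventually_all_finset _).2 fun c _ => hR c
  filter_upwards [eL, eR, eventually_ge_atTop (u + v)] with m hLm hRm hm
  have e : {b ∈ (range (m + 1) : Set ℕ) | (b, m - b) ∉ S} =
      ↑((range u).filter fun b => ¬ L b) ∪
        (fun c => m - c) '' ↑((range v).filter fun c => ¬ R c) := by
    ext b
    simp only [coe_range, Set.mem_ofPred_eq, Set.mem_Iio, Set.mem_union, coe_filter, mem_range,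
      Set.mem_image]
    constructor
    · rintro ⟨hb, hnb⟩
      by_cases hbu : b < u
      · exact Or.inl ⟨hbu, fun hl => hnb ((hLm b (mem_range.2 hbu)).2 hl).2⟩
      · have hcv : m - b < v := by
          by_contra hc
          exact hnb (hup (by omega) (by omega) huv)
        refine Or.inr ⟨m - b, ⟨hcv, fun hr => hnb ?_⟩, by omega⟩
        have := ((hRm _ (mem_range.2 hcv)).2 hr).2
        rwa [show m - (m - b) = b by omega] at this
    · rintro (⟨hb, hl⟩ | ⟨c, ⟨hc, hr⟩, rfl⟩)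
      · exact ⟨by omega, fun h => hl ((hLm b (mem_range.2 hb)).1 ⟨by omega, h⟩)⟩
      · refine ⟨by omega, fun h => hr ((hRm c (mem_range.2 hc)).1 ⟨by omega, ?_⟩)⟩
        rwa [show m - (m - c) = c by omega] at h
  rw [cnt₂, e, Set.ncard_union_eq ?_ (Finset.finite_toSet _) ((Finset.finite_toSet _).image _),
    Set.ncard_coe_finset, Set.InjOn.ncard_image ?_, Set.ncard_coe_finset]
  · intro a ha b hb hab
    simp only [coe_filter, Set.mem_ofPred_eq, mem_range] at ha hb
    simp only at hab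
    omega
  · rw [Set.disjoint_left]
    rintro b hb ⟨c, hc, rfl⟩
    simp only [coe_filter, Set.mem_ofPred_eq, mem_range] at hb hc
    omega

/-- An increasing sequence of up-sets of the plane is eventually constant. -/
lemma upset_stabilises (S : ℕ → Set (ℕ × ℕ)) (hS : ∀ a, IsUpperSet (S a))
    (hmono : ∀ a b, a ≤ b → S a ⊆ S b) : ∃ a₀, ∀ a, a₀ ≤ a → S a = S a₀ := by
  by_contra h
  push Not at h
  have hs : ∀ a, ∃ b, a < b ∧ ∃ x ∈ S b, x ∉ S a := fun a => by
    obtain ⟨b, hab, hne⟩ := h a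
    refine ⟨b, lt_of_le_of_ne hab (fun e => hne (by rw [e])), ?_⟩
    by_contra hx
    push Not at hx
    exact hne (Set.Subset.antisymm hx (hmono a b hab))
  choose next hlt x hxin hxout using hs
  let f : ℕ → ℕ := fun n => next^[n] 0
  have hf : ∀ n, f (n + 1) = next (f n) := fun n => Function.iterate_succ_apply' _ _ _
  have hfm : Monotone f := monotone_nat_of_le_succ fun n => by rw [hf]; exact (hlt _).le
  obtain ⟨i, j, hij, hle⟩ := wellQuasiOrdered_le fun n => x (f n)
  exact hxout (f j) (hS _ hle (hmono _ _ ((hf i).ge.trans (hfm (Nat.succ_le_of_lt hij))) (hxin (f i))))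

/-- The complement of an up-set in three variables has the count of a quotient of `A`. -/
theorem cnt₃_data {S : Set (ℕ × ℕ × ℕ)} (hS : IsUpperSet S) :
    ∃ q e c : ℤ, 0 ≤ q ∧ q ≤ 1 ∧ 0 ≤ e ∧ ∀ᶠ j in atTop, (cnt₃ S j : ℤ) = poly q e c j := by
  classical
  set T : ℕ → Set (ℕ × ℕ) := fun a => {p | (a, p) ∈ S} with hT
  have hTu : ∀ a, IsUpperSet (T a) := fun a p p' hp h => hS (Prod.mk_le_mk.2 ⟨le_rfl, hp⟩) h
  have hTm : ∀ a b, a ≤ b → T a ⊆ T b := fun a b hab p h =>
    hS (Prod.mk_le_mk.2 ⟨hab, le_rfl⟩) h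
  obtain ⟨a₀, ha₀⟩ := upset_stabilises T hTu hTm
  by_cases hne : (T a₀).Nonempty
  swap
  · refine ⟨1, 0, 0, zero_le_one, le_rfl, le_rfl, Eventually.of_forall fun j => ?_⟩
    have he : ∀ a, T a = ∅ := fun a => by
      rcases le_total a a₀ with h | h
      · exact Set.subset_eq_empty (hTm a a₀ h) (Set.not_nonempty_iff_eq_empty.1 hne)
      · rw [ha₀ a h]; exact Set.not_nonempty_iff_eq_empty.1 hne
    have : ∀ j : ℕ, (∑ a ∈ range (j + 1), ((j - a : ℕ) + 1) : ℤ) = tri j := by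
      intro n
      induction n with
      | zero => rfl
      | succ n ih =>
        rw [sum_range_succ', tri_succ, ← ih]
        simp only [Nat.succ_sub_succ, Nat.sub_zero]
        push_cast
        ring
    simp only [cnt₃, poly, one_mul, zero_mul, add_zero]
    rw [Finset.sum_congr rfl fun a _ => show cnt₂ {p | (a, p) ∈ S} (j - a) = j - a + 1 by
      rw [show {p | (a, p) ∈ S} = (∅ : Set (ℕ × ℕ)) from he a, cnt₂_empty]]
    push_cast
    exact this j
  · -- the low sections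
    have hlow : ∀ a, ∃ e c : ℤ, 0 ≤ e ∧
        ∀ᶠ m in atTop, (cnt₂ (T a) m : ℤ) = e * ((m : ℤ) + 1) + c := fun a => by
      rcases (T a).eq_empty_or_nonempty with h | h
      · exact ⟨1, 0, zero_le_one, Eventually.of_forall fun m => by rw [h, cnt₂_empty]; simp⟩
      · obtain ⟨c, hc⟩ := cnt₂_eventually_const (hTu a) h
        exact ⟨0, c, le_rfl, hc.mono fun m hm => by simp [hm]⟩
    choose e c he hec using hlow
    obtain ⟨c₁, hc₁⟩ := cnt₂_eventually_const (hTu a₀) hne
    obtain ⟨m₀, hm₀⟩ := eventually_atTop.1 hc₁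
    -- the sum of the stable part
    set s : ℤ := ∑ m ∈ range m₀, (cnt₂ (T a₀) m : ℤ) - c₁ * m₀ with hs
    have hstab : ∀ n, m₀ ≤ n + 1 →
        ∑ m ∈ range (n + 1), (cnt₂ (T a₀) m : ℤ) = c₁ * ((n : ℤ) + 1) + s := fun n hn => by
      have e3 : ∑ m ∈ Ico m₀ (n + 1), (cnt₂ (T a₀) m : ℤ) = ∑ m ∈ Ico m₀ (n + 1), (c₁ : ℤ) :=
        sum_congr rfl fun m hm => by rw [hm₀ m (mem_Ico.1 hm).1]
      rw [← sum_range_add_sum_Ico _ hn, e3, sum_const, Nat.card_Ico, nsmul_eq_mul, Nat.cast_sub hn,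
        hs]
      push_cast
      ring
    refine ⟨0, ∑ a ∈ range a₀, e a + c₁,
      ∑ a ∈ range a₀, (c a - e a * a) + (s - c₁ * a₀), le_rfl, zero_le_one,
      add_nonneg (sum_nonneg fun a _ => he a) (Int.natCast_nonneg _), ?_⟩
    have hev : ∀ᶠ j in atTop, ∀ a ∈ range a₀,
        (cnt₂ (T a) (j - a) : ℤ) = e a * (((j - a : ℕ) : ℤ) + 1) + c a :=
      (Filter.eventually_all_finset _).2 fun a _ => (tendsto_sub_atTop_nat a).eventually (hec a)
    filter_upwards [hev, eventually_ge_atTop (a₀ + m₀)] with j hj hjm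
    obtain ⟨n, rfl⟩ := Nat.exists_eq_add_of_le (show a₀ ≤ j by omega)
    have e1 : ∀ a ∈ range a₀, (cnt₂ (T a) (a₀ + n - a) : ℤ) =
        e a * (((a₀ + n : ℕ) : ℤ) + 1) + (c a - e a * a) := fun a ha => by
      have := mem_range.1 ha
      rw [hj a ha, Nat.cast_sub (by omega)]
      ring
    have e2 : ∑ x ∈ range (n + 1), (cnt₂ (T (a₀ + x)) (a₀ + n - (a₀ + x)) : ℤ) =
        c₁ * ((n : ℤ) + 1) + s := by
      rw [← hstab n (by omega),
        ← sum_range_reflect (fun m => (cnt₂ (T a₀) m : ℤ)) (n + 1)]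
      refine sum_congr rfl fun x hx => ?_
      rw [ha₀ (a₀ + x) (by omega)]
      congr 2
      omega
    simp only [cnt₃, poly, zero_mul, zero_add]
    push_cast
    rw [show a₀ + n + 1 = a₀ + (n + 1) by ring, sum_range_add]
    simp only [hT] at e1 e2
    rw [e2, sum_congr rfl e1, sum_add_distrib, ← sum_mul]
    push_cast
    ring

end Vale.Agent.P190.Minimise
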